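import Vale.Agent.P165.HY.Codes

/-!
# Chains: the targets of every level

When the bound on separated targets fails at an exponent `θ`, iterated joins give families whose
chances, truncated at `1 / L`, sum to about `L ^ (θ - 1)` within logarithmically many steps. Their
levels are linear in the window and the most charged one gives the targets.
-/

namespace Vale.Agent.P165.HY.Core

open Finset FF

variable {Γ O ι V : Type} [Group Γ] [Fintype ι] (E : Core Γ V O ι) [DecidableEq V] {p : ℝ}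

/-- Iterated joins of a family that breaks the bound: their truncated chances at every scale. -/
theorem exists_stop (hp : 0 < p) (hp1 : p ≤ 1) {θ : ℝ} (hθ : 0 < θ) (hθ1 : θ ≤ 1)
    (hnb : ¬ E.Bound p θ) :
    ∃ (r : ℕ) (κ : ℝ), 0 < κ ∧ ∀ n : ℕ, ∀ t : ℝ, (1 / 2 : ℝ) ^ n ≤ t → t ≤ 1 →
      ∃ F : Finset E.Tgt, (∀ e ∈ F, E.Strict e) ∧
        κ * t ^ (1 - θ) ≤ ∑ e ∈ F, min (E.PsiN ((n + 1) * r) ((n + 1) * r) p e) t := by
  classical
  simp only [Bound, not_forall, not_le] at hnb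
  obtain ⟨ρ, W₀, hW₀, hs₀, hgt₀⟩ := hnb
  set W₁ := W₀.filter fun v => 0 < E.Psi ρ p v with hW₁
  have hW₁' : E.Apart W₁ := hW₀.mono (coe_subset.2 (filter_subset _ _))
  have hs₁ : ∀ v ∈ W₁, E.Strict v := fun v hv => hs₀ v (mem_filter.1 hv).1
  set P : E.Tgt → ℝ := fun v => E.c₁ p * E.Psi ρ p v with hP
  have hc := E.c₁_pos hp
  have hN := E.cast_N_pos
  have hN1 : (1 : ℝ) ≤ E.N := Nat.one_le_cast.2 E.one_le_N
  have hP0 : ∀ v ∈ W₁, 0 < P v := fun v hv => mul_pos hc (mem_filter.1 hv).2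
  have hPhalf : ∀ v, P v ≤ 1 / 2 := fun v =>
    (mul_le_of_le_one_right hc.le (E.psi_le_one ρ hp.le hp1 v)).trans (E.c₁_le_half hp.le hp1)
  have hPblk : ∀ v, P v ≤ p ^ E.blk * E.Psi ρ p v := fun v =>
    mul_le_mul_of_nonneg_right (E.c₁_le_pow hp.le) (E.psi_nonneg ρ hp.le hp1 v)
  have hgt : (E.N : ℝ) < ∑ v ∈ W₁, P v ^ θ := by
    have e : ∑ v ∈ W₁, P v ^ θ = E.c₁ p ^ θ * ∑ v ∈ W₁, E.Psi ρ p v ^ θ := by
      rw [mul_sum]
      exact sum_congr rfl fun v _ => Real.mul_rpow hc.le (E.psi_nonneg ρ hp.le hp1 v)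
    rw [e]
    refine lt_of_lt_of_eq hgt₀ (congrArg (fun x : ℝ => E.c₁ p ^ θ * x) ?_)
    refine (sum_filter_of_ne fun v _ hne => ?_).symm
    refine lt_of_le_of_ne (E.psi_nonneg ρ hp.le hp1 v) fun h => hne ?_
    rw [← h, Real.zero_rpow hθ.ne']
  have hne : W₁.Nonempty :=
    nonempty_of_sum_ne_zero (s := W₁) (f := fun v => P v ^ θ) (by linarith)
  set κ := W₁.inf' hne P with hκ
  have hκ0 : 0 < κ := (Finset.lt_inf'_iff hne).2 hP0
  have hκle : ∀ v ∈ W₁, κ ≤ P v := fun v hv => inf'_le _ hv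
  set r := ρ + (inE E.nb (E.om ρ)).card + E.blk + 1 with hr
  have hbase : ∀ (n : ℕ) (v : E.Tgt), P v ≤ E.PsiN ((n + 1) * r) ((n + 1) * r) p v := fun n v => by
    have h1 : r ≤ (n + 1) * r := Nat.le_mul_of_pos_left r (Nat.succ_pos n)
    exact ((mul_le_of_le_one_left (E.psi_nonneg ρ hp.le hp1 v) (E.c₁_le_one hp.le hp1)).trans
      (E.psi_le_psiN ρ hp.le hp1 v)).trans (E.psiN_mono (by omega) (by omega) hp.le hp1 v)
  refine ⟨r, κ, hκ0, fun n => ?_⟩
  induction n with
  | zero =>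
    intro t ht0 ht1
    rw [pow_zero] at ht0
    obtain rfl : t = 1 := le_antisymm ht1 ht0
    refine ⟨W₁, hs₁, ?_⟩
    rw [Real.one_rpow, mul_one]
    refine (hκle _ hne.choose_spec).trans ((le_min (hbase 0 _)
      ((hPhalf _).trans (by norm_num))).trans (single_le_sum
        (f := fun e => min (E.PsiN ((0 + 1) * r) ((0 + 1) * r) p e) 1)
        (fun e _ => le_min (E.psiN_nonneg _ _ hp.le hp1 e) zero_le_one) hne.choose_spec))
  | succ n ih =>
    intro t ht0 ht1
    have htpos : 0 < t := lt_of_lt_of_le (by positivity) ht0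
    have hsub : ∀ v ∈ W₁, ∃ S : Finset E.Tgt,
        (∀ e ∈ S, E.Strict e ∧ E.hull e ⊆ E.hull v ∧ (E.hull e).Nonempty) ∧
        κ * P v ^ θ * t ^ (1 - θ) ≤
          E.N * ∑ e ∈ S, min (E.PsiN ((n + 1 + 1) * r) ((n + 1 + 1) * r) p e) t := by
      intro v hv
      have hPv := hP0 v hv
      rcases le_or_gt (P v) t with hle | hlt
      · refine ⟨{v}, fun e he => ?_, ?_⟩
        · rw [mem_singleton] at he
          subst he
          exact ⟨hs₁ _ hv, subset_rfl,
            (E.nonempty_of_psi_pos hp.le hp1 (mem_filter.1 hv).2).mono (E.cap_hull _)⟩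
        rw [sum_singleton]
        refine le_trans ?_ (le_mul_of_one_le_left
          (le_min (E.psiN_nonneg _ _ hp.le hp1 v) htpos.le) hN1)
        refine le_trans ?_ (le_min ((le_min le_rfl hle).trans
          ((min_le_left _ _).trans (hbase _ v))) hle)
        have h3 : κ ≤ P v ^ (1 - θ) := by
          refine (hκle v hv).trans ?_
          conv_lhs => rw [← Real.rpow_one (P v)]
          exact Real.rpow_le_rpow_of_exponent_ge hPv ((hPhalf v).trans (by norm_num)) (by linarith)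
        calc κ * P v ^ θ * t ^ (1 - θ) ≤ κ * P v ^ θ * 1 := mul_le_mul_of_nonneg_left
              (Real.rpow_le_one htpos.le ht1 (by linarith)) (by positivity)
          _ ≤ P v ^ (1 - θ) * P v ^ θ := by
              rw [mul_one]
              exact mul_le_mul_of_nonneg_right h3 (Real.rpow_nonneg hPv.le _)
          _ = P v := by rw [← Real.rpow_add hPv, sub_add_cancel, Real.rpow_one]
      · obtain ⟨F, hFs, hF⟩ := ih (t / P v) (by
            rw [le_div_iff₀ hPv]
            refine le_trans (mul_le_mul_of_nonneg_left (hPhalf v) (by positivity)) ?_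
            rw [← pow_succ]; exact ht0)
          ((div_le_one hPv).2 hlt.le)
        obtain ⟨S, hS, hSmin⟩ :=
          E.exists_step hp.le hp1 ρ ((n + 1) * r) ((n + 1) * r) (hs₁ v hv) F hFs
        refine ⟨S, hS, le_trans ?_ ((hSmin t htpos.le).trans
          (mul_le_mul_of_nonneg_left (sum_le_sum fun e _ =>
            min_le_min_right t (E.psiN_mono ?_ ?_ hp.le hp1 e)) hN.le))⟩
        · calc κ * P v ^ θ * t ^ (1 - θ) = P v * (κ * (t / P v) ^ (1 - θ)) := by
                rw [Real.div_rpow htpos.le hPv.le]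
                have h3 : P v ^ θ * P v ^ (1 - θ) = P v := by
                  rw [← Real.rpow_add hPv, add_sub_cancel, Real.rpow_one]
                have h4 : 0 < P v ^ (1 - θ) := Real.rpow_pos_of_pos hPv _
                field_simp
                exact h3
            _ ≤ P v * ∑ e ∈ F, min (E.PsiN ((n + 1) * r) ((n + 1) * r) p e) (t / P v) :=
                mul_le_mul_of_nonneg_left hF hPv.le
            _ ≤ _ := by
                rw [mul_sum]
                refine sum_le_sum fun e _ => ?_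
                rw [mul_min_of_nonneg _ _ hPv.le, mul_div_cancel₀ _ hPv.ne']
                exact min_le_min_right t (mul_le_mul_of_nonneg_right (hPblk v)
                  (E.psiN_nonneg _ _ hp.le hp1 e))
        · have e : (n + 1 + 1) * r = (n + 1) * r + r := by ring
          omega
        · have e : (n + 1 + 1) * r = (n + 1) * r + r := by ring
          omega
    choose! S hS hSsum using hsub
    refine ⟨W₁.biUnion S, fun e he => ?_, ?_⟩
    · obtain ⟨v, hv, he⟩ := mem_biUnion.1 he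
      exact (hS v hv e he).1
    rw [sum_biUnion (E.disjoint_of_below hW₁' hS)]
    refine le_of_mul_le_mul_left (a := (E.N : ℝ)) ?_ hN
    calc (E.N : ℝ) * (κ * t ^ (1 - θ)) ≤ (∑ v ∈ W₁, P v ^ θ) * (κ * t ^ (1 - θ)) :=
          mul_le_mul_of_nonneg_right hgt.le (mul_nonneg hκ0.le (Real.rpow_nonneg htpos.le _))
      _ = ∑ v ∈ W₁, κ * P v ^ θ * t ^ (1 - θ) := by
          rw [sum_mul]
          exact sum_congr rfl fun v _ => by ring
      _ ≤ _ := by
          rw [mul_sum]
          exact sum_le_sum hSsum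

/-- The targets of every level, at one level each. -/
theorem exists_chains (hp : 0 < p) (hp1 : p ≤ 1) {θ δ : ℝ} (hθ : 0 < θ) (hθ1 : θ ≤ 1) (hδ : 0 < δ)
    (hnb : ¬ E.Bound p θ) :
    ∃ (κ : ℝ) (C : ℕ) (W : ℕ → Finset E.Tgt) (l : ℕ → ℕ), 0 < κ ∧
      (∀ L, ∀ e ∈ W L, E.Strict e ∧ E.lev e = l L ∧ (E.cap e).Nonempty) ∧
      ∀ L : ℕ, 1 ≤ L → κ * (L : ℝ) ^ (θ - δ) ≤ ∑ e ∈ W L,
        min ((L : ℝ) * E.PsiN (C * (Nat.log 2 L + 1)) (C * (Nat.log 2 L + 1)) p e) 1 := by
  classical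
  obtain ⟨r, κ₀, hκ0, hstop⟩ := E.exists_stop hp hp1 hθ hθ1 hnb
  set C := 2 * r with hC
  set G : ℝ := (E.N : ℝ) * ((C : ℝ) + 1) + 1 with hG
  set Λ : ℝ := G * (1 / (δ * Real.log 2) + 1) with hΛ
  have hl2 : (0 : ℝ) < Real.log 2 := Real.log_pos one_lt_two
  have hΛ0 : 0 < Λ := by positivity
  have key : ∀ L : ℕ, ∃ (W : Finset E.Tgt) (l : ℕ),
      (∀ e ∈ W, E.Strict e ∧ E.lev e = l ∧ (E.cap e).Nonempty) ∧
      (1 ≤ L → κ₀ / Λ * (L : ℝ) ^ (θ - δ) ≤ ∑ e ∈ W,
        min ((L : ℝ) * E.PsiN (C * (Nat.log 2 L + 1)) (C * (Nat.log 2 L + 1)) p e) 1) := by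
    intro L
    rcases Nat.eq_zero_or_pos L with rfl | hL
    · exact ⟨∅, 0, by simp, fun h => absurd h (by norm_num)⟩
    set lg := Nat.log 2 L with hlg
    set n := C * (lg + 1)
    set R := (lg + 1 + 1) * r
    have hLpos : (0 : ℝ) < L := by exact_mod_cast hL
    have hsmall : (1 / 2 : ℝ) ^ (lg + 1) ≤ 1 / L := by
      rw [one_div_pow]
      refine one_div_le_one_div_of_le hLpos ?_
      have h := Nat.lt_pow_succ_log_self one_lt_two L
      calc (L : ℝ) ≤ ((2 ^ (lg + 1) : ℕ) : ℝ) := by exact_mod_cast h.le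
        _ = 2 ^ (lg + 1) := by push_cast; ring
    obtain ⟨F, hFs, hF⟩ := hstop (lg + 1) (1 / L) hsmall
      ((div_le_one hLpos).2 (by exact_mod_cast hL))
    have hRn : R ≤ n := by
      have e1 : R = (lg + 1) * r + r := by ring
      have e2 : n = 2 * ((lg + 1) * r) := by simp only [n, hC]; ring
      have e4 : r ≤ (lg + 1) * r := Nat.le_mul_of_pos_left _ (Nat.succ_pos _)
      omega
    set g : E.Tgt → ℝ := fun e => min ((L : ℝ) * E.PsiN R R p e) 1 with hg
    have hg0 : ∀ e, 0 ≤ g e := fun e =>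
      le_min (mul_nonneg hLpos.le (E.psiN_nonneg _ _ hp.le hp1 e)) zero_le_one
    set F' := F.filter fun e => 0 < E.PsiN R R p e
    have hF' : ∀ e ∈ F', (E.cap e).Nonempty ∧ E.lev e ∈ range (E.N * (n + 1) + 1) := by
      intro e he
      obtain ⟨he1, he2⟩ := mem_filter.1 he
      obtain ⟨u, hu, hu2⟩ := E.exists_mem_of_psiN_pos hp.le hp1 he2
      obtain ⟨w, hw⟩ := E.mem_ball.1 (E.mem_om.1 hu2).1
      have h := E.count.2 e u R (hFs e he1) hu ⟨w, hw, fun _ _ => Set.mem_univ _⟩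
      exact ⟨⟨u, hu⟩, mem_range.2 (Nat.lt_succ_of_le
        (h.trans (Nat.mul_le_mul_left _ (by omega))))⟩
    obtain ⟨l, -, hl⟩ : ∃ l ∈ range (E.N * (n + 1) + 1), ∑ e ∈ F', g e ≤
        ((E.N * (n + 1) + 1 : ℕ) : ℝ) * ∑ e ∈ F'.filter (fun e => E.lev e = l), g e := by
      obtain ⟨l, hl, hmax⟩ := exists_max_image (range (E.N * (n + 1) + 1))
        (fun l => ∑ e ∈ F'.filter (fun e => E.lev e = l), g e) ⟨0, mem_range.2 (Nat.succ_pos _)⟩
      refine ⟨l, hl, ?_⟩
      rw [← sum_fiberwise_of_maps_to (g := fun e : E.Tgt => E.lev e) fun e he => (hF' e he).2]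
      exact (sum_le_card_nsmul _ _ _ fun l' hl' => hmax l' hl').trans
        (le_of_eq (by rw [card_range, nsmul_eq_mul]))
    refine ⟨F'.filter fun e => E.lev e = l, l, fun e he => ?_, fun _ => ?_⟩
    · obtain ⟨he1, he2⟩ := mem_filter.1 he
      exact ⟨hFs e (mem_filter.1 he1).1, he2, (hF' e he1).1⟩
    refine le_trans ?_ (sum_le_sum (f := g) fun e _ => min_le_min_right 1
      (mul_le_mul_of_nonneg_left (E.psiN_mono hRn hRn hp.le hp1 e) hLpos.le))
    have htot : κ₀ * (L : ℝ) ^ θ ≤ ∑ e ∈ F', g e := by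
      have h3 := mul_le_mul_of_nonneg_left hF hLpos.le
      rw [mul_sum] at h3
      refine le_trans (le_of_eq_of_le ?_ h3) (le_of_eq ?_)
      · rw [one_div, Real.inv_rpow hLpos.le, ← Real.rpow_neg hLpos.le, mul_left_comm]
        congr 1
        conv_rhs => enter [1]; rw [← Real.rpow_one (L : ℝ)]
        rw [← Real.rpow_add hLpos]
        ring_nf
      · rw [sum_filter_of_ne fun e _ hne => ?_]
        · exact sum_congr rfl fun e _ => by
            simp only [hg]
            rw [mul_min_of_nonneg _ _ hLpos.le, mul_one_div_cancel hLpos.ne']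
        · refine lt_of_le_of_ne (E.psiN_nonneg _ _ hp.le hp1 e) fun h => hne ?_
          simp only [hg, ← h, mul_zero, min_eq_left zero_le_one]
    have hN : ((E.N * (n + 1) + 1 : ℕ) : ℝ) ≤ Λ * (L : ℝ) ^ δ := by
      have h2 := FQ.log_steps_le 1 hL hδ
      rw [one_mul, Nat.cast_one, one_mul] at h2
      calc ((E.N * (n + 1) + 1 : ℕ) : ℝ)
          = (E.N : ℝ) * ((C : ℝ) * ((lg + 1 : ℕ) : ℝ) + 1) + 1 := by simp only [n]; push_cast; ring
        _ ≤ G * ((lg + 1 : ℕ) : ℝ) := by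
            rw [hG]
            push_cast
            nlinarith [(Nat.cast_nonneg lg : (0 : ℝ) ≤ lg), (Nat.cast_nonneg E.N : (0 : ℝ) ≤ E.N)]
        _ ≤ G * ((1 / (δ * Real.log 2) + 1) * (L : ℝ) ^ δ) :=
            mul_le_mul_of_nonneg_left h2 (by positivity)
        _ = _ := by ring
    set Sl := ∑ e ∈ F'.filter (fun e => E.lev e = l), g e
    have hS0 : 0 ≤ Sl := sum_nonneg fun e _ => hg0 e
    have h4 := htot.trans (hl.trans (mul_le_mul_of_nonneg_right hN hS0))
    rw [Real.rpow_sub hLpos, div_mul_div_comm, div_le_iff₀ (by positivity)]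
    linarith
  choose W l hmem hch using key
  exact ⟨κ₀ / Λ, C, W, l, div_pos hκ0 hΛ0, hmem, hch⟩

variable [Fintype O]

/-- The data at the last subcritical parameter. -/
theorem dataExists {ps : ℝ} (hs : QT.Sub E.nb ps) : E.DataExists ps := by
  have hB : E.Bound ps 1 := E.bound_of_sub hs
  obtain ⟨θ₀, hθ₀, hexp⟩ := E.exists_exponents hs.1 hs.2.1 hB
  refine ⟨θ₀, hθ₀, fun δ hδ hδ1 => ?_⟩
  obtain ⟨θ, θ', hθ, hle, hθ'1, hratio, hbound, hnb⟩ := hexp δ hδ hδ1
  have hθpos : 0 < θ := hθ₀.trans_le hθ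
  obtain ⟨κ, C, W, l, hκ, hmem, hch⟩ :=
    E.exists_chains hs.1 hs.2.1 hθpos (hle.trans hθ'1) hδ hnb
  obtain ⟨S, hS, hshort⟩ := E.exists_short hs C hδ
  exact ⟨{ θ := θ
           θ' := θ'
           κ := κ
           C := C
           S := S
           W := W
           l := l
           θ_pos := hθpos
           θ_le := hle
           θ'_le_one := hθ'1
           ratio := hratio
           bound := hbound
           κ_pos := hκ
           mem := hmem
           chain := hch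
           S_nonneg := hS
           short := hshort }, hθ⟩

end Vale.Agent.P165.HY.Core
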