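import Vale.Agent.P165.HY.Nested

/-!
# Separated cuts with random positions

For the `2 ^ m` separated translates `p = ψ t₀` of one start, the cuts of `ψ` are sublevel sets of the
function of `p`, with thresholds between `cutC` and `cutC * exp a` times the size of `p`.
-/

namespace Vale.Agent.P165.HY.Env

open Finset Real

variable {Γ O ι V X : Type} [Group Γ] [PseudoMetricSpace X] [Fintype ι] (E : Env Γ O ι V X)

/-- The constant of the cuts. -/
noncomputable def cutC : ℝ := 2 * (1 + E.A) * exp (E.a * (E.Cf + E.δ))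

theorem one_le_cutC : 1 ≤ E.cutC := by
  have h := one_le_exp (x := E.a * (E.Cf + E.δ))
    (mul_nonneg E.a_pos.le (by linarith [E.one_le_Cf, E.δ_nonneg]))
  rw [cutC]
  nlinarith [E.four_le_A']

/-- The depth of the cuts. -/
def cutDepth : ℝ := 12 * (E.δ + 1) + 4 * E.Cf

theorem two_cutC_le : 2 * (E.cutC * exp E.a) ≤ exp (E.a * E.cutDepth) := by
  have h2 : exp (E.a * (2 * (E.δ + 1))) = 2 := by
    rw [show E.a * (2 * (E.δ + 1)) = Real.log 2 by linarith [E.a_mul], exp_log two_pos]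
  have h32 : exp (E.a * (10 * (E.δ + 1))) = 32 := by
    rw [show E.a * (10 * (E.δ + 1)) = ((5 : ℕ) : ℝ) * (E.a * (2 * (E.δ + 1))) by push_cast; ring,
      exp_nat_mul, h2]
    norm_num
  have h1 : 2 * (E.cutC * exp E.a) ≤
      32 * exp (E.a * (2 * E.Cf) + (E.a * (E.Cf + E.δ) + E.a)) := by
    rw [exp_add, exp_add, cutC]
    have e : 32 * exp (E.a * (2 * E.Cf)) = 8 * E.A := by rw [A_eq]; ring
    have hp := mul_pos (exp_pos (E.a * (E.Cf + E.δ))) (exp_pos E.a)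
    rw [← mul_assoc (32 : ℝ), e]
    nlinarith [E.four_le_A']
  refine h1.trans ?_
  rw [← h32, ← exp_add]
  refine exp_le_exp.2 ?_
  rw [cutDepth]
  nlinarith [E.a_pos, E.δ_nonneg, E.one_le_Cf]

theorem cutDepth_le : E.cutDepth + E.δ + E.Cf < E.kU := by
  have h := E.kU_big
  rw [unit] at h
  rw [cutDepth]
  linarith [E.k₀_pos, E.one_le_Cf, E.δ_nonneg]

/-- The threshold of a cut. -/
noncomputable def cutTh (p : X) (M i : ℕ) : ℝ :=
  E.cutC * qp E.a E.t₀ p * exp (E.a * (min i M : ℕ) / M)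

theorem cutTh_bounds (p : X) {M : ℕ} (hM : 1 ≤ M) (i : ℕ) :
    E.cutC * qp E.a E.t₀ p ≤ E.cutTh p M i ∧
      E.cutTh p M i ≤ E.cutC * exp E.a * qp E.a E.t₀ p := by
  have hc : 0 < E.cutC * qp E.a E.t₀ p :=
    mul_pos (by linarith [E.one_le_cutC]) (qp_pos _ _)
  have hM' : (0 : ℝ) < M := by exact_mod_cast hM
  refine ⟨le_mul_of_one_le_right hc.le (one_le_exp ?_), ?_⟩
  · have := E.a_pos; positivity
  · rw [mul_right_comm E.cutC, cutTh]
    refine mul_le_mul_of_nonneg_left (exp_le_exp.2 ?_) hc.le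
    rw [div_le_iff₀ hM']
    exact mul_le_mul_of_nonneg_left (Nat.cast_le.2 (min_le_right i M)) E.a_pos.le

/-- A point outside the inner sets sees `ψ b` at a small product. -/
theorem outside_cut {p pb q : X} (hback : gp p E.t₀ pb ≤ E.Cf) (hq : E.k₁ < gp p q pb) :
    Sfun E.a E.A E.t₀ p q < E.cutC * qp E.a E.t₀ p := by
  have h1 := E.hyp p q pb E.t₀
  rw [gp_comm p pb E.t₀] at h1
  have h1' := E.hyp p E.t₀ q pb
  have hk := E.hk₁
  have hδ := E.δ_nonneg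
  have h2 : gp p q E.t₀ ≤ E.Cf + E.δ := by
    rcases le_total (gp p E.t₀ q) (gp p q pb) with hle | hle
    · rw [min_eq_left hle] at h1'
      rw [gp_comm]; linarith
    · rw [min_eq_right hle] at h1'
      linarith [E.one_le_Cf]
  have h3 : qk E.a E.t₀ p q ≤ exp (E.a * (E.Cf + E.δ)) * qp E.a E.t₀ p :=
    qk_le_of_cone E.a_pos.le h2
  have h4 : qp E.a E.t₀ q ≤ exp (E.a * (E.Cf + E.δ)) * qp E.a E.t₀ p := by
    refine le_trans ?_ h3
    rw [qp, qk]
    exact exp_le_exp.2 (by nlinarith [gp_le_dist' E.t₀ p q, E.a_pos])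
  have h5 : rho E.a E.t₀ q p ≤ qk E.a E.t₀ p q := by rw [qk_comm]; exact rho_le_qk _ _ _
  rw [Sfun, cutC]
  have h6 := mul_pos (exp_pos (E.a * (E.Cf + E.δ))) (qp_pos (a := E.a) E.t₀ p)
  nlinarith [E.four_le_A', mul_le_mul_of_nonneg_left h4 E.A_pos.le]

/-- The large sets of two separated translates are disjoint. -/
theorem big_disjoint {p p' : X} (h : gp E.t₀ p p' + E.kU ≤ dist E.t₀ p)
    (h' : gp E.t₀ p' p + E.kU ≤ dist E.t₀ p') {q : X}
    (hq : Sfun E.a E.A E.t₀ p q < E.cutC * exp E.a * qp E.a E.t₀ p)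
    (hq' : Sfun E.a E.A E.t₀ p' q < E.cutC * exp E.a * qp E.a E.t₀ p') : False := by
  have aux : ∀ {r : X}, Sfun E.a E.A E.t₀ r q < E.cutC * exp E.a * qp E.a E.t₀ r →
      dist E.t₀ r - E.cutDepth ≤ gp E.t₀ q r := fun {r} hr => by
    have h1 := (E.qk_le_of_Sfun hr).trans (le_of_eq (mul_assoc (2 : ℝ) _ _).symm)
    have h2 := h1.trans (mul_le_mul_of_nonneg_right E.two_cutC_le (qp_pos _ _).le)
    rw [qk, qp, ← exp_add, exp_le_exp] at h2
    nlinarith [E.a_pos]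
  have h3 := aux hq
  have h4 := aux hq'
  have h5 := E.hyp E.t₀ p q p'
  rw [gp_comm E.t₀ p q] at h5
  rw [gp_comm E.t₀ p' p] at h'
  have h6 := E.cutDepth_le
  have := E.one_le_Cf
  rcases le_total (gp E.t₀ q p) (gp E.t₀ q p') with hle | hle
  · rw [min_eq_left hle] at h5; linarith [E.δ_nonneg]
  · rw [min_eq_right hle] at h5; linarith [E.δ_nonneg]

theorem start_notMem {p φ : X} (hp : E.kU ≤ dist E.t₀ p) (hφ : dist E.t₀ φ ≤ E.Cf) :
    E.cutC * exp E.a * qp E.a E.t₀ p ≤ Sfun E.a E.A E.t₀ p φ := by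
  have h1 : E.cutC * exp E.a * qp E.a E.t₀ p ≤ qp E.a E.t₀ φ := by
    refine le_trans (mul_le_mul_of_nonneg_right (le_trans (le_mul_of_one_le_left
      (mul_nonneg (by linarith [E.one_le_cutC]) (exp_pos _).le) one_le_two) E.two_cutC_le)
      (qp_pos _ _).le) ?_
    rw [qp, qp, ← exp_add]
    refine exp_le_exp.2 ?_
    nlinarith [E.cutDepth_le, E.δ_nonneg, E.a_pos]
  refine h1.trans (le_trans ?_ (mul_qp_le_Sfun E.A E.t₀ p φ))
  nlinarith [E.four_le_A', qp_pos (a := E.a) E.t₀ φ]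

/-- Few levels at a gate. -/
theorem count_cut {N G m : ℕ} {φ p : X} {z : V} (hN1 : Real.log 2 ≤ E.a * N)
    (hC : 1 + E.stepC / E.a ≤ N) (hN3 : 2 * E.Cf + E.D * E.blk ≤ N)
    (hφ : dist E.t₀ φ ≤ E.Cf) (hl : dist φ p ≤ E.D * (E.blk * (m + 1) : ℕ))
    (hGd : dist φ (E.pos z) < G) {I : Finset ℕ} (hIM : I ⊆ range (2 ^ G))
    (hI : ∀ i ∈ I, Gate E.G {v | Sfun E.a E.A E.t₀ p (E.pos v) < E.cutTh p (2 ^ G) i} z) :
    I.card * 2 ^ ((⌊dist φ (E.pos z)⌋₊ - N * (m + 1)) / N) ≤ N * 2 ^ G := by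
  set M : ℕ := 2 ^ G with hMdef
  set n := ⌊dist φ (E.pos z)⌋₊ with hn
  have hN0 : 1 ≤ N := by
    have : (1 : ℝ) ≤ N := by
      linarith [div_nonneg E.stepC_pos.le E.a_pos.le]
    exact_mod_cast this
  rcases I.eq_empty_or_nonempty with rfl | hne
  · simp
  by_cases hsmall : n ≤ N * (m + 1)
  · rw [Nat.sub_eq_zero_of_le hsmall, Nat.zero_div, pow_zero, mul_one]
    refine (card_le_card hIM).trans ?_
    rw [card_range]
    exact Nat.le_mul_of_pos_left _ hN0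
  push Not at hsmall
  set d : ℝ := ((n - N * (m + 1) : ℕ) : ℝ) with hd
  set c0 := E.cutC * qp E.a E.t₀ p with hc0def
  have hc0 : 0 < c0 := mul_pos (by linarith [E.one_le_cutC]) (qp_pos _ _)
  have hiv : ∀ i ∈ I, Sfun E.a E.A E.t₀ p (E.pos z) < c0 * exp (E.a * i / M) ∧
      c0 * exp (E.a * i / M) ≤
        Sfun E.a E.A E.t₀ p (E.pos z) + E.stepC * qp E.a E.t₀ (E.pos z) := fun i hi => by
    have h := E.gate_bounds (hI i hi)
    rwa [cutTh, min_eq_left (mem_range.1 (hIM hi)).le] at h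
  have hcard := card_levels E.a_pos Nat.one_le_two_pow hc0 hne hiv
  set lo := I.min' hne
  have hlop : 0 < c0 * exp (E.a * lo / M) := mul_pos hc0 (exp_pos _)
  refine card_pow_le E.a_pos hlop hcard (e := (n - N * (m + 1)) / N) (d := d) (C := E.stepC)
    ?_ hN1 ?_ (mul_nonneg E.stepC_pos.le (qp_pos _ _).le) ?_ hC
  · rw [hd]
    exact_mod_cast Nat.div_mul_le_self _ N
  · rw [mul_assoc]
    refine mul_le_mul_of_nonneg_left ?_ E.stepC_pos.le
    refine le_trans ?_ (le_mul_of_one_le_right hc0.le (one_le_exp ?_))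
    · refine le_trans ?_ (le_mul_of_one_le_left (qp_pos _ _).le E.one_le_cutC)
      rw [qp, qp, ← exp_add]
      refine exp_le_exp.2 ?_
      have e1 : d = (n : ℝ) - (N : ℝ) * (m + 1) := by
        rw [hd, Nat.cast_sub hsmall.le]; push_cast; ring
      have e2 : (n : ℝ) ≤ dist φ (E.pos z) := Nat.floor_le dist_nonneg
      have e3 := dist_triangle φ E.t₀ (E.pos z)
      have e4 := dist_triangle E.t₀ φ p
      push_cast at hl
      rw [dist_comm φ E.t₀] at e3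
      have e5 : (2 * E.Cf + E.D * E.blk) * (m + 1) ≤ (N : ℝ) * (m + 1) :=
        mul_le_mul_of_nonneg_right hN3 (by positivity)
      have e6 : 2 * E.Cf ≤ 2 * E.Cf * (m + 1) := le_mul_of_one_le_right
        (by linarith [E.one_le_Cf]) (by linarith [(Nat.cast_nonneg m : (0 : ℝ) ≤ m)])
      nlinarith [E.a_pos]
    · have := E.a_pos; positivity
  · exact Nat.pow_le_pow_right two_pos ((Nat.div_le_self _ _).trans ((Nat.sub_le _ _).trans
      ((Nat.floor_lt dist_nonneg).2 hGd).le))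

/-- The classes of the points of one sphere seen from an anchor. -/
theorem sphere_split {n : ℕ} (hn : 0 < n) {φ u : X} {j : ℕ} {Y : Set V}
    (hY : ∀ y ∈ Y, ⌊dist φ (E.pos y)⌋₊ = j) (hu : dist φ u + 2 ≤ n) :
    ∃ f : V → Fin n, ∀ k : Fin n, ∀ y ∈ {y ∈ Y | f y = k},
      |gp (E.pos y) u φ - ((j : ℝ) - dist φ u + (k : ℕ))| ≤ 1 := by
  obtain ⟨f, hf⟩ := exists_split hn (fun y => gp (E.pos y) u φ - ((j : ℝ) - dist φ u))
    (Y := Y) fun y hy => by
      have a1 := Nat.floor_le (dist_nonneg : 0 ≤ dist φ (E.pos y))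
      have a2 := Nat.lt_floor_add_one (dist φ (E.pos y))
      rw [hY y hy] at a1 a2
      have h1 := gp_le_dist' (E.pos y) u φ
      have h2 := gp_eq_sub φ (E.pos y) u
      have h3 := gp_le_dist' φ (E.pos y) u
      rw [gp_comm (E.pos y) u φ] at h1 ⊢
      rw [dist_comm (E.pos y) φ] at h1
      rw [gp_comm (E.pos y) u φ] at h2
      constructor <;> linarith
  refine ⟨f, fun k => ?_⟩
  rintro y ⟨hy, hk⟩
  obtain ⟨c1, c2⟩ := hf y hy
  rw [hk] at c1 c2
  rw [abs_le]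
  constructor <;> linarith

theorem cutsOK : E.CutsOK := by
  classical
  set B := 1 + Real.log 2 / E.a + (1 + E.stepC / E.a) + (2 * E.Cf + E.D * E.blk) + 4
  refine ⟨⌈B⌉₊, fun N hN o m K => ?_⟩
  have hBN : B ≤ (N : ℝ) := (Nat.le_ceil B).trans (Nat.cast_le.2 hN)
  have t1 : 0 ≤ Real.log 2 / E.a := div_nonneg (Real.log_nonneg one_le_two) E.a_pos.le
  have t2 : 0 ≤ E.stepC / E.a := div_nonneg E.stepC_pos.le E.a_pos.le
  have t3 : 0 ≤ E.D * E.blk := mul_nonneg E.D_nonneg (Nat.cast_nonneg _)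
  have t4 := E.one_le_Cf
  have hN1 : Real.log 2 ≤ E.a * N := by
    have : Real.log 2 / E.a ≤ N := by simp only [B] at hBN; linarith
    rw [div_le_iff₀ E.a_pos] at this
    linarith
  have hNb : E.D * E.blk + 4 ≤ (N : ℝ) := by simp only [B] at hBN; linarith
  have hN0 : 0 < N := by
    have : (0 : ℝ) < N := by linarith
    exact_mod_cast this
  obtain ⟨P, hP, hspec, hsep⟩ := E.deep m o
  set φ := E.pos (E.rep o) with hφdef
  have hφ : dist E.t₀ φ ≤ E.Cf := E.hrep o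
  set G : ℕ := ⌈E.D * K⌉₊ + 1 with hG
  set M : ℕ := 2 ^ G
  have hlink : ∀ ψ ∈ P, Link E.G (shift E.Φ ψ E.ok) (E.blk * (m + 1)) (E.rep o) (E.Φ ψ E.a₁) := by
    intro ψ hψ
    obtain ⟨-, -, -, w, hw, hs⟩ := hspec ψ hψ
    refine ⟨w, hw, fun v hv => ?_⟩
    show E.pos (E.Φ ψ⁻¹ v) ∉ E.B E.k₀ 1
    rw [E.pos_eq, mem_B_one, not_lt]
    have h := (hs v hv).1
    change ¬ E.k₀ < gp (E.act ψ E.t₀) (E.pos v) (E.act ψ E.b) at h
    rwa [not_lt, E.gp_pull, E.act_inv] at h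
  have hdistp : ∀ ψ ∈ P, dist φ (E.act ψ E.t₀) ≤ E.D * (E.blk * (m + 1) : ℕ) := by
    intro ψ hψ
    have h := E.dist_link (hlink ψ hψ)
    rwa [E.pos_eq] at h
  refine ⟨P, M, fun ψ i => {v | Sfun E.a E.A E.t₀ (E.act ψ E.t₀) (E.pos v) <
      E.cutTh (E.act ψ E.t₀) M i},
    fun ψ => {v | Sfun E.a E.A E.t₀ (E.act ψ E.t₀) (E.pos v) <
      E.cutC * exp E.a * qp E.a E.t₀ (E.act ψ E.t₀)},
    hP, Nat.one_le_two_pow, fun ψ hψ ψ' hψ' hne => ?_, fun ψ hψ => ?_, fun z hz ψ hψ I hIM hI => ?_,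
    fun ψ hψ i z hz => ?_, fun ψ hψ j Y hY => ?_⟩
  · exact Set.disjoint_left.2 fun v hv hv' =>
      E.big_disjoint (hsep ψ hψ ψ' hψ' hne) (hsep ψ' hψ' ψ hψ hne.symm) hv hv'
  · obtain ⟨hfar, hback, -, -⟩ := hspec ψ hψ
    refine ⟨hlink ψ hψ, not_lt.2 (E.start_notMem hfar hφ), fun i =>
      ⟨fun v hv => lt_of_lt_of_le hv (E.cutTh_bounds _ Nat.one_le_two_pow i).2, fun v hv => ?_⟩⟩
    show E.pos (E.Φ ψ⁻¹ v) ∉ E.B E.k₁ 1
    intro h
    have h0 := E.gp_pull ψ E.t₀ (E.pos v) (E.act ψ E.b)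
    rw [E.act_inv] at h0
    rw [E.pos_eq, mem_B_one, ← h0] at h
    exact hv (lt_of_lt_of_le (E.outside_cut hback h) (E.cutTh_bounds _ Nat.one_le_two_pow i).1)
  · refine E.count_cut (G := G) hN1 (by simp only [B] at hBN; linarith)
      (by simp only [B] at hBN; linarith) hφ (hdistp ψ hψ) ?_ hIM hI
    have h := E.dist_link hz
    have h' := Nat.le_ceil (E.D * K)
    rw [hG]
    push_cast
    linarith
  · obtain ⟨χ, hl, hd, hout⟩ := E.back_frame z (E.act ψ E.t₀)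
    have hout' : ∀ v, v ∉ {v | Sfun E.a E.A E.t₀ (E.act ψ E.t₀) (E.pos v) <
        E.cutTh (E.act ψ E.t₀) M i} → v ∈ shift E.Φ χ E.ok₁ := fun v hv =>
      hout v (lt_of_lt_of_le (E.gate_bounds hz).1 (not_lt.1 hv))
    refine ⟨χ, hl, hout', fun j Y hY => ?_⟩
    obtain ⟨f, hf⟩ := E.sphere_split (n := N * (E.sph (E.rep o) z + m + 1))
      (Nat.mul_pos hN0 (by omega)) (φ := φ) (u := E.act χ E.t₀) (j := j) (Y := Y)
      (fun y hy => (hY y hy).1) (by
        push_cast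
        have h1 := dist_triangle φ (E.pos z) (E.act χ E.t₀)
        have h2 := Nat.lt_floor_add_one (dist φ (E.pos z))
        have h3 : E.sph (E.rep o) z = ⌊dist φ (E.pos z)⌋₊ := rfl
        rw [h3]
        have h4 : (0 : ℝ) ≤ (⌊dist φ (E.pos z)⌋₊ : ℝ) := Nat.cast_nonneg _
        nlinarith [(Nat.cast_nonneg m : (0 : ℝ) ≤ m)])
    refine ⟨f, fun k => ⟨?_, φ, _, hf k⟩⟩
    rintro y ⟨hy, -⟩
    exact hout' y (hY y hy).2
  · obtain ⟨f, hf⟩ := E.sphere_split (n := N * (m + 1)) (Nat.mul_pos hN0 (by omega)) (φ := φ)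
      (u := E.act ψ E.t₀) (j := j) (Y := Y) (fun y hy => (hY y hy).1) (by
        have h := hdistp ψ hψ
        push_cast at h ⊢
        nlinarith [(Nat.cast_nonneg m : (0 : ℝ) ≤ m)])
    refine ⟨f, fun k => ⟨?_, φ, _, hf k⟩⟩
    rintro y ⟨hy, -⟩
    exact (hY y hy).2

end Vale.Agent.P165.HY.Env
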