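import Vale.Agent.P165.HY.Rows
import Vale.Agent.P165.TA.Classes

/-!
# The small form of short connections

Pairs are sorted by their class. Classes with a long part have light rows and polynomial columns,
the other pairs are near each other.
-/

namespace Vale.Agent.P165.HY.Core

open Finset

variable {Γ V O ι : Type} [Group Γ] [Fintype ι] (E : Core Γ V O ι) [DecidableEq V]
  {p : ℝ} {n : ℕ}

/-- Pairs joined by short connections have bounded classes. -/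
theorem kap_le (x y : V) (h : E.tau p n x y ≠ 0) :
    (E.kap x y).1 ≤ E.N * (n + 2) ∧ (E.kap x y).2 ≤ E.N * (n + 2) := by
  have hy : y ∈ E.ball x n := by_contra fun hy => h (E.tau_eq_zero hy)
  have h1 := E.sph_le_of_mem hy
  have h2 := (E.kap_sph x y).2
  have h3 : E.N * (n + 2) = E.N * (n + 1) + E.N := by ring
  omega

/-- The final arithmetic: near pairs and negligible classes together. -/
theorem near_add_classes_le {N c a o : ℝ} (hN : 0 ≤ N) (ha : 1 ≤ a) (ho : 0 ≤ o)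
    (hoc : o ≤ c * a) (h4 : 4 * ((N + 2) * c + 1) ≤ a) :
    (a ^ 3 + N + 1) * o + (N * (a ^ 8 + 2) + 1) ^ 2 * (1 / ((3 * N + 1) * a ^ 8) ^ 2) ≤
      a / 4 * a ^ 7 := by
  have h3 : (1 : ℝ) ≤ a ^ 3 := one_le_pow₀ ha
  have h8 : (1 : ℝ) ≤ a ^ 8 := one_le_pow₀ ha
  have hN3 : N ≤ N * a ^ 3 := le_mul_of_one_le_right hN h3
  have hN8 : N ≤ N * a ^ 8 := le_mul_of_one_le_right hN h8
  have hP : (N * (a ^ 8 + 2) + 1) ^ 2 * (1 / ((3 * N + 1) * a ^ 8) ^ 2) ≤ 1 := by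
    rw [mul_one_div, div_le_one (by positivity)]
    refine pow_le_pow_left₀ (by positivity) ?_ 2
    linarith
  calc (a ^ 3 + N + 1) * o + (N * (a ^ 8 + 2) + 1) ^ 2 * (1 / ((3 * N + 1) * a ^ 8) ^ 2)
      ≤ (N + 2) * a ^ 3 * (c * a) + a ^ 4 :=
        add_le_add (mul_le_mul (by linarith) hoc ho (by positivity)) (hP.trans (one_le_pow₀ ha))
    _ = ((N + 2) * c + 1) * a ^ 4 := by ring
    _ ≤ a / 4 * a ^ 4 := mul_le_mul_of_nonneg_right (by linarith) (by positivity)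
    _ ≤ a / 4 * a ^ 7 :=
        mul_le_mul_of_nonneg_left (pow_le_pow_right₀ ha (by norm_num)) (by linarith)

/-- The arithmetic of a column. -/
theorem column_le {N c a o : ℝ} (hN : 0 ≤ N) (hc : 0 ≤ c) (ha : 1 ≤ a) (ho : 0 ≤ o)
    (hoc : o ≤ c * a) :
    (N * (a ^ 8 + 1) + 1) * o ≤ c * (2 * N + 1) * a ^ 10 := by
  have h8 : (1 : ℝ) ≤ a ^ 8 := one_le_pow₀ ha
  have hN8 : N ≤ N * a ^ 8 := le_mul_of_one_le_right hN h8
  calc (N * (a ^ 8 + 1) + 1) * o ≤ (2 * N + 1) * a ^ 8 * (c * a) :=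
        mul_le_mul (by linarith) hoc ho (by positivity)
    _ = c * (2 * N + 1) * a ^ 9 := by ring
    _ ≤ _ := mul_le_mul_of_nonneg_left (pow_le_pow_right₀ ha (by norm_num)) (by positivity)

variable [Fintype O]

/-- The pairs with a small class are near. -/
theorem sum_small_kap_le (h0 : 0 ≤ p) (h1 : p ≤ 1) (J : ℕ) (x : V) (F : Finset V)
    (hF : ∀ y ∈ F, (E.kap x y).1 + (E.kap x y).2 ≤ J) :
    ∑ y ∈ F, E.tau p n x y ≤ (((J + E.N : ℕ) : ℝ) + 1) * E.own p n :=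
  E.sum_near_le h0 h1 n x F (J + E.N) fun y hy =>
    (E.kap_sph x y).1.trans (Nat.add_le_add_right (hF y hy) _)

/-- All points joined to `x`. -/
theorem sum_all_le (h0 : 0 ≤ p) (h1 : p ≤ 1) (x : V) (F : Finset V) :
    ∑ y ∈ F, E.tau p n x y ≤ (((E.N * (n + 1) : ℕ) : ℝ) + 1) * E.own p n := by
  classical
  rw [← sum_filter_of_ne (p := fun y => y ∈ E.ball x n)
    fun y _ hne => by_contra fun h => hne (E.tau_eq_zero h)]
  exact E.sum_near_le h0 h1 n x _ _ fun y hy => E.sph_le_of_mem (mem_filter.1 hy).2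

/-- Small powers of the length give a small form of the short connections. -/
theorem small_of_closed {ps : ℝ} (h0 : 0 < ps) (h1 : ps ≤ 1) (hC : E.Closed ps) : E.Small ps := by
  classical
  obtain ⟨C, hC0, hcrit⟩ := hC (1 / 8) (by norm_num)
  obtain ⟨k, hk⟩ : ∃ k : ℕ, k = 24 := ⟨24, rfl⟩
  have hp := pow_pos h0 E.blk
  set c : ℝ := 2 * C + 1
  set T₁ : ℝ := (E.N : ℝ) * (c / ps ^ E.blk) with hT₁
  set CT : ℝ := 4 * (2 * (E.N : ℝ) + 1) * 2 ^ k
  set A₀ : ℝ := 2 * (E.N : ℝ) ^ 2 * c * T₁ * (CT * (8 * T₁)) ^ k with hA₀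
  set A₁ : ℝ := c * (2 * (E.N : ℝ) + 1) with hA₁
  set L : ℝ := 3 * (E.N : ℝ) + 1
  obtain ⟨m, hm⟩ := exists_nat_ge (A₀ * A₁ * L ^ 4 + 4 * (((E.N : ℝ) + 2) * c + 1))
  obtain ⟨a, ha, ham⟩ : ∃ a : ℕ, 8 * (2 ^ k * 2 + E.N + 2) ≤ a ∧ m ≤ a :=
    ⟨_, le_max_left _ m, le_max_right _ m⟩
  have ha1 : (1 : ℝ) ≤ a := by exact_mod_cast (show 1 ≤ a by omega)
  have ha0 : (0 : ℝ) < a := by linarith
  have hma := hm.trans (show (m : ℝ) ≤ a by exact_mod_cast ham)
  have hc1 : 1 ≤ c := le_add_of_nonneg_left (by positivity)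
  have hB1 : 1 ≤ c * a := one_le_mul_of_one_le_of_one_le hc1 ha1
  have hpow : C * (((a ^ 8 : ℕ) : ℝ) + 1) ^ (1 / 8 : ℝ) ≤ c * a := by
    refine le_trans (mul_le_mul_of_nonneg_left ?_ hC0)
      (show C * (2 * (a : ℝ)) ≤ c * a by nlinarith [show c = 2 * C + 1 from rfl])
    refine (Real.rpow_le_rpow (by positivity)
      (?_ : _ ≤ (2 * (a : ℝ)) ^ 8) (by norm_num)).trans (le_of_eq ?_)
    · rw [mul_pow, Nat.cast_pow]
      linarith [one_le_pow₀ (n := 8) ha1]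
    · rw [show (1 / 8 : ℝ) = ((8 : ℕ) : ℝ)⁻¹ by norm_num,
        Real.pow_rpow_inv_natCast (by positivity) (by norm_num)]
  have hown : E.own ps (a ^ 8) ≤ c * a := (hcrit _).1.trans hpow
  have hown0 := E.own_nonneg h0.le h1 (a ^ 8)
  have hT : E.TailLe ps (a ^ 8) (c * a) := fun ψ ℓ z hz S Y hS hY =>
    ((hcrit _).2 ψ ℓ z hz S Y hS hY).trans hpow
  have hrow : ∀ (x : V) (u v : ℕ) (F : Finset V), a ^ 3 < 2 * u →
      (∀ y ∈ F, E.kap x y = (u, v)) →
        ∑ y ∈ F, E.tau ps (a ^ 8) x y ≤ A₀ * (a : ℝ) ^ 2 * (1 / (a : ℝ) ^ 2) ^ k := by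
    intro x u v F hu hF
    have ha3 : a ≤ a ^ 3 := Nat.le_self_pow (by norm_num) a
    refine (row_far h0 h1 hB1 hT k (u := u) (v := v) (by omega) F hF).trans ?_
    have hu2 : (a : ℝ) ^ 3 / 8 ≤ ((u - E.N - 1 : ℕ) : ℝ) := by
      rw [div_le_iff₀ (by norm_num)]
      exact_mod_cast (show a ^ 3 ≤ (u - E.N - 1) * 8 by omega)
    rw [show (E.N : ℝ) * (c * (a : ℝ) / ps ^ E.blk) = T₁ * a by rw [hT₁]; ring]
    have hfrac : T₁ * a / ((u - E.N - 1 : ℕ) : ℝ) ≤ 8 * T₁ * (1 / (a : ℝ) ^ 2) := by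
      refine (div_le_div_of_nonneg_left (by positivity) (by positivity) hu2).trans (le_of_eq ?_)
      field_simp
    refine (mul_le_mul (mul_le_mul_of_nonneg_left hown (by positivity))
      (mul_le_mul_of_nonneg_right (mul_le_mul_of_nonneg_left
        (pow_le_pow_left₀ (by positivity) hfrac k) (by positivity)) (by positivity))
      (by positivity) (by positivity)).trans (le_of_eq ?_)
    rw [hA₀, mul_pow (8 * T₁), mul_pow _ (8 * T₁)]
    ring
  have hcol : ∀ (x : V) (F : Finset V),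
      ∑ y ∈ F, E.tau ps (a ^ 8) x y ≤ A₁ * (a : ℝ) ^ 10 := by
    intro x F
    refine (E.sum_all_le h0.le h1 x F).trans ?_
    rw [hA₁, Nat.cast_mul, Nat.cast_add, Nat.cast_one, Nat.cast_pow]
    exact column_le (Nat.cast_nonneg _) (zero_le_one.trans hc1) ha1 hown0 hown
  have hnonneg : (0 : ℝ) ≤ A₀ * A₁ * L ^ 4 := by positivity
  have hw : A₀ * (a : ℝ) ^ 2 * (1 / (a : ℝ) ^ 2) ^ k * (A₁ * (a : ℝ) ^ 10) ≤
      (1 / (L * (a : ℝ) ^ 8) ^ 2) ^ 2 := by
    subst hk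
    exact TA.far_classes ha1 (((le_add_of_nonneg_right (by positivity)).trans hma).trans
      (le_self_pow₀ ha1 (by norm_num))) (by positivity)
  refine ⟨a ^ 8, Nat.one_le_pow _ _ (by omega), fun F f hf => ?_⟩
  refine (TA.form_classes_le (E.tau ps (a ^ 8)) E.kap (N := E.N * (a ^ 8 + 2))
    (J := a ^ 3) (R₀ := (((a ^ 3 + E.N : ℕ) : ℝ) + 1) * E.own ps (a ^ 8))
    (fun x y => E.tau_nonneg h0.le h1 _ x y) (fun x y => E.tau_comm h0.le h1 _ x y)
    E.kap_swap (fun x y => E.kap_le x y) (by positivity) (by positivity) (by positivity)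
    (by positivity) hw hcol (E.sum_small_kap_le h0.le h1 (a ^ 3)) hrow F f hf).trans ?_
  refine mul_le_mul_of_nonneg_right ?_ (sum_nonneg fun x _ => sq_nonneg _)
  push_cast
  refine (near_add_classes_le (Nat.cast_nonneg E.N) ha1 hown0 hown
    ((le_add_of_nonneg_left hnonneg).trans hma)).trans_eq ?_
  ring

end Vale.Agent.P165.HY.Core
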