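import Vale.Agent.P165.HY.Space

/-!
# Four ends of an action on a hyperbolic space
-/

namespace Vale.Agent.P165.HY

/-- Two elements escaping at speed at least one in four different directions: the Gromov products of
their orbits are bounded. -/
def FourEnds {Γ X : Type} [Group Γ] [PseudoMetricSpace X] (act : Γ →* Equiv.Perm X) (o : X) : Prop :=
  ∃ g h : Γ, ∃ K : ℝ,
    (∀ n : ℕ, (n : ℝ) ≤ dist o (act (g ^ n) o) ∧ (n : ℝ) ≤ dist o (act (h ^ n) o)) ∧
    ∀ a ∈ [(g, h), (g, h⁻¹), (g⁻¹, h), (g⁻¹, h⁻¹)], ∀ n k : ℕ,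
      gp o (act (a.1 ^ n) o) (act (a.2 ^ k) o) ≤ K

end Vale.Agent.P165.HY
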