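import Vale.Agent.P165.HY.Geo
import Vale.Agent.P165.HY.Ends

/-!
# Frames from two elements with four ends

A letter is one of `g, g⁻¹, h, h⁻¹`. The orbit of a letter is coarsely geodesic, so one constant `B`
bounds, for each pair of letters, the products of all their powers. A point is avoided by a letter if
its products with the whole orbit of the letter are at most `B`; of three letters one avoids any two
points. High powers play ping-pong, and the constant of avoidance does not depend on the power.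
-/

namespace Vale.Agent.P165.HY

open Finset

variable {Γ X : Type} [Group Γ] [PseudoMetricSpace X]

/-! ### One orbit -/

/-- A subadditive sequence above the identity is eventually near its linear rate. -/
theorem exists_rate {a : ℕ → ℝ} (hsub : ∀ m n, a (m + n) ≤ a m + a n)
    (hge : ∀ n : ℕ, (n : ℝ) ≤ a n) {ε : ℝ} (hε : 0 < ε) :
    ∃ (τ : ℝ) (n₀ : ℕ), 1 ≤ τ ∧ (∀ n : ℕ, τ * n ≤ a n) ∧
      ∀ n, n₀ ≤ n → a n ≤ (τ + ε) * n := by
  set S : Set ℝ := Set.range fun n : ℕ => a (n + 1) / (n + 1 : ℝ)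
  have hS : S.Nonempty := Set.range_nonempty _
  have hlow : ∀ r ∈ S, (1 : ℝ) ≤ r := by
    rintro r ⟨n, rfl⟩
    rw [le_div_iff₀ (by positivity)]
    simpa using hge (n + 1)
  set τ := sInf S
  have hτ : 1 ≤ τ := le_csInf hS hlow
  have hlin : ∀ n : ℕ, τ * n ≤ a n := by
    intro n
    rcases n with _ | n
    · simpa using hge 0
    · have h := csInf_le ⟨1, hlow⟩ (show a (n + 1) / (n + 1 : ℝ) ∈ S from ⟨n, rfl⟩)
      rw [le_div_iff₀ (by positivity)] at h
      push_cast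
      exact h
  obtain ⟨r, ⟨q, rfl⟩, hq⟩ : ∃ r ∈ S, r < τ + ε / 2 :=
    exists_lt_of_csInf_lt hS (by linarith)
  rw [div_lt_iff₀ (by positivity)] at hq
  set M := ∑ i ∈ range (q + 1), |a i|
  obtain ⟨n₁, hn₁⟩ := exists_nat_gt (M / (ε / 2))
  refine ⟨τ, n₁, hτ, hlin, fun n hn => ?_⟩
  have hmul : ∀ k m : ℕ, a (k * (q + 1) + m) ≤ k * a (q + 1) + a m := by
    intro k m
    induction k with
    | zero => simp
    | succ k ih =>
      rw [show (k + 1) * (q + 1) + m = (q + 1) + (k * (q + 1) + m) by ring]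
      push_cast
      linarith [hsub (q + 1) (k * (q + 1) + m)]
  have h1 := hmul (n / (q + 1)) (n % (q + 1))
  rw [show n / (q + 1) * (q + 1) + n % (q + 1) = n by rw [mul_comm]; exact Nat.div_add_mod _ _] at h1
  have h2 : a (n % (q + 1)) ≤ M := (le_abs_self _).trans
    (single_le_sum (f := fun i => |a i|) (fun i _ => abs_nonneg _)
      (mem_range.2 (Nat.mod_lt _ q.succ_pos)))
  have h3 : ((n / (q + 1) : ℕ) : ℝ) * (q + 1 : ℝ) ≤ n := by
    exact_mod_cast Nat.div_mul_le_self n (q + 1)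
  have h4 : M ≤ ε / 2 * n := by
    have h5 : (n₁ : ℝ) ≤ n := Nat.cast_le.2 hn
    rw [div_lt_iff₀ (by linarith)] at hn₁
    nlinarith
  have h6 : ((n / (q + 1) : ℕ) : ℝ) * a (q + 1) ≤
      ((n / (q + 1) : ℕ) : ℝ) * ((τ + ε / 2) * (q + 1)) :=
    mul_le_mul_of_nonneg_left hq.le (Nat.cast_nonneg _)
  nlinarith

variable (act : Γ →* Equiv.Perm X)

theorem act_mul (a b : Γ) (x : X) : act (a * b) x = act a (act b x) := by rw [map_mul]; rfl

theorem act_one (x : X) : act 1 x = x := by rw [map_one]; rfl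

theorem act_act_inv (a : Γ) (x : X) : act a (act a⁻¹ x) = x := by
  rw [← act_mul, mul_inv_cancel, act_one]

theorem act_inv_act (a : Γ) (x : X) : act a⁻¹ (act a x) = x := by
  rw [← act_mul, inv_mul_cancel, act_one]

/-- An escaping orbit goes to two different ends. -/
theorem exists_gp_inv_le (isom : ∀ γ x y, dist (act γ x) (act γ y) = dist x y) {δ : ℝ} (hδ : 0 ≤ δ)
    (hyp : Hyp X δ) (o : X) {g : Γ} (hg : ∀ n : ℕ, (n : ℝ) ≤ dist o (act (g ^ n) o)) :
    ∃ C : ℝ, ∀ n k : ℕ, gp o (act (g ^ n) o) (act (g⁻¹ ^ k) o) ≤ C := by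
  set a : ℕ → ℝ := fun n => dist o (act (g ^ n) o) with ha
  have hsub : ∀ m n, a (m + n) ≤ a m + a n := fun m n => by
    have h := dist_triangle o (act (g ^ m) o) (act (g ^ m) (act (g ^ n) o))
    rw [isom] at h
    simpa only [ha, pow_add, act_mul] using h
  obtain ⟨τ, n₀, hτ, hlin, hup⟩ := exists_rate hsub hg (show (0 : ℝ) < 1 / 16 by norm_num)
  have hinv : ∀ k, dist o (act (g⁻¹ ^ k) o) = a k := fun k => by
    rw [← isom (g ^ k) o, inv_pow, act_act_inv, dist_comm]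
  have hdiff : ∀ n N, n ≤ N → dist (act (g ^ n) o) (act (g ^ N) o) = a (N - n) := fun n N h => by
    rw [show g ^ N = g ^ n * g ^ (N - n) by rw [← pow_add, Nat.add_sub_cancel' h], act_mul, isom]
  have hdiff' : ∀ n N, n ≤ N →
      dist (act (g⁻¹ ^ n) o) (act (g⁻¹ ^ N) o) = a (N - n) := fun n N h => by
    rw [show g⁻¹ ^ N = g⁻¹ ^ n * g⁻¹ ^ (N - n) by rw [← pow_add, Nat.add_sub_cancel' h], act_mul,
      isom, hinv]
  -- the products along one side grow
  have side : ∀ (p : ℕ → X), (∀ k, dist o (p k) = a k) →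
      (∀ n N, n ≤ N → dist (p n) (p N) = a (N - n)) →
      ∀ d n N, N = n + d → 1 ≤ n → n₀ ≤ n → 4 * δ ≤ n → 2 * n ≤ N → (n : ℝ) / 2 ≤ gp o (p n) (p N) := by
    intro p hp hpd d
    induction d using Nat.strong_induction_on with
    | _ d ih =>
      intro n N hd hn1 hn₀ hn hN
      by_cases h4 : N ≤ 4 * n
      · rw [gp, hp, hp, hpd n N (by omega)]
        have e1 := hlin n
        have e2 := hlin N
        have e3 := hup (N - n) (by omega)
        have e4 : ((N - n : ℕ) : ℝ) = (N : ℝ) - n := Nat.cast_sub (by omega)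
        have e5 : (N : ℝ) ≤ 4 * n := by exact_mod_cast h4
        rw [e4] at e3
        nlinarith [(Nat.cast_nonneg n : (0 : ℝ) ≤ n)]
      · have h5 := ih (N - 2 * n) (by omega) (2 * n) N (by omega) (by omega) (by omega)
          (by push_cast; linarith) (by omega)
        have h6 : (n : ℝ) - δ ≤ gp o (p n) (p (2 * n)) := by
          rw [gp, hp, hp, hpd n (2 * n) (by omega), show 2 * n - n = n by omega]
          have e1 := hlin (2 * n)
          push_cast at e1
          nlinarith [(Nat.cast_nonneg n : (0 : ℝ) ≤ n)]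
        have h7 := hyp o (p n) (p (2 * n)) (p N)
        push_cast at h5
        have h8 : (n : ℝ) - δ ≤ min (gp o (p n) (p (2 * n))) (gp o (p (2 * n)) (p N)) :=
          le_min h6 (by linarith)
        linarith
  obtain ⟨m, hm⟩ := exists_nat_gt (8 * δ + n₀ + 1)
  have hmn : n₀ ≤ m := by
    have : (n₀ : ℝ) ≤ m := by linarith
    exact_mod_cast this
  have hmid : gp o (act (g ^ m) o) (act (g⁻¹ ^ m) o) ≤ (m : ℝ) / 16 := by
    have e : dist (act (g ^ m) o) (act (g⁻¹ ^ m) o) = a (m + m) := by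
      rw [← isom (g ^ m) (act (g ^ m) o), inv_pow, act_act_inv, ← act_mul, ← pow_add, dist_comm]
    rw [gp, e, hinv]
    have e1 := hup m hmn
    have e2 := hlin (m + m)
    push_cast at e2
    simp only [ha] at *
    linarith
  obtain ⟨C, hC⟩ : ∃ C : ℝ, ∀ k ≤ 2 * m, a k ≤ C := ⟨∑ k ∈ range (2 * m + 1), a k, fun k hk =>
    single_le_sum (f := a) (fun i _ => dist_nonneg) (mem_range.2 (Nat.lt_succ_of_le hk))⟩
  refine ⟨max C ((m : ℝ) / 16 + 2 * δ), fun n k => ?_⟩
  by_cases hn : n ≤ 2 * m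
  · exact ((gp_le_dist _ _ _).trans (hC n hn)).trans (le_max_left _ _)
  by_cases hk : k ≤ 2 * m
  · refine ((gp_le_dist' _ _ _).trans ?_).trans (le_max_left _ _)
    rw [hinv]
    exact hC k hk
  refine le_trans ?_ (le_max_right _ _)
  have hδm : 4 * δ ≤ (m : ℝ) := by linarith [(Nat.cast_nonneg n₀ : (0 : ℝ) ≤ n₀)]
  have hm1 : 1 ≤ m := by
    have : (0 : ℝ) < m := by linarith [(Nat.cast_nonneg n₀ : (0 : ℝ) ≤ n₀)]
    exact_mod_cast this
  have s1 := side (fun j => act (g ^ j) o) (fun _ => rfl) hdiff (n - m) m n (by omega) hm1 hmn hδm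
    (by omega)
  have s2 := side (fun j => act (g⁻¹ ^ j) o) hinv hdiff' (k - m) m k (by omega) hm1 hmn hδm
    (by omega)
  rw [gp_comm o (act (g⁻¹ ^ m) o)] at s2
  by_contra hlt
  push Not at hlt
  have h1 := hyp o (act (g ^ n) o) (act (g⁻¹ ^ k) o) (act (g⁻¹ ^ m) o)
  have h2 := hyp o (act (g ^ m) o) (act (g ^ n) o) (act (g⁻¹ ^ m) o)
  have h3 : min ((m : ℝ) / 16 + 2 * δ) ((m : ℝ) / 2) ≤
      min (gp o (act (g ^ n) o) (act (g⁻¹ ^ k) o)) (gp o (act (g⁻¹ ^ k) o) (act (g⁻¹ ^ m) o)) :=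
    min_le_min hlt.le s2
  have h4 : (m : ℝ) / 16 + 2 * δ ≤ (m : ℝ) / 2 := by
    linarith [(Nat.cast_nonneg n₀ : (0 : ℝ) ≤ n₀)]
  rw [min_eq_left h4] at h3
  have h5 : (m : ℝ) / 16 + δ <
      min (gp o (act (g ^ m) o) (act (g ^ n) o)) (gp o (act (g ^ n) o) (act (g⁻¹ ^ m) o)) := by
    have h7 : (m : ℝ) / 16 + 2 * δ < (m : ℝ) / 2 := by
      linarith [(Nat.cast_nonneg n₀ : (0 : ℝ) ≤ n₀)]
    have h8 := lt_of_lt_of_le (lt_min hlt (lt_of_lt_of_le h7 s2)) h1
    exact lt_min (by linarith) (by linarith)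
  linarith

/-- The letter inverse to a given one. -/
def opp : Fin 4 → Fin 4 := ![1, 0, 3, 2]

/-- Four letters whose orbits have bounded products, with one constant, at any point. -/
theorem exists_letters (isom : ∀ γ x y, dist (act γ x) (act γ y) = dist x y) {δ : ℝ} (hδ : 0 ≤ δ)
    (hyp : Hyp X δ) {o : X} (h4 : FourEnds act o) (t : X) :
    ∃ (e : Fin 4 → Γ) (C : ℝ), 0 ≤ C ∧ (∀ i, e (opp i) = (e i)⁻¹) ∧
      (∀ i (n : ℕ), (n : ℝ) - C ≤ dist t (act (e i ^ n) t)) ∧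
      ∀ i j, i ≠ j → ∀ n k : ℕ, gp t (act (e i ^ n) t) (act (e j ^ k) t) ≤ C := by
  obtain ⟨g, h, K, hsp, hdiv⟩ := h4
  obtain ⟨C₁, hC₁⟩ := exists_gp_inv_le act isom hδ hyp o fun n => (hsp n).1
  obtain ⟨C₂, hC₂⟩ := exists_gp_inv_le act isom hδ hyp o fun n => (hsp n).2
  set d := dist o t
  set C := max (max K C₁) (max C₂ 0) + 3 * d
  have hd0 : 0 ≤ d := dist_nonneg
  have hC0 : 0 ≤ C := by
    have := le_max_right (max K C₁) (max C₂ 0)
    have := le_max_right C₂ (0 : ℝ)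
    simp only [C]; linarith
  have move : ∀ a b : Γ, gp t (act a t) (act b t) ≤ gp o (act a o) (act b o) + 3 * d := by
    intro a b
    have h1 := gp_base t o (act a t) (act b t)
    have h2 := gp_move o (act a t) (act b t) (act b o)
    have h3 := gp_move o (act b o) (act a t) (act a o)
    rw [gp_comm o (act b o) (act a t), gp_comm o (act b o) (act a o), isom, dist_comm] at h3
    rw [isom, dist_comm] at h2
    rw [dist_comm] at h1
    linarith
  have far : ∀ a : Γ, dist o (act a o) ≤ dist t (act a t) + 2 * d := by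
    intro a
    have h1 := dist_triangle4 o t (act a t) (act a o)
    rw [isom, dist_comm t o] at h1
    linarith
  have speed : ∀ (a : Γ) (n : ℕ), (n : ℝ) ≤ dist o (act (a ^ n) o) →
      (n : ℝ) - C ≤ dist t (act (a ^ n) t) ∧ (n : ℝ) - C ≤ dist t (act (a⁻¹ ^ n) t) := by
    intro a n ha
    have e : dist t (act (a⁻¹ ^ n) t) = dist t (act (a ^ n) t) := by
      rw [← isom (a ^ n) t, inv_pow, act_act_inv, dist_comm]
    rw [e]
    have h0 : 2 * d ≤ C := by
      have := le_max_right (max K C₁) (max C₂ 0)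
      have := le_max_right C₂ (0 : ℝ)
      simp only [C]; linarith
    constructor <;> linarith [far (a ^ n)]
  have pair : ∀ a b : Γ, (∀ n k : ℕ, gp o (act (a ^ n) o) (act (b ^ k) o) ≤ max (max K C₁) (max C₂ 0)) →
      ∀ n k : ℕ, gp t (act (a ^ n) t) (act (b ^ k) t) ≤ C := fun a b hab n k =>
    (move _ _).trans (by simp only [C]; linarith [hab n k])
  have hKle : K ≤ max (max K C₁) (max C₂ 0) := (le_max_left _ _).trans (le_max_left _ _)
  have h01 := pair g g⁻¹ fun n k => (hC₁ n k).trans ((le_max_right _ _).trans (le_max_left _ _))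
  have h23 := pair h h⁻¹ fun n k => (hC₂ n k).trans ((le_max_left _ _).trans (le_max_right _ _))
  have h02 := pair g h fun n k => (hdiv (g, h) (by simp) n k).trans hKle
  have h03 := pair g h⁻¹ fun n k => (hdiv (g, h⁻¹) (by simp) n k).trans hKle
  have h12 := pair g⁻¹ h fun n k => (hdiv (g⁻¹, h) (by simp) n k).trans hKle
  have h13 := pair g⁻¹ h⁻¹ fun n k => (hdiv (g⁻¹, h⁻¹) (by simp) n k).trans hKle
  refine ⟨![g, g⁻¹, h, h⁻¹], C, hC0, fun i => ?_, fun i n => ?_, fun i j hij n k => ?_⟩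
  · fin_cases i <;> simp [opp]
  · fin_cases i
    exacts [(speed g n (hsp n).1).1, (speed g n (hsp n).1).2, (speed h n (hsp n).2).1,
      (speed h n (hsp n).2).2]
  · fin_cases i <;> fin_cases j <;> first
      | exact absurd rfl hij
      | exact h01 n k | exact h02 n k | exact h03 n k | exact h12 n k | exact h13 n k
      | exact h23 n k
      | (rw [gp_comm]; first
          | exact h01 k n | exact h02 k n | exact h03 k n | exact h12 k n | exact h13 k n
          | exact h23 k n)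

variable {V O ι : Type} {G : SimpleGraph V}

/-- The image of a walk under the action. -/
theorem exists_walk_translate (Φ : Γ →* (G ≃g G)) (γ : Γ) {a c : V} (w : G.Walk a c) :
    ∃ w' : G.Walk (Φ γ a) (Φ γ c), w'.length = w.length ∧
      ∀ v ∈ w'.support, ∃ u ∈ w.support, Φ γ u = v := by
  refine ⟨w.map (Φ γ).toHom, SimpleGraph.Walk.length_map _ _, fun v hv => ?_⟩
  exact List.mem_map.1 ((congrArg (v ∈ ·) (SimpleGraph.Walk.support_map _ w)).mp hv)

/-- Positions along a walk stay near its start. -/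
theorem pos_near_start {pos : V → X} {D : ℝ} (hD0 : 0 ≤ D)
    (hD : ∀ x y, G.Adj x y → dist (pos x) (pos y) ≤ D) {a b : V} (w : G.Walk a b) :
    ∀ v ∈ w.support, dist (pos a) (pos v) ≤ D * w.length := by
  induction w with
  | nil =>
    intro v hv
    rw [SimpleGraph.Walk.support_nil, List.mem_singleton] at hv
    simp [hv]
  | @cons u x _ hux w ih =>
    intro v hv
    rw [SimpleGraph.Walk.support_cons, List.mem_cons] at hv
    rw [SimpleGraph.Walk.length_cons, Nat.cast_succ]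
    rcases hv with rfl | hv
    · rw [dist_self]; positivity
    · refine (dist_triangle _ (pos x) _).trans ?_
      linarith [ih v hv, hD _ _ hux]

/-- High powers of the letters at `t`. -/
structure Play (act : Γ →* Equiv.Perm X) (t : X) (e : Fin 4 → Γ) (δ B kU k₀ : ℝ) (n : ℕ) : Prop
    where
  isom : ∀ γ x y, dist (act γ x) (act γ y) = dist x y
  hyp : Hyp X δ
  delta_nonneg : 0 ≤ δ
  inv : ∀ i, e (opp i) = (e i)⁻¹
  sep : ∀ i j, i ≠ j → ∀ m k : ℕ, gp t (act (e i ^ m) t) (act (e j ^ k) t) ≤ B - δ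
  long : ∀ i, kU + k₀ + 3 * (B + δ) < dist t (act (e i ^ n) t)
  le_B : δ ≤ B
  B_lt_k₀ : B + δ ≤ k₀
  k₀_lt_kU : k₀ < kU

/-- A point avoided by the orbit of a letter. -/
def Avd (act : Γ →* Equiv.Perm X) (t : X) (e : Fin 4 → Γ) (B : ℝ) (i : Fin 4) (u : X) : Prop :=
  ∀ m : ℕ, gp t (act (e i ^ m) t) u ≤ B

/-- A point that the high power of the opposite letter pushes deep. -/
def Op (act : Γ →* Equiv.Perm X) (t : X) (e : Fin 4 → Γ) (δ B : ℝ) (n : ℕ) (i : Fin 4) (q : X) :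
    Prop :=
  gp t (act (e i ^ n) t) q ≤ B + δ

/-- A deep point of a letter. -/
def In (act : Γ →* Equiv.Perm X) (t : X) (e : Fin 4 → Γ) (δ B kU : ℝ) (n : ℕ) (i : Fin 4) (q : X) :
    Prop :=
  kU + B + 2 * δ ≤ gp t (act (e i ^ n) t) q

/-- A point with small products with all points avoided by a letter. -/
def Pf (act : Γ →* Equiv.Perm X) (t : X) (e : Fin 4 → Γ) (δ B : ℝ) (i : Fin 4) (q : X) : Prop :=
  ∀ u, Avd act t e B i u → gp t q u ≤ B + δ

namespace Play

variable {act} {t : X} {e : Fin 4 → Γ} {δ B kU k₀ : ℝ} {n : ℕ}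
  (P : Play act t e δ B kU k₀ n)

include P

theorem avd_other {i j : Fin 4} (hij : i ≠ j) (k : ℕ) : Avd act t e B i (act (e j ^ k) t) :=
  fun m => (P.sep _ _ hij m k).trans (by linarith [P.delta_nonneg])

theorem op_t (i : Fin 4) : Op act t e δ B n i t := by
  have h := gp_le_dist' t (act (e i ^ n) t) t
  rw [dist_self] at h
  exact h.trans (by linarith [P.delta_nonneg, P.le_B])

theorem pf_axis (i : Fin 4) (m : ℕ) : Pf act t e δ B i (act (e i ^ m) t) :=
  fun _ hu => (hu m).trans (by linarith [P.delta_nonneg])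

theorem op_of_pf {i j : Fin 4} (hji : j ≠ i) {q : X} (hq : Pf act t e δ B j q) :
    Op act t e δ B n i q := by
  have h := hq _ (P.avd_other hji n)
  rwa [gp_comm] at h

theorem pf_of_in {i : Fin 4} {q : X} (hq : In act t e δ B kU n i q) : Pf act t e δ B i q :=
  fun u hu => by
    have h1 := P.hyp t (act (e i ^ n) t) q u
    have h2 : kU + B + 2 * δ ≤ gp t (act (e i ^ n) t) q := hq
    have h3 := hu n
    rcases le_total (gp t (act (e i ^ n) t) q) (gp t q u) with h | h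
    · rw [min_eq_left h] at h1
      linarith [P.delta_nonneg, P.le_B, P.B_lt_k₀, P.k₀_lt_kU]
    · rw [min_eq_right h] at h1
      linarith

theorem inv_pow' (a : Fin 4) : (e a ^ n)⁻¹ = e (opp a) ^ n := by rw [P.inv, inv_pow]

theorem two_sided (i : Fin 4) (q : X) : gp t (act (e i ^ n) t) (act (e i ^ n) q) +
    gp t (act (e (opp i) ^ n) t) q = dist t (act (e i ^ n) t) := by
  rw [← P.inv_pow']
  have h1 := gp_split t (act (e i ^ n) t) (act (e i ^ n) q)
  rw [show gp (act (e i ^ n) t) t (act (e i ^ n) q) = gp t (act (e i ^ n)⁻¹ t) q by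
    conv_lhs => enter [2]; rw [← act_act_inv act (e i ^ n) t]
    exact gp_map (P.isom _) _ _ _] at h1
  exact h1

theorem push {i : Fin 4} {q : X} (hq : gp t (act (e (opp i) ^ n) t) q ≤ k₀ + B + δ) :
    In act t e δ B kU n i (act (e i ^ n) q) := by
  show kU + B + 2 * δ ≤ _
  linarith [P.two_sided i q, P.long i, P.le_B, P.delta_nonneg]

theorem push' {i : Fin 4} {q : X} (hq : Op act t e δ B n (opp i) q) :
    In act t e δ B kU n i (act (e i ^ n) q) := by
  refine P.push (hq.trans ?_)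
  linarith [P.le_B, P.delta_nonneg, P.B_lt_k₀]

theorem excl {i j : Fin 4} {q : X} (h1 : In act t e δ B kU n i q)
    (h2 : In act t e δ B kU n j q) : i = j := by
  by_contra hij
  have h3 := P.hyp t (act (e i ^ n) t) q (act (e j ^ n) t)
  have h4 := P.sep _ _ hij n n
  have h1' : kU + B + 2 * δ ≤ gp t (act (e i ^ n) t) q := h1
  have h2' : kU + B + 2 * δ ≤ gp t (act (e j ^ n) t) q := h2
  rw [gp_comm t (act (e j ^ n) t)] at h2'
  have := le_min h1' h2'
  linarith [P.le_B, P.B_lt_k₀, P.k₀_lt_kU, P.delta_nonneg]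

theorem back {i : Fin 4} {l : ℕ} (hl : l ≤ n) (x : X) :
    act (e i ^ n)⁻¹ (act (e i ^ l) x) = act (e (opp i) ^ (n - l)) x := by
  rw [← act_mul, P.inv, inv_pow]
  congr 2
  rw [show e i ^ n = e i ^ l * e i ^ (n - l) by rw [← pow_add, Nat.add_sub_cancel' hl],
    mul_inv_rev, inv_mul_cancel_right]

theorem le_dist_of_in {i : Fin 4} {q : X} (h : In act t e δ B kU n i q) : kU ≤ dist t q := by
  have h1 := gp_le_dist' t (act (e i ^ n) t) q
  have h2 : kU + B + 2 * δ ≤ gp t (act (e i ^ n) t) q := h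
  linarith [P.le_B, P.delta_nonneg]

/-- One of three letters avoids any two points. -/
theorem avoid (u w : X) : ∃ i : Fin 3, Avd act t e B i.castSucc u ∧ Avd act t e B i.castSucc w := by
  have one : ∀ (x : X) (i j : Fin 3), i ≠ j →
      Avd act t e B i.castSucc x ∨ Avd act t e B j.castSucc x := by
    intro x i j hij
    by_contra hno
    push Not at hno
    obtain ⟨hi, hj⟩ := hno
    obtain ⟨m, hm⟩ := not_forall.1 hi
    obtain ⟨m', hm'⟩ := not_forall.1 hj
    have h1 := P.hyp t (act (e i.castSucc ^ m) t) x (act (e j.castSucc ^ m') t)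
    have h2 := P.sep _ _ (fun e' => hij (Fin.castSucc_injective _ e')) m m'
    rw [not_le] at hm hm'
    rw [gp_comm t (act (e j.castSucc ^ m') t)] at hm'
    have := lt_min hm hm'
    linarith
  have u01 := one u 0 1 (by decide)
  have u02 := one u 0 2 (by decide)
  have u12 := one u 1 2 (by decide)
  have w01 := one w 0 1 (by decide)
  have w02 := one w 0 2 (by decide)
  have w12 := one w 1 2 (by decide)
  by_contra hno
  push Not at hno
  have := hno 0
  have := hno 1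
  have := hno 2
  tauto

theorem op02 {a : Fin 4} {q : X} (ha : a = 0 ∨ a = 2) (hq : Pf act t e δ B (opp a) q) :
    Op act t e δ B n 0 q ∧ Op act t e δ B n 2 q := by
  rcases ha with rfl | rfl <;> exact ⟨P.op_of_pf (by decide) hq, P.op_of_pf (by decide) hq⟩

theorem op13 {a : Fin 4} {q : X} (ha : a = 0 ∨ a = 2) (hq : Pf act t e δ B a q) :
    Op act t e δ B n 1 q ∧ Op act t e δ B n 3 q := by
  rcases ha with rfl | rfl <;> exact ⟨P.op_of_pf (by decide) hq, P.op_of_pf (by decide) hq⟩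

omit P in
theorem opp_opp (a : Fin 4) : opp (opp a) = a := by revert a; decide

/-- Short walks along the letters give deep words with walks away from both shadows. -/
theorem exists_words {G : SimpleGraph V} (Φ : Γ →* (G ≃g G)) (rep : O → V) (o₁ : O) (pos : V → X)
    (hpos : ∀ γ v, pos (Φ γ v) = act γ (pos v)) (R₀ : ℝ) (blk : ℕ)
    (hletter : ∀ (a : Fin 4) (r : O), ∃ w : G.Walk (rep r) (Φ (e a ^ n) (rep o₁)),
      w.length ≤ blk ∧ ∀ v ∈ w.support, ∃ l, l ≤ n ∧ dist (act (e a ^ l) t) (pos v) ≤ R₀) :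
    ∀ m : ℕ, ∃ W : Finset Γ, W.card = 2 ^ m ∧
      (∀ ψ ∈ W, (In act t e δ B kU n 0 (act ψ t) ∨ In act t e δ B kU n 2 (act ψ t)) ∧
        (∀ y, Op act t e δ B n 0 y → Op act t e δ B n 2 y →
          In act t e δ B kU n 1 (act ψ⁻¹ y)) ∧
        ∀ r, ∃ w : G.Walk (rep r) (Φ ψ (rep o₁)), w.length ≤ blk * (m + 1) ∧
          ∀ v ∈ w.support, ∃ x, dist x (pos v) ≤ R₀ ∧ Op act t e δ B n 1 x ∧
            Op act t e δ B n 3 x ∧ Op act t e δ B n 3 (act ψ⁻¹ x)) ∧
      (W : Set Γ).Pairwise fun ψ ψ' => In act t e δ B kU n 1 (act ψ⁻¹ (act ψ' t)) := by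
  classical
  intro m
  induction m with
  | zero =>
    refine ⟨{e 0 ^ n}, by simp, fun ψ hψ => ?_, by simp⟩
    rw [mem_singleton] at hψ
    subst hψ
    refine ⟨Or.inl (P.push' (P.op_t _)), fun y h0 _ => ?_, fun r => ?_⟩
    · rw [P.inv_pow']
      exact P.push' h0
    · obtain ⟨w, hw, hv⟩ := hletter 0 r
      refine ⟨w, by omega, fun v h => ?_⟩
      obtain ⟨l, hl, hd⟩ := hv v h
      refine ⟨_, hd, (P.op13 (Or.inl rfl) (P.pf_axis 0 l)).1,
        (P.op13 (Or.inl rfl) (P.pf_axis 0 l)).2, ?_⟩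
      rw [P.back hl]
      exact P.op_of_pf (by decide) (P.pf_axis _ _)
  | succ m ih =>
    obtain ⟨W, hcard, hW', hdis⟩ := ih
    have hstep : ∀ a : Fin 4, (a = 0 ∨ a = 2) → ∀ ψ ∈ W,
        In act t e δ B kU n a (act (e a ^ n * ψ) t) ∧
        (∀ y, Op act t e δ B n 0 y → Op act t e δ B n 2 y →
          In act t e δ B kU n 1 (act (e a ^ n * ψ)⁻¹ y)) ∧
        ∀ r, ∃ w : G.Walk (rep r) (Φ (e a ^ n * ψ) (rep o₁)),
          w.length ≤ blk * (m + 1 + 1) ∧ ∀ v ∈ w.support, ∃ x, dist x (pos v) ≤ R₀ ∧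
            Op act t e δ B n 1 x ∧ Op act t e δ B n 3 x ∧
              Op act t e δ B n 3 (act (e a ^ n * ψ)⁻¹ x) := by
      intro a ha ψ hψ
      obtain ⟨hA, hI, hW⟩ := hW' ψ hψ
      refine ⟨?_, fun y h0 h2 => ?_, fun r => ?_⟩
      · rw [act_mul]
        refine P.push' ?_
        rcases hA with h | h <;> rcases ha with rfl | rfl <;>
          exact P.op_of_pf (by decide) (P.pf_of_in h)
      · rw [mul_inv_rev, act_mul, P.inv_pow']
        have hy : Op act t e δ B n (opp (opp a)) y := by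
          rw [opp_opp]
          rcases ha with rfl | rfl <;> assumption
        obtain ⟨k0, k2⟩ := P.op02 ha (P.pf_of_in (P.push' hy))
        exact hI _ k0 k2
      · obtain ⟨w₁, hw₁, hv₁⟩ := hletter a r
        obtain ⟨w₂, hw₂, hv₂⟩ := hW o₁
        obtain ⟨w₃, hw₃, hv₃⟩ := exists_walk_translate Φ (e a ^ n) w₂
        refine ⟨(w₁.append w₃).copy rfl (by rw [map_mul]; rfl), ?_, fun v h => ?_⟩
        · simp only [SimpleGraph.Walk.length_append, SimpleGraph.Walk.length_copy]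
          rw [mul_add blk (m + 1) 1]
          omega
        · rw [SimpleGraph.Walk.support_copy, SimpleGraph.Walk.mem_support_append_iff] at h
          rcases h with h | h
          · obtain ⟨l, hl, hd⟩ := hv₁ v h
            obtain ⟨h1, h3⟩ := P.op13 ha (P.pf_axis a l)
            refine ⟨_, hd, h1, h3, ?_⟩
            rw [mul_inv_rev, act_mul, P.back hl]
            obtain ⟨k0, k2⟩ := P.op02 ha (P.pf_axis (opp a) (n - l))
            exact P.op_of_pf (by decide) (P.pf_of_in (hI _ k0 k2))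
          · obtain ⟨u, hu, rfl⟩ := hv₃ v h
            obtain ⟨x, hd, h1, h3, h3'⟩ := hv₂ u hu
            have hxa : In act t e δ B kU n a (act (e a ^ n) x) := P.push' (by
              rcases ha with rfl | rfl
              exacts [h1, h3])
            obtain ⟨k1, k3⟩ := P.op13 ha (P.pf_of_in hxa)
            refine ⟨_, by rw [hpos, P.isom]; exact hd, k1, k3, ?_⟩
            rw [mul_inv_rev, act_mul, act_inv_act]
            exact h3'
    have hcross : ∀ a a' : Fin 4, (a = 0 ∨ a = 2) → (a' = 0 ∨ a' = 2) → a ≠ a' →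
        ∀ ψ ∈ W, ∀ ψ' ∈ W,
          In act t e δ B kU n 1 (act (e a ^ n * ψ)⁻¹ (act (e a' ^ n * ψ') t)) := by
      intro a a' ha ha' hne ψ hψ ψ' hψ'
      rw [mul_inv_rev, act_mul act ψ⁻¹, P.inv_pow']
      obtain ⟨k0, k2⟩ := P.op02 ha (P.pf_of_in (P.push' (i := opp a) (by
        rw [opp_opp]
        exact P.op_of_pf hne.symm (P.pf_of_in (hstep a' ha' ψ' hψ').1))))
      exact (hW' ψ hψ).2.1 _ k0 k2
    refine ⟨W.image (e 0 ^ n * ·) ∪ W.image (e 2 ^ n * ·), ?_, fun ψ hψ => ?_, ?_⟩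
    · rw [card_union_of_disjoint, card_image_of_injective _ (mul_right_injective _),
        card_image_of_injective _ (mul_right_injective _), hcard, pow_succ]
      · omega
      · rw [disjoint_left]
        intro x h1 h2
        obtain ⟨φ, hφ, rfl⟩ := mem_image.1 h1
        obtain ⟨φ', hφ', e'⟩ := mem_image.1 h2
        have h3 := (hstep 0 (Or.inl rfl) φ hφ).1
        have h4 := (hstep 2 (Or.inr rfl) φ' hφ').1
        rw [e'] at h4
        exact absurd (P.excl h3 h4) (by decide)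
    · rcases mem_union.1 hψ with h | h <;> obtain ⟨φ, hφ, rfl⟩ := mem_image.1 h
      · obtain ⟨h1, h2⟩ := hstep 0 (Or.inl rfl) φ hφ
        exact ⟨Or.inl h1, h2⟩
      · obtain ⟨h1, h2⟩ := hstep 2 (Or.inr rfl) φ hφ
        exact ⟨Or.inr h1, h2⟩
    · intro x hx y hy hxy
      have same : ∀ (γ φ φ' : Γ), φ ∈ W → φ' ∈ W → γ * φ ≠ γ * φ' →
          In act t e δ B kU n 1 (act (γ * φ)⁻¹ (act (γ * φ') t)) := by
        intro γ φ φ' hφ hφ' hne
        rw [mul_inv_rev, act_mul act φ⁻¹, act_mul act γ φ', act_inv_act]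
        exact hdis hφ hφ' fun e' => hne (by rw [e'])
      rcases mem_union.1 (mem_coe.1 hx) with h | h <;>
        rcases mem_union.1 (mem_coe.1 hy) with h' | h' <;>
        obtain ⟨φ, hφ, rfl⟩ := mem_image.1 h <;> obtain ⟨φ', hφ', rfl⟩ := mem_image.1 h'
      · exact same _ _ _ hφ hφ' hxy
      · exact hcross 0 2 (Or.inl rfl) (Or.inr rfl) (by decide) φ hφ φ' hφ'
      · exact hcross 2 0 (Or.inr rfl) (Or.inl rfl) (by decide) φ hφ φ' hφ'
      · exact same _ _ _ hφ hφ' hxy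

end Play

/-- Short walks along the powers of the letters. -/
theorem exists_letter_walks [Fintype O] (hconn : G.Connected) (Φ : Γ →* (G ≃g G)) (rep : O → V)
    (o₁ : O) (isom : ∀ γ x y, dist (act γ x) (act γ y) = dist x y) {pos : V → X}
    (hpos : ∀ γ v, pos (Φ γ v) = act γ (pos v)) {D : ℝ} (hD0 : 0 ≤ D)
    (hD : ∀ x y, G.Adj x y → dist (pos x) (pos y) ≤ D) (e : Fin 4 → Γ) :
    ∃ (L : ℕ) (R₀ : ℝ), 1 ≤ L ∧ (∀ r, dist (pos (rep o₁)) (pos (rep r)) ≤ R₀) ∧
      ∀ (a : Fin 4) (n : ℕ) (r : O), ∃ w : G.Walk (rep r) (Φ (e a ^ n) (rep o₁)),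
        w.length ≤ L * (n + 1) ∧
          ∀ v ∈ w.support, ∃ l, l ≤ n ∧
            dist (act (e a ^ l) (pos (rep o₁))) (pos v) ≤ R₀ := by
  set t := pos (rep o₁)
  set S : List Γ := 1 :: List.ofFn e
  obtain ⟨L, hL1, hop⟩ : ∃ L : ℕ, 1 ≤ L ∧ ∀ γ ∈ S, ∀ r : O,
      ∃ w : G.Walk (rep r) (Φ γ (rep o₁)), w.length ≤ L := by
    refine ⟨1 + (S.map fun γ => ∑ r, G.dist (rep r) (Φ γ (rep o₁))).sum, by omega,
      fun γ hγ r => ?_⟩
    obtain ⟨w, hw⟩ := hconn.exists_walk_length_eq_dist (rep r) (Φ γ (rep o₁))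
    refine ⟨w, ?_⟩
    have h1 := single_le_sum (f := fun r => G.dist (rep r) (Φ γ (rep o₁)))
      (fun _ _ => Nat.zero_le _) (mem_univ r)
    have h2 := List.le_sum_of_mem
      (List.mem_map.2 ⟨γ, hγ, rfl⟩ : (∑ r, G.dist (rep r) (Φ γ (rep o₁))) ∈
        S.map fun γ => ∑ r, G.dist (rep r) (Φ γ (rep o₁)))
    omega
  set R₀ := ∑ r, dist t (pos (rep r)) + D * L
  have hDr : ∀ r, dist t (pos (rep r)) ≤ ∑ r, dist t (pos (rep r)) := fun r =>
    single_le_sum (f := fun r => dist t (pos (rep r))) (fun _ _ => dist_nonneg) (mem_univ r)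
  have hDL : 0 ≤ D * L := mul_nonneg hD0 (Nat.cast_nonneg L)
  have hnear : ∀ γ ∈ S, ∀ r, ∃ w : G.Walk (rep r) (Φ γ (rep o₁)), w.length ≤ L ∧
      ∀ v ∈ w.support, dist t (pos v) ≤ R₀ := by
    intro γ hγ r
    obtain ⟨w, hw⟩ := hop γ hγ r
    refine ⟨w, hw, fun v hv => (dist_triangle _ (pos (rep r)) _).trans
      (add_le_add (hDr r) ((pos_near_start hD0 hD w v hv).trans ?_))⟩
    exact mul_le_mul_of_nonneg_left (by exact_mod_cast hw) hD0
  refine ⟨L, R₀, hL1, fun r => (hDr r).trans (le_add_of_nonneg_right hDL), fun a n => ?_⟩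
  induction n with
  | zero =>
    intro r
    obtain ⟨w, hw, hv⟩ := hnear 1 (List.mem_cons_self ..) r
    refine ⟨w.copy rfl (by rw [pow_zero]), by rw [SimpleGraph.Walk.length_copy]; omega,
      fun v h => ⟨0, le_rfl, ?_⟩⟩
    rw [SimpleGraph.Walk.support_copy] at h
    rw [pow_zero, act_one]
    exact hv v h
  | succ n ih =>
    intro r
    obtain ⟨w, hw, hv⟩ := ih r
    obtain ⟨u, hu, hvu⟩ := hnear (e a) (List.mem_cons_of_mem _ (List.mem_ofFn.2 ⟨a, rfl⟩)) o₁
    obtain ⟨u', hu', hv'⟩ := exists_walk_translate Φ (e a ^ n) u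
    refine ⟨(w.append u').copy rfl (by rw [pow_succ, map_mul Φ (e a ^ n)]; rfl),
      ?_, fun v hv'' => ?_⟩
    · rw [SimpleGraph.Walk.length_copy, SimpleGraph.Walk.length_append, mul_add L (n + 1) 1]
      omega
    · rw [SimpleGraph.Walk.support_copy, SimpleGraph.Walk.mem_support_append_iff] at hv''
      rcases hv'' with h | h
      · obtain ⟨l, hl1, hl2⟩ := hv v h
        exact ⟨l, hl1.trans (Nat.le_succ n), hl2⟩
      · obtain ⟨x, hx, rfl⟩ := hv' v h
        refine ⟨n, Nat.le_succ n, ?_⟩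
        rw [hpos, isom]
        exact hvu x hx

/-- The frame data at a high power. -/
theorem exists_frames {t : X} {e : Fin 4 → Γ} {δ B kU k₀ k₁ Cf R₀ : ℝ} {n L : ℕ}
    (P : Play act t e δ B kU k₀ n) (hCf : B + δ + R₀ ≤ Cf) (hk₀ : Cf ≤ k₀) (hk₁ : B + δ < k₁)
    {G : SimpleGraph V} (Φ : Γ →* (G ≃g G)) (rep : O → V) (o₁ : O) (pos : V → X)
    (hpos : ∀ γ v, pos (Φ γ v) = act γ (pos v))
    (hwalk : ∀ (a : Fin 4) (r : O), ∃ w : G.Walk (rep r) (Φ (e a ^ n) (rep o₁)),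
        w.length ≤ L * (n + 1) ∧
          ∀ v ∈ w.support, ∃ l, l ≤ n ∧ dist (act (e a ^ l) t) (pos v) ≤ R₀) :
    ∃ (U Ax : Fin 3 → Set X) (σ τ : Fin 3 → Γ),
      (∀ i, U i ⊆ Ax i) ∧ (∀ i, ∀ q ∈ U i, kU ≤ dist t q) ∧
      (∀ u w, ∃ i, ∀ q ∈ Ax i, gp t q u ≤ Cf ∧ gp t q w ≤ Cf) ∧
      (∀ i q, q ∉ shadow act t (act (e 3 ^ n) t) k₀ 1 → act (σ i) q ∈ U i) ∧
      (∀ i q, q ∈ shadow act t (act (e 3 ^ n) t) k₁ 1 → act (τ i) q ∈ U i) ∧
      (∀ i r, ∃ w : G.Walk (rep r) (Φ (σ i) (rep o₁)), w.length ≤ 2 * (L * (n + 1)) ∧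
        ∀ v ∈ w.support, pos v ∈ Ax i) ∧
      (∀ i r, ∃ w : G.Walk (rep r) (Φ (τ i) (rep o₁)), w.length ≤ 2 * (L * (n + 1)) ∧
        ∀ v ∈ w.support, pos v ∉ shadow act t (act (e 3 ^ n) t) k₀ (τ i)) := by
  set b := act (e 3 ^ n) t
  have hδ := P.delta_nonneg
  have hB := P.le_B
  set κ : Fin 3 → Fin 4 := ![0, 1, 0]
  have hκ : ∀ i : Fin 3, κ i ≠ opp i.castSucc ∧ opp (κ i) ≠ 3 ∧ opp i.castSucc ≠ κ i := by decide
  have h2op : ∀ i : Fin 3, (2 : Fin 4) ≠ opp i.castSucc := by decide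
  have hword : ∀ (i j : Fin 4) r, ∃ w : G.Walk (rep r) (Φ (e i ^ n * e j ^ n) (rep o₁)),
      w.length ≤ 2 * (L * (n + 1)) ∧ ∀ v ∈ w.support, ∃ x, dist x (pos v) ≤ R₀ ∧
        ((∃ l, l ≤ n ∧ x = act (e i ^ l) t) ∨
          ∃ l, l ≤ n ∧ x = act (e i ^ n) (act (e j ^ l) t)) := by
    intro i j r
    obtain ⟨w₁, hw₁, hv₁⟩ := hwalk i r
    obtain ⟨w₂, hw₂, hv₂⟩ := hwalk j o₁
    obtain ⟨w₃, hw₃, hv₃⟩ := exists_walk_translate Φ (e i ^ n) w₂
    refine ⟨(w₁.append w₃).copy rfl (by rw [map_mul]; rfl), ?_, fun v h => ?_⟩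
    · simp only [SimpleGraph.Walk.length_append, SimpleGraph.Walk.length_copy]
      omega
    · rw [SimpleGraph.Walk.support_copy, SimpleGraph.Walk.mem_support_append_iff] at h
      rcases h with h | h
      · obtain ⟨l, hl, hd⟩ := hv₁ v h
        exact ⟨_, hd, Or.inl ⟨l, hl, rfl⟩⟩
      · obtain ⟨u, hu, rfl⟩ := hv₃ v h
        obtain ⟨l, hl, hd⟩ := hv₂ u hu
        exact ⟨_, by rw [hpos, P.isom]; exact hd, Or.inr ⟨l, hl, rfl⟩⟩
  have near : ∀ {x y u : X}, gp t x u ≤ B + δ → dist x y ≤ R₀ → gp t y u ≤ Cf := by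
    intro x y u h hd
    have h1 := gp_move t u y x
    rw [gp_comm t u y, gp_comm t u x, dist_comm] at h1
    linarith
  refine ⟨fun i => {q | ∀ u, Avd act t e B i.castSucc u → gp t q u ≤ Cf} ∩ {q | kU ≤ dist t q},
    fun i => {q | ∀ u, Avd act t e B i.castSucc u → gp t q u ≤ Cf},
    fun i => e i.castSucc ^ n * e 2 ^ n, fun i => e i.castSucc ^ n * e (κ i) ^ n,
    fun i => Set.inter_subset_left, fun i q hq => hq.2, ?_, ?_, ?_, ?_, ?_⟩
  · intro u w
    obtain ⟨i, hu, hw⟩ := P.avoid u w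
    exact ⟨i, fun q hq => ⟨hq u hu, hq w hw⟩⟩
  · intro i q hq
    have hq' : gp t b q ≤ k₀ := by
      change ¬ k₀ < gp (act 1 t) q (act 1 b) at hq
      rwa [act_one, act_one, not_lt, gp_comm] at hq
    have h2 : In act t e δ B kU n 2 (act (e 2 ^ n) q) := P.push (by
      rw [show opp 2 = 3 from rfl]; linarith)
    have h3 := P.push' (P.op_of_pf (h2op i) (P.pf_of_in h2))
    rw [act_mul]
    refine ⟨fun u hu => (P.pf_of_in h3 u hu).trans ?_, P.le_dist_of_in h3⟩
    linarith [show (0 : ℝ) ≤ R₀ by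
      obtain ⟨w, -, hv⟩ := hwalk 0 o₁
      obtain ⟨l, -, hd⟩ := hv _ w.start_mem_support
      exact dist_nonneg.trans hd]
  · intro i q hq
    change k₁ < gp (act 1 t) q (act 1 b) at hq
    rw [act_one, act_one] at hq
    have h0 : Op act t e δ B n (opp (κ i)) q := by
      show gp t (act (e (opp (κ i)) ^ n) t) q ≤ B + δ
      have h1 := P.hyp t (act (e (opp (κ i)) ^ n) t) q b
      have h2 := P.sep _ _ (hκ i).2.1 n n
      rcases le_total (gp t (act (e (opp (κ i)) ^ n) t) q) (gp t q b) with h | h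
      · rw [min_eq_left h] at h1
        linarith
      · rw [min_eq_right h] at h1
        linarith
    have h3 := P.push' (P.op_of_pf (hκ i).1 (P.pf_of_in (P.push' h0)))
    rw [act_mul]
    refine ⟨fun u hu => (P.pf_of_in h3 u hu).trans ?_, P.le_dist_of_in h3⟩
    linarith [show (0 : ℝ) ≤ R₀ by
      obtain ⟨w, -, hv⟩ := hwalk 0 o₁
      obtain ⟨l, -, hd⟩ := hv _ w.start_mem_support
      exact dist_nonneg.trans hd]
  · intro i r
    obtain ⟨w, hw, hv⟩ := hword i.castSucc 2 r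
    refine ⟨w, hw, fun v h u hu => ?_⟩
    obtain ⟨x, hx, hcase⟩ := hv v h
    refine near ?_ hx
    rcases hcase with ⟨l, -, rfl⟩ | ⟨l, -, rfl⟩
    · exact P.pf_axis _ _ u hu
    · exact P.pf_of_in (P.push' (P.op_of_pf (h2op i) (P.pf_axis _ _))) u hu
  · intro i r
    obtain ⟨w, hw, hv⟩ := hword i.castSucc (κ i) r
    refine ⟨w, hw, fun v h hsh => ?_⟩
    obtain ⟨x, hx, hcase⟩ := hv v h
    set ψ := e i.castSucc ^ n * e (κ i) ^ n with hψ
    have key : gp t (act ψ⁻¹ x) b ≤ B + δ := by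
      rw [gp_comm]
      refine (P.op_of_pf (hκ i).2.1 ?_ : Op act t e δ B n 3 _)
      rcases hcase with ⟨l, hl, rfl⟩ | ⟨l, hl, rfl⟩
      · rw [hψ, mul_inv_rev, act_mul, P.back hl, P.inv_pow']
        refine P.pf_of_in (P.push' ?_)
        rw [Play.opp_opp]
        exact P.op_of_pf (hκ i).2.2 (P.pf_axis _ _)
      · rw [hψ, mul_inv_rev, act_mul, act_inv_act, P.back hl]
        exact P.pf_axis _ _
    change k₀ < gp (act ψ t) (pos v) (act ψ b) at hsh
    rw [← act_act_inv act ψ (pos v), gp_map (P.isom ψ)] at hsh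
    have h1 := near key (show dist (act ψ⁻¹ x) (act ψ⁻¹ (pos v)) ≤ R₀ by rwa [P.isom])
    linarith

/-- Two elements with four ends give frames for every graph with a cofinite action and an
equivariant map. -/
theorem exists_env [Fintype ι] {nb : V → ι → V} (hl : Labelling G nb) (hconn : G.Connected)
    (Φ : Γ →* (G ≃g G)) (Rr : Finset V) (cover : ∀ v, ∃ g, Φ g v ∈ Rr) {δ : ℝ} (hδ : 0 ≤ δ)
    (hyp : Hyp X δ) (hpack : Packing X) (isom : ∀ γ x y, dist (act γ x) (act γ y) = dist x y)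
    (pos : V → X) (hpos : ∀ γ v, pos (Φ γ v) = act γ (pos v)) (o : X) (h4 : FourEnds act o) :
    ∃ (O : Type) (_ : Fintype O) (E : Env Γ O ι V X), E.G = G ∧ E.nb = nb := by
  classical
  obtain ⟨v₀⟩ := hconn.nonempty
  obtain ⟨g₀, hg₀⟩ := cover v₀
  choose gs hgs using cover
  set rep : {v // v ∈ Rr} → V := Subtype.val
  set o₁ : {v // v ∈ Rr} := ⟨Φ g₀ v₀, hg₀⟩
  set t := pos (rep o₁)
  obtain ⟨e, C, hC0, hinv, hspeed, hsep⟩ := exists_letters act isom hδ hyp h4 t
  -- displacement of the edges and short walks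
  obtain ⟨D, hD0, hD⟩ : ∃ D : ℝ, 0 ≤ D ∧ ∀ x y, G.Adj x y → dist (pos x) (pos y) ≤ D := by
    refine ⟨∑ r ∈ Rr, ∑ j : ι, dist (pos r) (pos (nb r j)),
      sum_nonneg fun _ _ => sum_nonneg fun _ _ => dist_nonneg, fun x y h => ?_⟩
    obtain ⟨j, hj⟩ := (hl.adj _ _).1 ((Φ (gs x)).map_rel_iff'.2 h)
    change nb (Φ (gs x) x) j = Φ (gs x) y at hj
    have e' : dist (pos x) (pos y) = dist (pos (Φ (gs x) x)) (pos (nb (Φ (gs x) x) j)) := by
      rw [hj, hpos, hpos, isom]
    rw [e']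
    exact (single_le_sum (f := fun j => dist (pos (Φ (gs x) x)) (pos (nb (Φ (gs x) x) j)))
      (fun _ _ => dist_nonneg) (mem_univ j)).trans (single_le_sum
        (f := fun r => ∑ j : ι, dist (pos r) (pos (nb r j)))
        (fun _ _ => sum_nonneg fun _ _ => dist_nonneg) (hgs x))
  obtain ⟨L, R₀, hL1, hDr, hwalk⟩ := exists_letter_walks act hconn Φ rep o₁ isom hpos hD0 hD e
  have hR0 : 0 ≤ R₀ := dist_nonneg.trans (hDr o₁)
  -- the constants
  set B := C + δ with hB
  set Cf := max 1 (B + δ + R₀)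
  have hCf1 : 1 ≤ Cf := le_max_left _ _
  have hCf : B + δ + R₀ ≤ Cf := le_max_right _ _
  set k₁ := 4 * (Cf + δ + 1) with hk₁
  set k₂ := k₁ + 8 * (Cf + δ + 1) with hk₂
  set k₀ := k₂ + 8 * (Cf + δ + 1) with hk₀
  set kU := 100 * (k₀ + Cf + δ + 1) with hkU
  obtain ⟨n, hn⟩ := exists_nat_gt (kU + k₀ + 3 * (B + δ) + C)
  have P : Play act t e δ B kU k₀ n :=
    ⟨isom, hyp, hδ, hinv, fun i j hij m k => (hsep i j hij m k).trans (by linarith),
      fun i => by linarith [hspeed i n], by linarith, by linarith, by linarith⟩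
  obtain ⟨U, Ax, σ, τ, hUAx, hUdeep, havoid, hσ, hτ, hσp, hτp⟩ :=
    exists_frames act P hCf (by linarith) (show B + δ < k₁ by linarith) Φ rep o₁ pos hpos
      (fun a => hwalk a n)
  have hblk : L * (n + 1) ≤ 2 * (L * (n + 1)) := Nat.le_mul_of_pos_left _ two_pos
  refine ⟨{v // v ∈ Rr}, inferInstance, Env.make G nb hl hconn Φ rep (fun v => (gs v)⁻¹)
    (fun v => ⟨Φ (gs v) v, hgs v⟩) ?_ o₁ δ hδ hyp hpack act isom pos hpos D hD0 hD
    (act (e 3 ^ n) t) k₁ k₂ k₀ Cf kU (2 * (L * (n + 1))) ?_ hCf1 hk₁.ge hk₂.ge hk₀.ge hkU.ge ?_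
    U Ax σ τ hUAx hUdeep havoid hσ hτ hσp hτp ?_, rfl, rfl⟩
  · intro v
    show Φ (gs v)⁻¹ (Φ (gs v) v) = v
    rw [map_inv]
    exact (Φ (gs v)).symm_apply_apply v
  · exact Nat.mul_pos two_pos (Nat.mul_pos (by omega) (by omega))
  · intro r
    exact (hDr r).trans (by linarith)
  · intro m r
    obtain ⟨W, hcard, hP, hdis⟩ := P.exists_words Φ rep o₁ pos hpos R₀ (2 * (L * (n + 1)))
      (fun a r => by
        obtain ⟨w, hw, hv⟩ := hwalk a n r
        exact ⟨w, hw.trans hblk, hv⟩) m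
    have far : ∀ (ψ : Γ) (x y : X), Op act t e δ B n 3 (act ψ⁻¹ x) → dist x y ≤ R₀ →
        y ∉ shadow act t (act (e 3 ^ n) t) k₀ ψ := by
      intro ψ x y hx hd h
      change k₀ < gp (act ψ t) y (act ψ (act (e 3 ^ n) t)) at h
      rw [← act_act_inv act ψ y, gp_map (isom ψ), gp_comm] at h
      have h2 := gp_move t (act (e 3 ^ n) t) (act ψ⁻¹ y) (act ψ⁻¹ x)
      rw [isom, dist_comm] at h2
      have hx' : gp t (act (e 3 ^ n) t) (act ψ⁻¹ x) ≤ B + δ := hx
      linarith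
    refine ⟨W, hcard, fun ψ hψ => ?_, fun ψ hψ ψ' hψ' hne => ?_⟩
    · obtain ⟨hA, hI, hW⟩ := hP ψ hψ
      have hx1 := P.pf_of_in (hI t (P.op_t _) (P.op_t _))
      obtain ⟨w, hw, hv⟩ := hW r
      refine ⟨?_, ?_, ?_, w, hw, fun v h => ?_⟩
      · rcases hA with h | h <;> exact P.le_dist_of_in h
      · rw [show gp (act ψ t) t (act ψ (act (e 3 ^ n) t)) =
            gp t (act ψ⁻¹ t) (act (e 3 ^ n) t) by
          conv_lhs => enter [2]; rw [← act_act_inv act ψ t]
          exact gp_map (isom ψ) _ _ _]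
        exact (hx1 _ (P.avd_other (by decide) n)).trans (by linarith)
      · rcases hA with h | h <;>
          exact (P.pf_of_in h _ (P.avd_other (by decide) n)).trans (by linarith)
      · obtain ⟨x, hd, -, h3, h3'⟩ := hv v h
        refine ⟨far ψ x _ h3' hd, far 1 x _ ?_ hd⟩
        rw [inv_one, act_one]
        exact h3
    · have e1' : kU + B + 2 * δ ≤ gp t (act (e 1 ^ n) t) (act ψ⁻¹ t) :=
        (hP ψ hψ).2.1 t (P.op_t _) (P.op_t _)
      have e2' : kU + B + 2 * δ ≤ gp t (act (e 1 ^ n) t) (act ψ⁻¹ (act ψ' t)) := hdis hψ hψ' hne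
      have e3 := hyp t (act ψ⁻¹ t) (act (e 1 ^ n) t) (act ψ⁻¹ (act ψ' t))
      have e4 := gp_eq_sub t (act ψ t) (act ψ' t)
      have e5 : gp (act ψ t) (act ψ' t) t = gp t (act ψ⁻¹ (act ψ' t)) (act ψ⁻¹ t) := by
        conv_lhs => rw [← act_act_inv act ψ (act ψ' t)]; enter [3]; rw [← act_act_inv act ψ t]
        exact gp_map (isom ψ) _ _ _
      rw [gp_comm t (act (e 1 ^ n) t) (act ψ⁻¹ t)] at e1'
      have e6 := le_min e1' e2'
      rw [e5, gp_comm t (act ψ⁻¹ (act ψ' t))] at e4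
      show gp t (act ψ t) (act ψ' t) + kU ≤ dist t (act ψ t)
      linarith

end Vale.Agent.P165.HY
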