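import Vale.Agent.P165.HY.Ends
import Vale.Agent.P165.SG.Classes
import Vale.Agent.P165.QT.Rows

/-!
# Hyperbolic graphs of bounded degree

With the path metric such a graph is hyperbolic with packing: points with products near `r` seen from
`o` are marked, injectively, by points of geodesics a bounded amount beyond `r`, which lie in a ball.
-/

namespace Vale.Agent.P165.HY

open Finset

variable {W : Type} {H : SimpleGraph W}

/-- The four point condition in a graph. -/
def GraphHyp (H : SimpleGraph W) (δ : ℕ) : Prop :=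
  ∀ x y z w : W, H.dist x y + H.dist z w ≤
    max (H.dist x z + H.dist y w) (H.dist x w + H.dist y z) + 2 * δ

/-- The path metric. -/
@[reducible] noncomputable def graphMetric (hc : H.Connected) : PseudoMetricSpace W where
  dist x y := (H.dist x y : ℝ)
  dist_self x := by simp
  dist_comm x y := by rw [H.dist_comm]
  dist_triangle x y z := by exact_mod_cast hc.dist_triangle

/-- Balls are finite of bounded size. -/
theorem exists_ball (hc : H.Connected) {D : ℕ}
    (hD : ∀ x, (H.neighborSet x).Finite ∧ (H.neighborSet x).ncard ≤ D) (p : W) (K : ℕ) :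
    ∃ s : Finset W, s.card ≤ (D + 1) ^ K ∧ ∀ x, H.dist p x ≤ K → x ∈ s := by
  classical
  induction K with
  | zero =>
    exact ⟨{p}, by simp, fun x hx =>
      mem_singleton.2 ((hc.dist_eq_zero_iff.1 (Nat.le_zero.1 hx)).symm)⟩
  | succ K ih =>
    obtain ⟨s, hs, hmem⟩ := ih
    refine ⟨s.biUnion fun y => insert y (hD y).1.toFinset, ?_, fun x hx => ?_⟩
    · refine (card_biUnion_le_card_mul _ _ (D + 1) fun y _ => ?_).trans
        ((Nat.mul_le_mul_right _ hs).trans (le_of_eq (pow_succ _ _).symm))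
      refine (card_insert_le _ _).trans (Nat.succ_le_succ ?_)
      rw [← Set.ncard_eq_toFinset_card _ (hD y).1]
      exact (hD y).2
    · rcases Nat.lt_or_ge (H.dist p x) (K + 1) with h | h
      · exact mem_biUnion.2 ⟨x, hmem x (Nat.lt_succ_iff.1 h), mem_insert_self _ _⟩
      · obtain ⟨m, h1, h2⟩ := QT.exists_between hc p x (i := K) (by omega)
        refine mem_biUnion.2 ⟨m, hmem m h1.le, mem_insert_of_mem ?_⟩
        rw [Set.Finite.mem_toFinset, SimpleGraph.mem_neighborSet, ← SimpleGraph.dist_eq_one_iff_adj]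
        omega

/-- The four point condition in a graph is the one of the path metric. -/
theorem hyp_graph (hc : H.Connected) {δ : ℕ} (hh : GraphHyp H δ) :
    @Hyp W (graphMetric hc) δ := by
  let _inst := graphMetric hc
  intro o x y z
  have h : (H.dist x z : ℝ) + H.dist o y ≤
      max ((H.dist x o : ℝ) + H.dist z y) ((H.dist x y : ℝ) + H.dist z o) + 2 * δ := by
    exact_mod_cast hh x z o y
  simp only [gp, show ∀ a b : W, dist a b = (H.dist a b : ℝ) from fun _ _ => rfl]
  rw [H.dist_comm (u := x) (v := o), H.dist_comm (u := z) (v := y),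
    H.dist_comm (u := z) (v := o)] at h
  rcases le_total ((H.dist o x : ℝ) + H.dist y z) ((H.dist x y : ℝ) + H.dist o z) with hle | hle
  · rw [max_eq_right hle] at h
    exact (min_le_left _ _).trans (by linarith)
  · rw [max_eq_left hle] at h
    exact (min_le_right _ _).trans (by linarith)

/-- A hyperbolic graph of bounded degree has packing. -/
theorem packing_graph (hc : H.Connected) {δ D : ℕ} (hh : GraphHyp H δ)
    (hD : ∀ x, (H.neighborSet x).Finite ∧ (H.neighborSet x).ncard ≤ D) :
    @Packing W (graphMetric hc) := by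
  classical
  let _inst := graphMetric hc
  have hyp := hyp_graph hc hh
  have hd : ∀ a b : W, dist a b = (H.dist a b : ℝ) := fun _ _ => rfl
  intro A
  set L := ⌈|A|⌉₊ + δ + 1
  set K := 2 * (L + 1 + ⌈|A|⌉₊ + 2 * δ)
  refine ⟨(D + 1) ^ K, fun o r hr s hs hpair => ?_⟩
  set R := ⌈r⌉₊
  have hq : ∀ x ∈ s, ∃ q, R ≤ H.dist o q ∧ H.dist o q ≤ R + L ∧
      gp o q x = H.dist o q ∧ (H.dist o q < R + L → q = x) := by
    intro x hx
    have hRx : R ≤ H.dist o x := Nat.ceil_le.2 (by rw [← hd]; exact hs x hx)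
    obtain ⟨q, h1, h2⟩ := QT.exists_between hc o x (i := min (R + L) (H.dist o x)) (min_le_right _ _)
    refine ⟨q, by omega, by omega, ?_, fun h => hc.dist_eq_zero_iff.1 (by omega)⟩
    have : (H.dist o q : ℝ) + H.dist q x = H.dist o x := by exact_mod_cast h2
    rw [gp, hd, hd, hd]; linarith
  choose! q hq1 hq2 hq3 hq4 using hq
  have hA := Nat.le_ceil |A|
  have hR := Nat.le_ceil r
  have hR' := (Nat.ceil_lt_add_one hr).le
  have habs := le_abs_self A
  have hclose : ∀ x ∈ s, ∀ y ∈ s, H.dist (q x) (q y) ≤ K := by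
    intro x hx y hy
    rcases eq_or_ne x y with rfl | hne
    · simp
    obtain ⟨-, hxy⟩ := hpair hx hy hne
    have h1 := abs_le.1 hxy
    have h3 := hyp o (q x) x y
    have h4 := hyp o (q x) y (q y)
    rw [gp_comm o y (q y), hq3 y hy] at h4
    rw [hq3 x hx] at h3
    have ex : (R : ℝ) ≤ H.dist o (q x) := Nat.cast_le.2 (hq1 x hx)
    have ey : (R : ℝ) ≤ H.dist o (q y) := Nat.cast_le.2 (hq1 y hy)
    have fx : (H.dist o (q x) : ℝ) ≤ ((R + L : ℕ) : ℝ) := Nat.cast_le.2 (hq2 x hx)
    have fy : (H.dist o (q y) : ℝ) ≤ ((R + L : ℕ) : ℝ) := Nat.cast_le.2 (hq2 y hy)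
    push_cast at fx fy
    have h5 : r - ⌈|A|⌉₊ - 2 * δ ≤ gp o (q x) (q y) := by
      have : (0 : ℝ) ≤ δ := Nat.cast_nonneg _
      rcases le_total (gp o (q x) y) ((H.dist o (q y) : ℝ)) with hle | hle
      · rw [min_eq_left hle] at h4
        rcases le_total (H.dist o (q x) : ℝ) (gp o x y) with hle' | hle'
        · rw [min_eq_left hle'] at h3; linarith
        · rw [min_eq_right hle'] at h3; linarith
      · rw [min_eq_right hle] at h4; linarith
    rw [gp, hd, hd, hd] at h5
    have : (H.dist (q x) (q y) : ℝ) ≤ (K : ℝ) := by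
      simp only [K]; push_cast; linarith
    exact_mod_cast this
  have hinj : Set.InjOn q (s : Set W) := by
    intro x hx y hy he
    by_contra hne
    obtain ⟨-, hxy⟩ := hpair hx hy hne
    have h1 := abs_le.1 hxy
    rcases Nat.lt_or_ge (H.dist o (q x)) (R + L) with h | h
    · exact hne ((hq4 x hx h).symm.trans (he.trans (hq4 y hy (he ▸ h))))
    · have h3 := hyp o x (q x) y
      rw [gp_comm o x (q x), hq3 x hx, he, hq3 y hy, min_self, ← he] at h3
      have h6 : ((R + L : ℕ) : ℝ) ≤ (H.dist o (q x) : ℝ) := Nat.cast_le.2 h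
      simp only [L] at h6
      push_cast at h6
      linarith
  rcases s.eq_empty_or_nonempty with rfl | ⟨x₀, hx₀⟩
  · simp
  obtain ⟨B, hB, hBm⟩ := exists_ball hc hD (q x₀) K
  rw [← card_image_of_injOn hinj]
  exact (card_le_card fun z hz => by
    obtain ⟨x, hx, rfl⟩ := mem_image.1 hz
    exact hBm _ (hclose x₀ hx₀ x hx)).trans hB

/-- Four ends in a graph are four ends for the path metric. -/
theorem fourEnds_graph (hc : H.Connected) {Γ : Type} [Group Γ] (act : Γ →* (H ≃g H)) {o : W}
    (h : SG.FourEnds H act o) :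
    @FourEnds Γ W _ (graphMetric hc)
      { toFun := fun γ => (act γ).toEquiv
        map_one' := by ext x; simp
        map_mul' := fun a b => by ext x; simp } o := by
  let _inst := graphMetric hc
  obtain ⟨g, h', K, hsp, hdiv⟩ := h
  refine ⟨g, h', K, fun n => ?_, fun a ha n k => ?_⟩
  · obtain ⟨h1, h2⟩ := hsp n
    exact ⟨(Nat.cast_le (α := ℝ)).2 h1, (Nat.cast_le (α := ℝ)).2 h2⟩
  · have h1 : (H.dist o (act (a.1 ^ n) o) : ℝ) + H.dist o (act (a.2 ^ k) o) ≤
        H.dist (act (a.1 ^ n) o) (act (a.2 ^ k) o) + K := by exact_mod_cast hdiv a ha n k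
    show ((H.dist o (act (a.1 ^ n) o) : ℝ) + H.dist o (act (a.2 ^ k) o) -
      H.dist (act (a.1 ^ n) o) (act (a.2 ^ k) o)) / 2 ≤ (K : ℝ)
    linarith [(Nat.cast_nonneg K : (0 : ℝ) ≤ K)]

end Vale.Agent.P165.HY
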