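import Vale.Agent.P165.HY.Targets

/-!
# Nested cuts between a point and a far class

The cuts are the sublevel sets of the function of `x` seen from `t₀`, with `M` thresholds in each
unit. A gate of a cut has a backward frame that avoids `t₀`; its anchor is at a bounded distance and
sees the complement of the cut outside the excluded set.
-/

namespace Vale.Agent.P165.HY.Env

open Finset Real

variable {Γ O ι V X : Type} [Group Γ] [PseudoMetricSpace X] [Fintype ι] (E : Env Γ O ι V X)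

/-- Few thresholds in a short interval. -/
theorem card_levels {b : ℝ} (hb : 0 < b) {M : ℕ} (hM : 1 ≤ M) {c S Δ : ℝ} (hc : 0 < c)
    {I : Finset ℕ} (hne : I.Nonempty)
    (h : ∀ i ∈ I, S < c * exp (b * i / M) ∧ c * exp (b * i / M) ≤ S + Δ) :
    (I.card : ℝ) ≤ 1 + M * Δ / (b * (c * exp (b * I.min' hne / M))) := by
  have hlo := h _ (I.min'_mem hne)
  have hhi := h _ (I.max'_mem hne)
  set lo := I.min' hne
  set hi := I.max' hne
  have hle : lo ≤ hi := I.min'_le _ (I.max'_mem hne)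
  have hcard : I.card ≤ hi - lo + 1 := by
    refine (card_le_card fun i hi' => (mem_Icc (a := lo) (b := hi)).2 ⟨I.min'_le i hi', I.le_max' i hi'⟩).trans ?_
    rw [Nat.card_Icc]
    omega
  have hMp : (0 : ℝ) < M := by exact_mod_cast hM
  have hpos : 0 < c * exp (b * lo / M) := by positivity
  have h1 : (b * (hi - lo : ℕ) / M) * (c * exp (b * lo / M)) ≤ Δ := by
    have e : c * exp (b * hi / M) = exp (b * (hi - lo : ℕ) / M) * (c * exp (b * lo / M)) := by
      rw [mul_left_comm, ← exp_add]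
      congr 2
      rw [Nat.cast_sub hle]
      ring
    have h3 := mul_le_mul_of_nonneg_right (add_one_le_exp (b * (hi - lo : ℕ) / M)) hpos.le
    nlinarith [hlo.1, hhi.2]
  have h2 : ((hi - lo : ℕ) : ℝ) ≤ M * Δ / (b * (c * exp (b * lo / M))) := by
    rw [le_div_iff₀ (by positivity)]
    rw [div_mul_eq_mul_div, div_le_iff₀ hMp] at h1
    linarith
  have h3 : (I.card : ℝ) ≤ ((hi - lo : ℕ) : ℝ) + 1 := by exact_mod_cast hcard
  linarith

/-- Few thresholds against an exponential weight. -/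
theorem card_pow_le {b : ℝ} (hb : 0 < b) {N M e n : ℕ} {d C Δ s : ℝ} (hs : 0 < s)
    (hn : (n : ℝ) ≤ 1 + M * Δ / (b * s)) (he : (e : ℝ) * N ≤ d) (hN : Real.log 2 ≤ b * N)
    (hΔ : Δ * exp (b * d) ≤ C * s) (hΔ0 : 0 ≤ Δ) (hM : 2 ^ e ≤ M)
    (hC : 1 + C / b ≤ N) : n * 2 ^ e ≤ N * M := by
  have h1 : (2 : ℝ) ^ e ≤ exp (b * d) := by
    rw [← Real.exp_log (two_pos : (0 : ℝ) < 2), ← Real.exp_nat_mul]
    refine exp_le_exp.2 ?_
    nlinarith [(Nat.cast_nonneg e : (0 : ℝ) ≤ e)]
  have h2 : (2 : ℝ) ^ e ≤ M := by exact_mod_cast hM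
  have h3 : M * Δ / (b * s) * (2 : ℝ) ^ e ≤ M * (C / b) := by
    rw [div_mul_eq_mul_div, div_le_iff₀ (mul_pos hb hs),
      show (M : ℝ) * (C / b) * (b * s) = M * (C * s) by field_simp, mul_assoc]
    exact mul_le_mul_of_nonneg_left ((mul_le_mul_of_nonneg_left h1 hΔ0).trans hΔ) (Nat.cast_nonneg M)
  have h4 : ((n * 2 ^ e : ℕ) : ℝ) ≤ ((N * M : ℕ) : ℝ) := by
    push_cast
    have h5 := mul_le_mul_of_nonneg_right hn (pow_nonneg (two_pos : (0 : ℝ) < 2).le e)
    have h6 := mul_le_mul_of_nonneg_left hC (Nat.cast_nonneg M : (0 : ℝ) ≤ M)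
    nlinarith
  exact_mod_cast h4

/-- The constant of one step. -/
noncomputable def stepC : ℝ := (1 + E.A) * exp (E.a * E.D)

theorem stepC_pos : 0 < E.stepC := mul_pos (by linarith [E.A_pos]) (exp_pos _)

/-- At a gate the function is within one step of the threshold. -/
theorem gate_bounds {c : X} {s : ℝ} {z : V}
    (hz : Gate E.G {w | Sfun E.a E.A E.t₀ c (E.pos w) < s} z) :
    Sfun E.a E.A E.t₀ c (E.pos z) < s ∧
      s ≤ Sfun E.a E.A E.t₀ c (E.pos z) + E.stepC * qp E.a E.t₀ (E.pos z) := by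
  obtain ⟨hz1, x', hadj, hx'⟩ := hz
  refine ⟨hz1, le_trans (not_lt.1 hx') ?_⟩
  exact Sfun_near E.a_pos.le E.A_pos.le c ((dist_comm _ _).trans_le (E.lip _ _ hadj))

/-- A point where the function is small is seen near the centre. -/
theorem qk_le_of_Sfun {c x : X} {s : ℝ} (h : Sfun E.a E.A E.t₀ c x < s) :
    qk E.a E.t₀ x c ≤ 2 * s := by
  rw [Sfun] at h
  have h1 := rho_nonneg (a := E.a) E.t₀ x c
  have h2 := E.four_le_A'
  have h3 := qp_pos (a := E.a) E.t₀ x
  exact (E.qk_le_max _ _ _).trans (max_le (by nlinarith) (by nlinarith))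

theorem qk_move_le (o x y y' : X) {D : ℝ} (h : dist y y' ≤ D) :
    qk E.a o x y ≤ exp (E.a * D) * qk E.a o x y' := by
  rw [qk, qk, ← exp_add]
  refine exp_le_exp.2 ?_
  have h1 := gp_move o x y' y
  rw [dist_comm] at h1
  nlinarith [E.a_pos]

/-- The backward frame at a vertex, avoiding `t₀`. -/
theorem back_frame (z : V) (c : X) : ∃ χ : Γ,
    Link E.G (shift E.Φ χ E.ok) E.blk z (E.Φ χ E.a₁) ∧
      dist (E.pos z) (E.act χ E.t₀) ≤ E.D * E.blk ∧
      ∀ w, Sfun E.a E.A E.t₀ c (E.pos z) < Sfun E.a E.A E.t₀ c (E.pos w) →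
        w ∈ shift E.Φ χ E.ok₁ := by
  obtain ⟨i, hi⟩ := E.avoid_at z E.t₀ E.t₀
  obtain ⟨w₀, hw₀, hs₀⟩ := E.τ_path i (E.typ z)
  set χ := E.sec z * E.τ i with hχ
  have e1 : E.Φ (E.sec z) (E.rep (E.typ z)) = z := E.sec_spec z
  have e2 : E.Φ (E.sec z) (E.Φ (E.τ i) E.a₁) = E.Φ χ E.a₁ := by rw [hχ, map_mul]; rfl
  have hlink : Link E.G (shift E.Φ χ E.ok) E.blk z (E.Φ χ E.a₁) := by
    refine ⟨(w₀.map (E.Φ (E.sec z)).toHom).copy e1 e2, ?_, fun v hv => ?_⟩
    · erw [SimpleGraph.Walk.length_copy, SimpleGraph.Walk.length_map]; exact hw₀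
    · erw [SimpleGraph.Walk.support_copy, SimpleGraph.Walk.support_map, List.mem_map] at hv
      obtain ⟨u, hu, rfl⟩ := hv
      show E.pos (E.Φ χ⁻¹ (E.Φ (E.sec z) u)) ∉ E.B E.k₀ 1
      rw [E.pos_eq, E.pos_eq, hχ, mul_inv_rev, E.act_mul, E.act_inv, mem_B_one]
      intro h
      refine hs₀ u hu ?_
      show E.k₀ < gp (E.act (E.τ i) E.t₀) (E.pos u) (E.act (E.τ i) E.b)
      rwa [E.gp_pull, E.act_inv]
  refine ⟨χ, hlink, ?_, fun w hw => ?_⟩
  · have h := E.dist_link hlink
    rwa [E.pos_eq] at h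
  · show E.pos (E.Φ χ⁻¹ w) ∉ E.B E.k₁ 1
    intro h
    rw [E.pos_eq] at h
    have hq := E.τ_maps i _ h
    set q := E.act (E.τ i) (E.act χ⁻¹ (E.pos w))
    have he : E.act (E.sec z) q = E.pos w := by
      rw [← E.act_mul, ← hχ, E.act_act_inv]
    have hu := E.kU_big
    have hup := E.unit_pos
    have hCf : E.Cf ≤ E.unit := by simp only [unit]; linarith [E.k₀_pos, E.δ_nonneg]
    have h1 : gp (E.pos z) (E.act (E.sec z) q) E.t₀ ≤ 2 * E.Cf := by
      refine (gp_base (E.pos z) (E.base z) _ _).trans ?_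
      rw [dist_comm]
      linarith [(hi q (E.U_sub i hq)).1, E.dist_base z]
    have h2 : E.kU - E.Cf ≤ dist (E.pos z) (E.act (E.sec z) q) := by
      linarith [dist_triangle (E.base z) (E.pos z) (E.act (E.sec z) q), E.dist_base_deep z hq,
        E.dist_base z]
    have hL : exp (-E.a * (E.kU - E.Cf - 2 * (2 * E.Cf))) ≤ 1 / 4 :=
      (E.exp_small (by linarith)).trans (by norm_num)
    have h3 := Sfun_cone E.a_pos.le (le_of_eq E.A_eq.symm) hL c h1 h2
    rw [he] at h3
    have h4 := mul_nonneg (div_nonneg E.A_pos.le two_pos.le) (qp_pos (a := E.a) E.t₀ (E.pos z)).le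
    linarith

/-- A point seen before `z` from the root sees an anchor near `z` like the centre. -/
theorem near_class {o P y z u' : X} {D : ℝ} (hgt : gp o y P + E.δ < gp o z P)
    (hd : dist z u' ≤ D) : |gp y u' o - (dist o y - gp o y P)| ≤ E.δ + D := by
  have i1 := E.hyp o y z P
  have i2 := E.hyp o y P z
  rw [gp_comm o P z, min_eq_left (by linarith [E.δ_nonneg])] at i2
  have i3 : gp o y z ≤ gp o y P + E.δ := by
    rcases le_total (gp o y z) (gp o z P) with hle | hle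
    · rw [min_eq_left hle] at i1; exact i1
    · rw [min_eq_right hle] at i1; linarith
  have m1 := gp_move o y u' z
  have m2 := gp_move o y z u'
  rw [dist_comm] at m1
  have e := gp_eq_sub o y u'
  rw [abs_le]
  constructor <;> linarith

/-- A natural number split of a bounded interval. -/
theorem exists_split {N : ℕ} (hN : 0 < N) (g : V → ℝ) {Y : Set V}
    (hg : ∀ y ∈ Y, 0 ≤ g y ∧ g y < N) :
    ∃ f : V → Fin N, ∀ y ∈ Y, ((f y : ℕ) : ℝ) ≤ g y ∧ g y ≤ ((f y : ℕ) : ℝ) + 1 := by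
  refine ⟨fun y => ⟨min ⌊g y⌋₊ (N - 1), by omega⟩, fun y hy => ?_⟩
  obtain ⟨g0, gN⟩ := hg y hy
  have h := (Nat.floor_lt g0).2 gN
  have e : min ⌊g y⌋₊ (N - 1) = ⌊g y⌋₊ := min_eq_left (by omega)
  simp only [e]
  exact ⟨Nat.floor_le g0, (Nat.lt_floor_add_one _).le⟩

/-- Few levels of the first unit at a gate. -/
theorem count_near {N G : ℕ} {x z : V} (hN1 : Real.log 2 ≤ E.a * N)
    (hC : 1 + E.stepC * (4 * (2 * E.A * exp E.a) ^ 2 / (2 * E.A)) / E.a ≤ N)
    (hGd : dist (E.pos x) (E.pos z) < G) {I : Finset ℕ}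
    (hI : ∀ i ∈ I, i < 2 ^ G ∧ Gate E.G {w | Sfun E.a E.A E.t₀ (E.pos x) (E.pos w) <
      2 * E.A * qp E.a E.t₀ (E.pos x) * exp (E.a * i / (2 ^ G : ℕ))} z) :
    I.card * 2 ^ (E.sph x z / N) ≤ N * 2 ^ G := by
  set A := E.A with hAdef
  have hA := E.four_le_A'
  have ha := E.a_pos
  have hsC := E.stepC_pos
  set P := E.pos x
  set o := E.t₀
  set M : ℕ := 2 ^ G
  have hMpos : (0 : ℝ) < M := by exact_mod_cast Nat.two_pow_pos G
  set c0 := 2 * A * qp E.a o P with hc0def
  have hc0 : 0 < c0 := mul_pos (by linarith) (qp_pos _ _)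
  set th : ℕ → ℝ := fun i => c0 * exp (E.a * i / M) with hth
  rcases I.eq_empty_or_nonempty with rfl | hne
  · simp
  set d := dist P (E.pos z) with hd
  have hd0 : 0 ≤ d := dist_nonneg
  have hiv : ∀ i ∈ I, Sfun E.a A o P (E.pos z) < th i ∧
      th i ≤ Sfun E.a A o P (E.pos z) + E.stepC * qp E.a o (E.pos z) := fun i hi =>
    E.gate_bounds (hI i hi).2
  have hcard := card_levels ha Nat.one_le_two_pow hc0 hne hiv
  have hlo := hI _ (I.min'_mem hne)
  set lo := I.min' hne
  have hS := E.qk_le_of_Sfun (hiv lo (I.min'_mem hne)).1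
  have hsph : E.sph x z = ⌊d⌋₊ := rfl
  have hup : th lo ≤ c0 * exp E.a := by
    refine mul_le_mul_of_nonneg_left (exp_le_exp.2 ?_) hc0.le
    rw [div_le_iff₀ hMpos]
    have : (lo : ℝ) ≤ M := Nat.cast_le.2 hlo.1.le
    nlinarith
  have hlow : c0 ≤ th lo := le_mul_of_one_le_right hc0.le
    (one_le_exp (by positivity))
  have hΔ : E.stepC * qp E.a o (E.pos z) * exp (E.a * d) ≤
      E.stepC * (4 * (2 * A * exp E.a) ^ 2 / (2 * A)) * th lo := by
    rw [mul_assoc, mul_assoc E.stepC]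
    refine mul_le_mul_of_nonneg_left ?_ hsC.le
    have e : qp E.a o (E.pos z) * exp (E.a * d) * qp E.a o P =
        qk E.a o (E.pos z) P ^ 2 := by
      rw [qp, qp, qk, ← exp_add, ← exp_add, sq, ← exp_add]
      congr 1
      rw [hd, gp, dist_comm P (E.pos z)]
      ring
    have hq := qp_pos (a := E.a) o P
    have h8 := hS.trans (mul_le_mul_of_nonneg_left hup two_pos.le)
    have h9 := pow_le_pow_left₀ (qk_pos (a := E.a) o _ _).le h8 2
    rw [← e] at h9
    refine le_of_mul_le_mul_right (h9.trans ?_) hq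
    have h10 : 4 * (2 * A * exp E.a) ^ 2 / (2 * A) * c0 * qp E.a o P =
        (2 * (c0 * exp E.a)) ^ 2 := by
      rw [hc0def]; field_simp [(show A ≠ 0 by linarith)]; ring
    rw [← h10]
    refine mul_le_mul_of_nonneg_right (mul_le_mul_of_nonneg_left hlow ?_) hq.le
    exact div_nonneg (by positivity) (by linarith)
  refine card_pow_le ha (lt_of_lt_of_le hc0 hlow) hcard ?_ hN1 hΔ
    (mul_nonneg hsC.le (qp_pos _ _).le) ?_ hC
  · rw [hsph]
    refine le_trans ?_ (Nat.floor_le hd0)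
    exact_mod_cast Nat.div_mul_le_self _ N
  · refine Nat.pow_le_pow_right two_pos ((Nat.div_le_self _ _).trans ?_)
    rw [hsph]
    exact ((Nat.floor_lt hd0).2 hGd).le


/-- Few later levels at a gate, seen from an anchor. -/
theorem count_far {N G : ℕ} {x z w : V} {i : ℕ} {u' : X} {D₁ : ℝ} (hN1 : Real.log 2 ≤ E.a * N)
    (hC : 1 + E.stepC * (4 * exp (E.a * D₁)) / E.a ≤ N) (hdist : dist (E.pos z) u' ≤ D₁)
    (hz1 : Sfun E.a E.A E.t₀ (E.pos x) (E.pos z) <
      2 * E.A * qp E.a E.t₀ (E.pos x) * exp (E.a * i / (2 ^ G : ℕ)))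
    (hGd : dist (E.pos w) u' < G) {I : Finset ℕ}
    (hI : ∀ l ∈ I, i ≤ l ∧ Gate E.G {v | Sfun E.a E.A E.t₀ (E.pos x) (E.pos v) <
      2 * E.A * qp E.a E.t₀ (E.pos x) * exp (E.a * l / (2 ^ G : ℕ))} w) :
    I.card * 2 ^ (⌊gp (E.pos w) u' E.t₀⌋₊ / N) ≤ N * 2 ^ G := by
  set A := E.A with hAdef
  have hA := E.four_le_A'
  have ha := E.a_pos
  have hsC := E.stepC_pos
  set P := E.pos x
  set o := E.t₀
  set M : ℕ := 2 ^ G
  have hMpos : (0 : ℝ) < M := by exact_mod_cast Nat.two_pow_pos G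
  set c0 := 2 * A * qp E.a o P with hc0def
  have hc0 : 0 < c0 := mul_pos (by linarith) (qp_pos _ _)
  set th : ℕ → ℝ := fun i => c0 * exp (E.a * i / M) with hth
  have th_mono : Monotone th := fun i j h => by
    refine mul_le_mul_of_nonneg_left (exp_le_exp.2 ?_) hc0.le
    gcongr
  rcases I.eq_empty_or_nonempty with rfl | hne
  · simp
  set d := gp (E.pos w) u' o with hd
  have hd0 : 0 ≤ d := gp_nonneg _ _ _
  have hiv : ∀ l ∈ I, Sfun E.a A o P (E.pos w) < th l ∧
      th l ≤ Sfun E.a A o P (E.pos w) + E.stepC * qp E.a o (E.pos w) := fun l hl =>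
    E.gate_bounds (hI l hl).2
  have hcard := card_levels ha Nat.one_le_two_pow hc0 hne hiv
  have hlo := hI _ (I.min'_mem hne)
  have hlo' := hiv _ (I.min'_mem hne)
  set lo := I.min' hne
  have hlop : 0 < th lo := mul_pos hc0 (exp_pos _)
  have hzlo : Sfun E.a A o P (E.pos z) < th lo := lt_of_lt_of_le hz1 (th_mono hlo.1)
  have hΔ : E.stepC * qp E.a o (E.pos w) * exp (E.a * d) ≤
      E.stepC * (4 * exp (E.a * D₁)) * th lo := by
    rw [mul_assoc, mul_assoc E.stepC]
    refine mul_le_mul_of_nonneg_left ?_ hsC.le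
    have e : qp E.a o (E.pos w) * exp (E.a * d) = qk E.a o (E.pos w) u' := by
      rw [qp, qk, ← exp_add, gp_eq_sub o (E.pos w) u']
      congr 1
      ring
    rw [e]
    refine (E.qk_move_le o _ u' (E.pos z) (D := D₁) (by rwa [dist_comm])).trans ?_
    rw [mul_comm (4 : ℝ), mul_assoc]
    refine mul_le_mul_of_nonneg_left ((E.qk_le_max _ _ _).trans ?_) (exp_pos _).le
    have s1 := hlo'.1
    rw [Sfun] at s1 hzlo
    have r0 := rho_triangle (a := E.a) o (E.pos w) P (E.pos z)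
    rw [rho_comm o P (E.pos z)] at r0
    have r1 := rho_nonneg (a := E.a) o (E.pos w) P
    have q1 := qp_pos (a := E.a) o (E.pos w)
    have q2 := qp_pos (a := E.a) o (E.pos z)
    refine max_le ?_ ?_ <;> nlinarith
  refine card_pow_le ha hlop hcard ?_ hN1 hΔ (mul_nonneg hsC.le (qp_pos _ _).le) ?_ hC
  · refine le_trans ?_ (Nat.floor_le hd0)
    exact_mod_cast Nat.div_mul_le_self _ N
  · refine Nat.pow_le_pow_right two_pos ((Nat.div_le_self _ _).trans ?_)
    exact ((Nat.floor_lt hd0).2 ((gp_le_dist (E.pos w) u' o).trans_lt hGd)).le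


theorem rowsOK : E.RowsOK := by
  classical
  set A := E.A with hAdef
  set D₁ := E.D * E.blk with hD₁
  have hA := E.four_le_A'
  have ha := E.a_pos
  have hsC := E.stepC_pos
  have hD₁0 : 0 ≤ D₁ := mul_nonneg E.D_nonneg (Nat.cast_nonneg _)
  set B := 1 + Real.log 2 / E.a + (Real.log (4 * A) / E.a + E.δ + 1) +
    (1 + E.stepC * (4 * (2 * A * exp E.a) ^ 2 / (2 * A)) / E.a) +
    (1 + E.stepC * (4 * exp (E.a * D₁)) / E.a) + (2 * (E.δ + D₁) + 3)
  refine ⟨⌈B⌉₊, fun N hN x u v K hu => ?_⟩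
  have hBN : B ≤ (N : ℝ) := (Nat.le_ceil B).trans (Nat.cast_le.2 hN)
  have t1 : 0 ≤ Real.log 2 / E.a := div_nonneg (Real.log_nonneg one_le_two) ha.le
  have t2 : 0 ≤ Real.log (4 * A) / E.a := div_nonneg (Real.log_nonneg (by linarith)) ha.le
  have t3 : 0 ≤ E.stepC * (4 * (2 * A * exp E.a) ^ 2 / (2 * A)) / E.a :=
    div_nonneg (mul_nonneg hsC.le (div_nonneg (by positivity) (by linarith))) ha.le
  have t4 : 0 ≤ E.stepC * (4 * exp (E.a * D₁)) / E.a := by positivity
  have t5 := E.δ_nonneg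
  have hN1 : Real.log 2 ≤ E.a * N := by
    have : Real.log 2 / E.a ≤ N := by simp only [B] at hBN; linarith
    rw [div_le_iff₀ ha] at this
    linarith
  have hN2 : Real.log (4 * A) / E.a + E.δ + 1 ≤ N := by simp only [B] at hBN; linarith
  have hN2a : Real.log (4 * A) ≤ E.a * N := by
    have : Real.log (4 * A) / E.a ≤ N := by linarith
    rw [div_le_iff₀ ha] at this
    linarith
  set P := E.pos x
  set o := E.t₀
  set G : ℕ := ⌈2 * (E.D * K) + D₁⌉₊ + 1
  set M : ℕ := 2 ^ G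
  have hGd : ∀ d : ℝ, d ≤ 2 * (E.D * K) + D₁ → d < G := fun d hd => by
    have := Nat.le_ceil (2 * (E.D * K) + D₁)
    simp only [G]
    push_cast
    linarith
  have hMpos : (0 : ℝ) < M := by exact_mod_cast Nat.two_pow_pos G
  set c0 := 2 * A * qp E.a o P with hc0def
  have hc0 : 0 < c0 := mul_pos (by linarith) (qp_pos _ _)
  set th : ℕ → ℝ := fun i => c0 * exp (E.a * i / M) with hth
  have th_mono : Monotone th := fun i j h => by
    refine mul_le_mul_of_nonneg_left (exp_le_exp.2 ?_) hc0.le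
    gcongr
  set cut : ℕ → Set V := fun i => {w | Sfun E.a A o P (E.pos w) < th i} with hcut
  have hth_top : ∀ i : ℕ, i ≤ (u - N) * M → th i ≤ c0 * exp (E.a * ((u : ℝ) - N)) := fun i hi => by
    refine mul_le_mul_of_nonneg_left (exp_le_exp.2 ?_) hc0.le
    rw [div_le_iff₀ hMpos]
    have hc : (i : ℝ) ≤ ((u - N : ℕ) : ℝ) * M := by exact_mod_cast hi
    rw [Nat.cast_sub hu.le] at hc
    nlinarith
  have key : ∀ {y : V}, E.kap x y = (u, v) →
      gp o (E.pos y) P ≤ dist o P - u ∧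
        ((v : ℝ) ≤ dist o (E.pos y) - gp o (E.pos y) P ∧
          dist o (E.pos y) - gp o (E.pos y) P ≤ v + 1) := by
    intro y hy
    simp only [kap, Prod.mk.injEq] at hy
    obtain ⟨h1, h2⟩ := hy
    have g0 := gp_nonneg P (E.pos y) o
    have g0' := gp_nonneg (E.pos y) P o
    have e1 : gp o (E.pos y) P = dist o P - gp P (E.pos y) o := by
      rw [gp_comm o (E.pos y) P]; exact gp_eq_sub o P (E.pos y)
    have e2 : gp o (E.pos y) P = dist o (E.pos y) - gp (E.pos y) P o := gp_eq_sub o (E.pos y) P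
    have a1 := Nat.floor_le g0
    have a2 := Nat.floor_le g0'
    have a3 := Nat.lt_floor_add_one (gp (E.pos y) P o)
    rw [h1] at a1
    rw [h2] at a2 a3
    exact ⟨by linarith, by linarith, by linarith⟩
  refine ⟨M, cut, Nat.one_le_two_pow, fun i j h w hw => lt_of_lt_of_le hw (th_mono h), ?_, ?_, ?_, ?_⟩
  · show Sfun E.a A o P P < th 0
    have e0 : th 0 = c0 := by simp [hth]
    rw [e0, Sfun, rho_self, hc0def]
    nlinarith [qp_pos (a := E.a) o P]
  · intro y i hy hi hmem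
    change Sfun E.a A o P (E.pos y) < th i at hmem
    have h3 := E.qk_le_of_Sfun hmem
    obtain ⟨h4, -, -⟩ := key hy
    have h6 := (h3.trans (mul_le_mul_of_nonneg_left (hth_top i hi) two_pos.le))
    rw [hc0def, qk, qp, show 2 * (2 * A * exp (-E.a * dist o P) * exp (E.a * ((u : ℝ) - N))) =
        4 * A * exp (-E.a * dist o P + E.a * ((u : ℝ) - N)) by rw [exp_add]; ring,
      ← Real.exp_log (show 0 < 4 * A by linarith), ← exp_add, exp_le_exp] at h6
    have h7 : Real.log (4 * A) < E.a * N := by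
      have : Real.log (4 * A) / E.a < N := by linarith
      rw [div_lt_iff₀ ha] at this
      linarith
    nlinarith
  · intro z hlz I hI
    refine E.count_near (G := G) hN1 (by simp only [B] at hBN; linarith) ?_ hI
    have h := E.dist_link hlz
    have h' : 0 ≤ E.D * K := mul_nonneg E.D_nonneg (Nat.cast_nonneg _)
    exact hGd _ (by linarith)
  · intro i z hi hlz hz
    obtain ⟨hz1, -⟩ := E.gate_bounds hz
    obtain ⟨χ, hlink, hdist, hout⟩ := E.back_frame z P
    set u' := E.act χ o with hu'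
    refine ⟨χ, fun w => ⌊gp (E.pos w) u' o⌋₊, hlink, fun w hw =>
      hout w (lt_of_lt_of_le hz1 (not_lt.1 hw)), fun k => ⟨?_, o, (k : ℝ), ?_⟩, ?_, ?_⟩
    · rintro w ⟨hw, -, -⟩
      exact hout w (lt_of_lt_of_le hz1 (not_lt.1 hw))
    · rintro w ⟨-, hk, -⟩
      have g0 := gp_nonneg (E.pos w) u' o
      have a1 := Nat.floor_le g0
      have a2 := Nat.lt_floor_add_one (gp (E.pos w) u' o)
      change ⌊gp (E.pos w) u' o⌋₊ = k at hk
      rw [hk] at a1 a2
      rw [abs_le]
      constructor <;> linarith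
    · intro w hlw I hI
      refine E.count_far (G := G) (i := i) (z := z) hN1 (by simp only [B] at hBN; linarith) hdist hz1
        (hGd _ ?_) fun l hl => ⟨(hI l hl).1, (hI l hl).2.2⟩
      have h1 : dist (E.pos x) (E.pos w) ≤ E.D * K := E.dist_link hlw
      have h2 : dist (E.pos x) (E.pos z) ≤ E.D * K := E.dist_link hlz
      have h4 := dist_triangle4 (E.pos w) (E.pos x) (E.pos z) u'
      rw [dist_comm (E.pos w) (E.pos x)] at h4
      linarith
    · intro Y hY
      have hC : ∀ y ∈ Y, (v : ℝ) - E.δ - D₁ ≤ gp (E.pos y) u' o ∧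
          gp (E.pos y) u' o ≤ v + 1 + E.δ + D₁ := by
        intro y hy
        obtain ⟨hk, -⟩ := hY y hy
        obtain ⟨h1, h2, h3⟩ := key hk
        have hzq := (E.qk_le_of_Sfun hz1).trans
          (mul_le_mul_of_nonneg_left (hth_top i hi) two_pos.le)
        rw [hc0def, qk, qp, show 2 * (2 * A * exp (-E.a * dist o P) * exp (E.a * ((u : ℝ) - N))) =
            4 * A * exp (-E.a * dist o P + E.a * ((u : ℝ) - N)) by rw [exp_add]; ring,
          ← Real.exp_log (show 0 < 4 * A by linarith), ← exp_add, exp_le_exp] at hzq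
        have h4 : dist o P - u + N - Real.log (4 * A) / E.a ≤ gp o (E.pos z) P := by
          have h : E.a * (Real.log (4 * A) / E.a) = Real.log (4 * A) := mul_div_cancel₀ _ ha.ne'
          nlinarith
        obtain ⟨c1, c2⟩ := abs_le.1 (E.near_class (o := o) (P := P) (y := E.pos y)
          (show gp o (E.pos y) P + E.δ < gp o (E.pos z) P by linarith) hdist)
        constructor <;> linarith
      have hN0 : 0 < N := by
        have : (0 : ℝ) < N := by linarith
        exact_mod_cast this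
      obtain ⟨f, hf⟩ := exists_split hN0 (fun y => gp (E.pos y) u' o - ((v : ℝ) - E.δ - D₁))
        (Y := Y) fun y hy => by
          obtain ⟨c1, c2⟩ := hC y hy
          simp only [B] at hBN
          constructor <;> linarith
      refine ⟨f, fun k => ⟨?_, o, ((v : ℝ) - E.δ - D₁) + (k : ℕ), ?_⟩⟩
      · rintro y ⟨hy, -⟩
        exact hout y (lt_of_lt_of_le hz1 (not_lt.1 (hY y hy).2))
      · rintro y ⟨hy, hk⟩
        obtain ⟨c1, c2⟩ := hf y hy
        rw [hk] at c1 c2
        change |gp (E.pos y) u' o - ((v : ℝ) - E.δ - D₁ + (k : ℕ))| ≤ 1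
        rw [abs_le]
        constructor <;> linarith

end Vale.Agent.P165.HY.Env
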