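import Vale.Agent.P165.HY.Basic
import Vale.Agent.P165.TR.LastExit

/-!
# The shells and the closing

A connection to a point of one class avoids a cut at a random level or leaves it for the last time at
a gate, and the rest is a tail seen from an anchor at that gate. The `2 ^ m` families of cuts are
separated, so every point is outside all but one of them. Hence the largest shell is a fixed power of
the tail, and everything is a small power of the length.
-/

namespace Vale.Agent.P165.HY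

open Finset

/-- A geometric series with linear weights. -/
theorem sum_succ_half_pow (B : ℕ) :
    ∑ q ∈ range B, ((q : ℝ) + 1) * (1 / 2) ^ q = 4 - (2 * (B : ℝ) + 4) * (1 / 2) ^ B := by
  induction B with
  | zero => simp
  | succ B ih =>
    rw [sum_range_succ, ih, pow_succ]
    push_cast
    ring

/-- The classes seen through a cut: linearly many cost one, the others decay. -/
theorem sum_class_weight {N : ℕ} (hN : 1 ≤ N) (m : ℕ) (A : Finset ℕ) :
    ∑ k ∈ A, ((k : ℝ) + m + 1) * (1 / 2 : ℝ) ^ ((k - N * (m + 1)) / N) ≤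
      10 * (N : ℝ) ^ 2 * ((m : ℝ) + 1) ^ 2 := by
  set n₀ := N * (m + 1) with hn₀
  set B := A.sup id + 1
  set f : ℕ → ℝ := fun k => ((k : ℝ) + m + 1) * (1 / 2 : ℝ) ^ ((k - n₀) / N)
  have hf : ∀ k, 0 ≤ f k := fun k => by positivity
  have hN0 : (1 : ℝ) ≤ N := Nat.one_le_cast.2 hN
  set μ : ℝ := (N : ℝ) * ((m : ℝ) + 1) with hμ
  have hμc : (n₀ : ℝ) = μ := by rw [hn₀, hμ]; push_cast; ring
  have hm0 : (0 : ℝ) ≤ m := Nat.cast_nonneg m
  have hμm : (m : ℝ) + 1 ≤ μ := le_mul_of_one_le_left (by positivity) hN0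
  calc ∑ k ∈ A, f k
      ≤ ∑ k ∈ range n₀ ∪ (range B ×ˢ range N).image (fun q => n₀ + (q.1 * N + q.2)), f k := by
        refine sum_le_sum_of_subset_of_nonneg (fun k hk => ?_) fun k _ _ => hf k
        rcases lt_or_ge k n₀ with h | h
        · exact mem_union_left _ (mem_range.2 h)
        · have hkB : k ≤ A.sup id := le_sup (f := id) hk
          have hdiv := Nat.div_add_mod (k - n₀) N
          have hmod := Nat.mod_lt (k - n₀) (show 0 < N by omega)
          have hle := Nat.div_le_self (k - n₀) N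
          refine mem_union_right _ (mem_image.2 ⟨((k - n₀) / N, (k - n₀) % N),
            mem_product.2 ⟨mem_range.2 (by omega), mem_range.2 hmod⟩, ?_⟩)
          show n₀ + ((k - n₀) / N * N + (k - n₀) % N) = k
          rw [mul_comm]
          omega
    _ ≤ ∑ k ∈ range n₀, f k + ∑ q ∈ range B ×ˢ range N,
          (2 * μ + N * ((q.1 : ℝ) + 1)) * (1 / 2 : ℝ) ^ q.1 := by
        refine (le_of_le_of_eq (le_add_of_nonneg_right (sum_nonneg fun k _ => hf k))
          (sum_union_inter (s₁ := range n₀))).trans ?_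
        refine add_le_add le_rfl ((sum_image_le_of_nonneg fun q _ => hf _).trans
          (sum_le_sum fun q hq => ?_))
        have hq2 := mem_range.1 (mem_product.1 hq).2
        simp only [f]
        rw [Nat.add_sub_cancel_left, show (q.1 * N + q.2) / N = q.1 by
          rw [mul_comm, Nat.mul_add_div (show N > 0 by omega), Nat.div_eq_of_lt hq2, add_zero]]
        refine mul_le_mul_of_nonneg_right ?_ (by positivity)
        have h2 : (q.2 : ℝ) ≤ N := Nat.cast_le.2 hq2.le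
        push_cast
        rw [hμc]
        linarith
    _ ≤ μ * (2 * μ) + (2 * μ * (2 * N) + (N : ℝ) * (4 * N)) := by
        refine add_le_add ?_ ?_
        · refine (sum_le_card_nsmul _ _ (2 * μ) fun k hk => ?_).trans (le_of_eq (by
            rw [card_range, nsmul_eq_mul, hμc]))
          have h1 : k ≤ n₀ := (mem_range.1 hk).le
          simp only [f]
          rw [Nat.sub_eq_zero_of_le h1, Nat.zero_div, pow_zero, mul_one]
          have h2 : (k : ℝ) ≤ μ := hμc ▸ Nat.cast_le.2 h1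
          linarith
        · rw [sum_product]
          simp only [sum_const, card_range, nsmul_eq_mul]
          rw [show (∑ q ∈ range B, (N : ℝ) * ((2 * μ + N * ((q : ℝ) + 1)) * (1 / 2 : ℝ) ^ q)) =
            2 * μ * N * ∑ q ∈ range B, (1 / 2 : ℝ) ^ q +
              N * N * ∑ q ∈ range B, ((q : ℝ) + 1) * (1 / 2 : ℝ) ^ q by
            rw [mul_sum, mul_sum, ← sum_add_distrib]
            exact sum_congr rfl fun q _ => by ring]
          refine add_le_add ?_ ?_
          · refine (mul_le_mul_of_nonneg_left (sum_geometric_two_le B) (by positivity)).trans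
              (le_of_eq (by ring))
          · rw [sum_succ_half_pow]
            refine (mul_le_mul_of_nonneg_left (sub_le_self 4 (by positivity))
              (by positivity)).trans (le_of_eq (by ring))
    _ ≤ _ := by
        have h1 : (N : ℝ) ≤ μ := le_mul_of_one_le_right (by positivity) (by linarith)
        have h2 : μ ^ 2 = (N : ℝ) ^ 2 * ((m : ℝ) + 1) ^ 2 := by rw [hμ]; ring
        nlinarith

namespace Core

open FF
open Vale.Agent.P165.FQ
open Vale.Agent.P165.TR (tauW_last_exit)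

variable {Γ O ι V : Type} [Group Γ] [Fintype ι] (E : Core Γ V O ι) [DecidableEq V] [Fintype O]
  {p : ℝ}

open Classical in
/-- A family of thin classes seen from an anchor. -/
theorem tail_family {K : ℕ} {T : ℝ} (hT : E.TailLe p K T) {ψ : Γ} {ℓ : ℕ} {z : V}
    (hz : Link E.G (shift E.Φ ψ E.ok) ℓ z (E.Φ ψ E.a₁)) {n : ℕ} (f : V → Fin n) (S Y : Finset V)
    (hS : ∀ v ∈ S, v ∈ shift E.Φ ψ E.ok)
    (hY : ∀ k, E.Thin ψ {y ∈ (Y : Set V) | f y = k}) :
    p ^ ℓ * ∑ y ∈ Y, tauW E.nb S p z y K ≤ (n : ℝ) * T := by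
  rw [← sum_fiberwise Y f, mul_sum]
  refine (sum_le_card_nsmul _ _ T fun k _ => ?_).trans (le_of_eq (by
    rw [card_univ, Fintype.card_fin, nsmul_eq_mul]))
  refine hT ψ ℓ z hz S _ hS (E.thin_mono (fun y hy => ?_) (hY k))
  exact ⟨mem_coe.2 (mem_filter.1 (mem_coe.1 hy)).1, (mem_filter.1 (mem_coe.1 hy)).2⟩

/-- The largest shell is a fixed power of the tail. -/
theorem ownBound (hp : 0 < p) (hp1 : p ≤ 1) : E.OwnBound p := by
  classical
  have h0 := hp.le
  set c : ℕ := 4 * E.N ^ 2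
  set q : ℝ := (p ^ E.blk)⁻¹
  have hq0 : 0 ≤ q := inv_nonneg.2 (pow_nonneg h0 _)
  obtain ⟨a, ha⟩ := pow_unbounded_of_one_lt p⁻¹ (one_lt_two (α := ℝ))
  set s := a * E.blk
  set C₂ : ℝ := 4 * (36 * (c : ℝ) ^ 2 * q + 1)
  refine ⟨12 * (c : ℝ) * 2 ^ s * C₂ ^ (3 * s + 1), 3 * s + 2, by positivity, fun K T hT1 hT => ?_⟩
  have hT0 : 0 ≤ T := zero_le_one.trans hT1
  set R : ℝ := 36 * (c : ℝ) ^ 2 * q * T + 1
  have hR : 1 ≤ R := le_add_of_nonneg_left (by positivity)
  set n := Nat.log 2 ⌈R⌉₊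
  set j := n + 1
  have hjR : R ≤ (2 : ℝ) ^ j := by
    have h1 : ⌈R⌉₊ < 2 ^ (n + 1) := Nat.lt_pow_succ_log_self one_lt_two _
    have h2 : (⌈R⌉₊ : ℝ) ≤ ((2 ^ (n + 1) : ℕ) : ℝ) := Nat.cast_le.2 h1.le
    push_cast at h2
    exact (Nat.le_ceil R).trans h2
  have hj2 : (2 : ℝ) ^ j ≤ C₂ * T := by
    have h1 : 2 ^ n ≤ ⌈R⌉₊ := Nat.pow_log_le_self 2
      (Nat.pos_iff_ne_zero.1 (Nat.ceil_pos.2 (by linarith)))
    have h2 : ((2 ^ n : ℕ) : ℝ) ≤ (⌈R⌉₊ : ℝ) := Nat.cast_le.2 h1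
    push_cast at h2
    have h3 : (2 : ℝ) ^ n ≤ 2 * R := by linarith [Nat.ceil_lt_add_one (zero_le_one.trans hR)]
    calc (2 : ℝ) ^ j = 2 ^ n * 2 := pow_succ _ _
      _ ≤ 2 * R * 2 := mul_le_mul_of_nonneg_right h3 (by norm_num)
      _ ≤ C₂ * T := by simp only [R, C₂]; nlinarith
  set m := 3 * j
  set ℓ := E.blk * (m + 1)
  have hm1 : ((m : ℝ) + 1) ≤ 3 * 2 ^ j := by
    have h1 : j + 1 ≤ 2 ^ j := Nat.lt_two_pow_self
    have h2 : ((j + 1 : ℕ) : ℝ) ≤ ((2 ^ j : ℕ) : ℝ) := Nat.cast_le.2 h1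
    push_cast [m] at h2 ⊢
    linarith
  set cm : ℝ := (c : ℝ) * ((m : ℝ) + 1) with hcm
  have hcm0 : 0 ≤ cm := by positivity
  obtain ⟨⟨o, i⟩, -, hmax⟩ := exists_mem_eq_sup'
    (s := (univ : Finset O) ×ˢ range (E.N * (K + 1) + 1)) ⟨(E.typ E.a₁, 0), by simp⟩
    fun q => E.shell p K q.1 q.2
  change E.own p K = E.shell p K o i at hmax
  have hown := E.own_nonneg h0 hp1 K
  set x := E.rep o
  set S := E.ball x K
  set F := S.filter fun y => E.sph x y = i with hFdef
  have hS : ∀ z ∈ S, Link E.G Set.univ K x z := fun z hz =>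
    let ⟨w, hw⟩ := E.mem_ball.1 hz
    ⟨w, hw, fun _ _ => Set.mem_univ _⟩
  obtain ⟨P, M, cut, big, hPc, hM, hPd, hP, hcount, hgate, hout⟩ := E.cuts o m K
  have hM0 : (0 : ℝ) < M := Nat.cast_pos.2 hM
  set τg : Γ → ℕ → ℝ := fun ψ j => ∑ z ∈ S.filter (Gate E.G (cut ψ j)),
    E.tau p K x z * ((E.N : ℝ) * ((E.sph x z : ℝ) + m + 1)) with hτg
  have hstep : ∀ ψ ∈ P, ∀ j, ∑ y ∈ F.filter (fun y => y ∉ big ψ), E.tau p K x y ≤
      cm * T * (p ^ ℓ)⁻¹ + T * q * τg ψ j := by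
    intro ψ hψ j
    obtain ⟨hlink, -, hcutψ⟩ := hP ψ hψ
    obtain ⟨hsub, hcok⟩ := hcutψ j
    set S₀ := S.filter fun v => v ∉ cut ψ j
    set F' := F.filter fun y => y ∉ big ψ
    have hF' : ∀ y ∈ F', E.sph x y = i ∧ y ∉ cut ψ j := fun y hy =>
      ⟨(mem_filter.1 (mem_filter.1 hy).1).2, fun h => (mem_filter.1 hy).2 (hsub h)⟩
    have hsplit : ∀ y ∈ F', E.tau p K x y ≤ tauW E.nb S₀ p x y K
        + ∑ z ∈ S.filter (Gate E.G (cut ψ j)), E.tau p K x z * tauW E.nb (insert z S₀) p z y K :=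
      fun y hy => tauW_last_exit E.hl S (cut ψ j) _ (fun z => insert z S₀) h0 hp1
        (hF' y hy).2 (fun u z hadj hu hz hzS => mem_filter.2 ⟨hzS, hz, u, hadj, hu⟩)
        (fun z _ => ⟨mem_insert_self _ _, fun v hv hv' =>
          mem_insert_of_mem (mem_filter.2 ⟨hv, hv'⟩)⟩) K
    refine (sum_le_sum hsplit).trans ?_
    rw [sum_add_distrib, sum_comm, hτg, mul_sum]
    refine add_le_add ?_ (sum_le_sum fun z hz => ?_)
    · obtain ⟨f, hf⟩ := hout ψ hψ i (F' : Set V) fun y hy =>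
        ⟨(hF' y (mem_coe.1 hy)).1, hcok y (hF' y (mem_coe.1 hy)).2⟩
      rw [← div_eq_mul_inv, le_div_iff₀' (pow_pos hp _)]
      refine (E.tail_family hT hlink f S₀ F' (fun v hv => E.ok₁_sub (hcok v (mem_filter.1 hv).2))
        hf).trans (mul_le_mul_of_nonneg_right ?_ hT0)
      rw [hcm]
      push_cast [c]
      have hN : (1 : ℝ) ≤ E.N := Nat.one_le_cast.2 E.one_le_N
      refine mul_le_mul_of_nonneg_right ?_ (by positivity)
      nlinarith
    · obtain ⟨hzS, hg⟩ := mem_filter.1 hz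
      obtain ⟨χ, hjz, hχ, hsplit'⟩ := hgate ψ hψ j z hg
      obtain ⟨f, hf⟩ := hsplit' i (F' : Set V) fun y hy => hF' y (mem_coe.1 hy)
      rw [← mul_sum]
      refine le_of_le_of_eq (b := E.tau p K x z *
        (((E.N : ℝ) * ((E.sph x z : ℝ) + m + 1)) * T * q)) ?_ (by ring)
      refine mul_le_mul_of_nonneg_left ?_ (E.tau_nonneg h0 hp1 K x z)
      simp only [q]
      rw [← div_eq_mul_inv, le_div_iff₀' (pow_pos hp _)]
      refine (E.tail_family hT hjz f (insert z S₀) F' (fun v hv => ?_) hf).trans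
        (le_of_eq (by push_cast; ring))
      rcases mem_insert.1 hv with rfl | hv
      · obtain ⟨w, -, hs⟩ := hjz
        exact hs _ w.start_mem_support
      · exact E.ok₁_sub (hχ v (mem_filter.1 hv).2)
  -- a point is in at most one family
  have hone : ∀ y, (P.filter fun ψ => y ∈ big ψ).card ≤ 1 := fun y =>
    card_le_one.2 fun ψ hψ ψ' hψ' => by
      by_contra hne
      exact Set.disjoint_left.1 (hPd (mem_filter.1 hψ).1 (mem_filter.1 hψ').1 hne)
        (mem_filter.1 hψ).2 (mem_filter.1 hψ').2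
  have hlow : ((2 : ℝ) ^ m - 1) * E.own p K ≤
      ∑ ψ ∈ P, ∑ y ∈ F.filter (fun y => y ∉ big ψ), E.tau p K x y := by
    rw [sum_comm' (t' := F) (s' := fun y => P.filter fun ψ => y ∉ big ψ)
      (fun ψ y => by simp only [mem_filter]; tauto), hmax, shell, mul_sum, ← hFdef]
    refine sum_le_sum fun y _ => ?_
    rw [sum_const, nsmul_eq_mul]
    refine mul_le_mul_of_nonneg_right ?_ (E.tau_nonneg h0 hp1 K x y)
    have h2 := card_filter_add_card_filter_not (s := P) fun ψ => y ∈ big ψ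
    rw [hPc] at h2
    have h3 := hone y
    have h4 : ((2 ^ m : ℕ) : ℝ) ≤ (((P.filter fun ψ => ¬ y ∈ big ψ).card + 1 : ℕ) : ℝ) :=
      Nat.cast_le.2 (by omega)
    push_cast at h4
    linarith
  -- the gates of all families and all levels
  set cnt : Γ → V → ℕ := fun ψ z => ((range M).filter fun j => Gate E.G (cut ψ j) z).card
  set g : V → ℕ := fun z => E.sph x z
  have hgates : ∑ ψ ∈ P, ∑ j ∈ range M, τg ψ j ≤ (M : ℝ) * (cm * cm * E.own p K) := by
    have hcz : ∀ z ∈ S, (∑ ψ ∈ P, cnt ψ z) * 2 ^ ((g z - E.N * (m + 1)) / E.N) ≤ E.N * M := by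
      intro z hz
      by_cases hex : ∃ ψ₀ ∈ P, cnt ψ₀ z ≠ 0
      · obtain ⟨ψ₀, hψ₀, hne⟩ := hex
        rw [sum_eq_single_of_mem ψ₀ hψ₀ fun ψ hψ hψne => ?_]
        · exact hcount z (hS z hz) ψ₀ hψ₀ _ (filter_subset _ _) fun j hj => (mem_filter.1 hj).2
        · by_contra hne'
          obtain ⟨j, hj⟩ := card_pos.1 (Nat.pos_of_ne_zero hne)
          obtain ⟨j', hj'⟩ := card_pos.1 (Nat.pos_of_ne_zero hne')
          exact Set.disjoint_left.1 (hPd hψ₀ hψ hψne.symm)
            (((hP ψ₀ hψ₀).2.2 j).1 (mem_filter.1 hj).2.1)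
            (((hP ψ hψ).2.2 j').1 (mem_filter.1 hj').2.1)
      · push Not at hex
        rw [sum_eq_zero hex, zero_mul]
        exact Nat.zero_le _
    calc ∑ ψ ∈ P, ∑ j ∈ range M, τg ψ j
        = ∑ z ∈ S, ((∑ ψ ∈ P, cnt ψ z : ℕ) : ℝ) *
            (E.tau p K x z * ((E.N : ℝ) * ((g z : ℝ) + m + 1))) := by
          simp only [hτg, sum_filter]
          rw [sum_congr rfl fun ψ _ => sum_comm, sum_comm]
          refine sum_congr rfl fun z _ => ?_
          rw [Nat.cast_sum, sum_mul]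
          refine sum_congr rfl fun ψ _ => ?_
          rw [← sum_filter, sum_const, nsmul_eq_mul]
      _ ≤ ∑ z ∈ S, (E.N : ℝ) * M * (1 / 2 : ℝ) ^ ((g z - E.N * (m + 1)) / E.N) *
            (E.tau p K x z * ((E.N : ℝ) * ((g z : ℝ) + m + 1))) := by
          refine sum_le_sum fun z hz => mul_le_mul_of_nonneg_right ?_
            (mul_nonneg (E.tau_nonneg h0 hp1 K x z) (by positivity))
          rw [one_div_pow, mul_one_div, le_div_iff₀ (by positivity)]
          exact_mod_cast hcz z hz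
      _ = (E.N : ℝ) ^ 2 * M * ∑ k ∈ S.image g, ((k : ℝ) + m + 1) *
            (1 / 2 : ℝ) ^ ((k - E.N * (m + 1)) / E.N) *
              ∑ z ∈ S.filter (fun z => g z = k), E.tau p K x z := by
          rw [← sum_fiberwise_of_maps_to (t := S.image g) fun z hz => mem_image_of_mem g hz,
            mul_sum]
          refine sum_congr rfl fun k _ => ?_
          rw [mul_sum, mul_sum]
          refine sum_congr rfl fun z hz => ?_
          rw [(mem_filter.1 hz).2]
          ring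
      _ ≤ (E.N : ℝ) ^ 2 * M * ∑ k ∈ S.image g, ((k : ℝ) + m + 1) *
            (1 / 2 : ℝ) ^ ((k - E.N * (m + 1)) / E.N) * E.own p K := by
          refine mul_le_mul_of_nonneg_left (sum_le_sum fun k _ => mul_le_mul_of_nonneg_left
            (E.sum_shell_le h0 hp1 K x _ k fun z hz => (mem_filter.1 hz).2) (by positivity))
            (by positivity)
      _ ≤ _ := by
          rw [← sum_mul]
          refine (mul_le_mul_of_nonneg_left (mul_le_mul_of_nonneg_right
            (sum_class_weight E.one_le_N m _) hown) (by positivity)).trans ?_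
          rw [hcm]
          push_cast [c]
          have : (0 : ℝ) ≤ (M : ℝ) * (E.N : ℝ) ^ 4 * ((m : ℝ) + 1) ^ 2 * E.own p K := by positivity
          linarith
  have htot : ((2 : ℝ) ^ m - 1) * E.own p K ≤
      (2 : ℝ) ^ m * (cm * T * (p ^ ℓ)⁻¹) + cm * T * q * cm * E.own p K := by
    refine le_of_mul_le_mul_left ?_ hM0
    calc (M : ℝ) * (((2 : ℝ) ^ m - 1) * E.own p K)
        ≤ ∑ _j ∈ range M, ∑ ψ ∈ P, ∑ y ∈ F.filter (fun y => y ∉ big ψ), E.tau p K x y := by
          rw [sum_const, card_range, nsmul_eq_mul]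
          exact mul_le_mul_of_nonneg_left hlow hM0.le
      _ ≤ ∑ j ∈ range M, ∑ ψ ∈ P, (cm * T * (p ^ ℓ)⁻¹ + T * q * τg ψ j) :=
          sum_le_sum fun j _ => sum_le_sum fun ψ hψ => hstep ψ hψ j
      _ = (M : ℝ) * (2 ^ m * (cm * T * (p ^ ℓ)⁻¹)) +
            T * q * ∑ ψ ∈ P, ∑ j ∈ range M, τg ψ j := by
          rw [sum_comm (s := P) (f := fun ψ j => τg ψ j), mul_sum]
          simp only [sum_add_distrib, sum_const, card_range, hPc, nsmul_eq_mul, ← mul_sum]
          push_cast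
          ring
      _ ≤ _ := by
          refine (add_le_add le_rfl (mul_le_mul_of_nonneg_left hgates (by positivity))).trans
            (le_of_eq ?_)
          ring
  have hb : cm * T * q * cm ≤ ((2 : ℝ) ^ m - 1) / 2 := by
    have h1 : cm * cm ≤ 9 * (c : ℝ) ^ 2 * (2 ^ j * 2 ^ j) := by
      have : cm ≤ 3 * (c : ℝ) * 2 ^ j := by rw [hcm]; nlinarith [(Nat.cast_nonneg c : (0 : ℝ) ≤ c)]
      calc cm * cm ≤ (3 * (c : ℝ) * 2 ^ j) * (3 * (c : ℝ) * 2 ^ j) :=
            mul_le_mul this this hcm0 (by positivity)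
        _ = _ := by ring
    have h2 : (2 : ℝ) ^ m = 2 ^ j * 2 ^ j * 2 ^ j := by
      rw [show m = j + j + j by simp only [m]; ring, pow_add, pow_add]
    have h3 : cm * T * q * cm * 4 ≤ 2 ^ m := by
      calc cm * T * q * cm * 4 = cm * cm * (4 * (T * q)) := by ring
        _ ≤ 9 * (c : ℝ) ^ 2 * (2 ^ j * 2 ^ j) * (4 * (T * q)) :=
            mul_le_mul_of_nonneg_right h1 (by positivity)
        _ = (R - 1) * (2 ^ j * 2 ^ j) := by simp only [R]; ring
        _ ≤ 2 ^ j * (2 ^ j * 2 ^ j) := mul_le_mul_of_nonneg_right (by linarith) (by positivity)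
        _ = _ := by rw [h2]; ring
    have h4 : (2 : ℝ) ≤ 2 ^ m := le_self_pow₀ one_le_two (by simp only [m, j]; omega)
    linarith
  have hmain : E.own p K ≤ 4 * (cm * T * (p ^ ℓ)⁻¹) := by
    have h4 : (2 : ℝ) ≤ 2 ^ m := le_self_pow₀ one_le_two (by simp only [m, j]; omega)
    have h5 : cm * T * q * cm * E.own p K ≤ ((2 : ℝ) ^ m - 1) / 2 * E.own p K :=
      mul_le_mul_of_nonneg_right hb hown
    have h6 : 0 ≤ cm * T * (p ^ ℓ)⁻¹ := by positivity
    have h7 : ((2 : ℝ) ^ m - 1) * E.own p K ≤ ((2 : ℝ) ^ m - 1) * (4 * (cm * T * (p ^ ℓ)⁻¹)) := by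
      nlinarith
    exact le_of_mul_le_mul_left h7 (by linarith)
  have hq : (p ^ ℓ)⁻¹ ≤ 2 ^ s * ((2 : ℝ) ^ j) ^ (3 * s) := by
    rw [← inv_pow]
    refine (pow_le_pow_left₀ (by positivity) ha.le ℓ).trans (le_of_eq ?_)
    rw [← pow_mul, ← pow_mul, ← pow_add]
    congr 1
    simp only [ℓ, m, s]; ring
  calc E.own p K ≤ 4 * (cm * T * (p ^ ℓ)⁻¹) := hmain
    _ ≤ 4 * ((c : ℝ) * (3 * 2 ^ j) * T * (2 ^ s * ((2 : ℝ) ^ j) ^ (3 * s))) := by
        rw [hcm]; gcongr
    _ = 12 * (c : ℝ) * 2 ^ s * ((2 : ℝ) ^ j) ^ (3 * s + 1) * T := by ring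
    _ ≤ 12 * (c : ℝ) * 2 ^ s * (C₂ * T) ^ (3 * s + 1) * T := by gcongr
    _ = _ := by ring_nf

/-- The volume through the largest shell. -/
theorem exists_vol_le (hp : 0 < p) (hp1 : p ≤ 1) : ∃ C : ℝ, 0 ≤ C ∧ ∀ (K : ℕ) (T : ℝ), 1 ≤ T →
    E.TailLe p K T → E.vol p K ≤ C * ((K : ℝ) + 1) * (E.own p K * T) := by
  refine ⟨(Fintype.card O : ℝ) * ((E.N : ℝ) + 1), by positivity, fun K T hT _ => ?_⟩
  refine (E.vol_le_own hp.le hp1 K).trans ?_
  have hown := E.own_nonneg hp.le hp1 K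
  have h1 : ((E.N * (K + 1) : ℕ) : ℝ) + 1 ≤ ((E.N : ℝ) + 1) * ((K : ℝ) + 1) := by
    push_cast
    nlinarith [(Nat.cast_nonneg K : (0 : ℝ) ≤ K), (Nat.cast_nonneg E.N : (0 : ℝ) ≤ E.N)]
  calc (Fintype.card O : ℝ) * (((E.N * (K + 1) : ℕ) : ℝ) + 1) * E.own p K
      ≤ (Fintype.card O : ℝ) * (((E.N : ℝ) + 1) * ((K : ℝ) + 1)) * E.own p K := by gcongr
    _ ≤ (Fintype.card O : ℝ) * (((E.N : ℝ) + 1) * ((K : ℝ) + 1)) * (E.own p K * T) :=
        mul_le_mul_of_nonneg_left (le_mul_of_one_le_right hown hT) (by positivity)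
    _ = _ := by ring

/-- The tail closes at the last parameter. -/
theorem closed_of_tails {ps : ℝ} (hp : 0 < ps) (hp1 : ps ≤ 1) (ht : E.Tails ps) :
    E.Closed ps := by
  intro ε hε
  obtain ⟨Cv, hCv, hvol⟩ := E.exists_vol_le hp hp1
  obtain ⟨Co, A, hCo, hown⟩ := E.ownBound hp hp1
  set η : ℝ := min ε 1 / (2 * ((A : ℝ) + 1))
  have hη : 0 < η := div_pos (lt_min hε one_pos) (by positivity)
  obtain ⟨Ct, hCt, htail⟩ := ht η hη
  set C₀ : ℝ := Cv * (Co * (Ct + 1) ^ A * (Ct + 1)) + 1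
  set Q : ℝ := (C₀ ^ 2) ^ η
  have hC₀1 : 1 ≤ C₀ := le_add_of_nonneg_left (by positivity)
  have hQ : 1 ≤ Q := Real.one_le_rpow (one_le_pow₀ hC₀1) hη.le
  set CB : ℝ := (Ct + 1) * Q
  refine ⟨max CB (Co * CB ^ A), le_max_of_le_left (by positivity), fun K => ?_⟩
  set V : ℝ := E.vol ps K + 1
  have hV : 1 ≤ V := le_add_of_nonneg_left (E.vol_nonneg hp.le hp1 K)
  have hV0 : 0 < V := zero_lt_one.trans_le hV
  set B : ℝ := (Ct + 1) * V ^ η
  have hVη : 1 ≤ V ^ η := Real.one_le_rpow hV hη.le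
  have hB : 1 ≤ B := by nlinarith
  have hTB : E.TailLe ps K B := fun ψ ℓ z hz S Y hS hY => (htail K ψ ℓ z hz S Y hS hY).trans
    (mul_le_mul_of_nonneg_right (by linarith) (zero_le_one.trans hVη))
  have h1 := hown K B hB hTB
  have h2 := hvol K B hB hTB
  have hK1 : (1 : ℝ) ≤ (K : ℝ) + 1 := le_add_of_nonneg_left (Nat.cast_nonneg K)
  have hA1 : η * ((A : ℝ) + 1) ≤ 1 / 2 := by
    simp only [η]
    rw [div_mul_eq_mul_div, div_le_iff₀ (by positivity)]
    nlinarith [min_le_right ε 1, (Nat.cast_nonneg A : (0 : ℝ) ≤ A)]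
  -- the volume
  have hV2 : V ≤ C₀ ^ 2 * ((K : ℝ) + 1) ^ 2 := by
    have h3 : V ≤ C₀ * ((K : ℝ) + 1) * V ^ ((1 : ℝ) / 2) := by
      have h4 : E.own ps K * B ≤ Co * (Ct + 1) ^ A * (Ct + 1) * V ^ (η * ((A : ℝ) + 1)) := by
        refine (mul_le_mul_of_nonneg_right h1 (zero_le_one.trans hB)).trans (le_of_eq ?_)
        rw [show η * ((A : ℝ) + 1) = η * A + η by ring, Real.rpow_add hV0, Real.rpow_mul hV0.le,
          Real.rpow_natCast, mul_pow]
        ring
      have h5 : V ^ (η * ((A : ℝ) + 1)) ≤ V ^ ((1 : ℝ) / 2) :=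
        Real.rpow_le_rpow_of_exponent_le hV hA1
      have h6 : 1 ≤ ((K : ℝ) + 1) * V ^ ((1 : ℝ) / 2) :=
        one_le_mul_of_one_le_of_one_le hK1 (Real.one_le_rpow hV (by norm_num))
      calc V = E.vol ps K + 1 := rfl
        _ ≤ Cv * ((K : ℝ) + 1) * (Co * (Ct + 1) ^ A * (Ct + 1) * V ^ ((1 : ℝ) / 2))
            + ((K : ℝ) + 1) * V ^ ((1 : ℝ) / 2) := add_le_add (h2.trans (mul_le_mul_of_nonneg_left
              (h4.trans (mul_le_mul_of_nonneg_left h5 (by positivity))) (by positivity))) h6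
        _ = _ := by simp only [C₀]; ring
    have h7 : V ^ ((1 : ℝ) / 2) * V ^ ((1 : ℝ) / 2) = V := by
      rw [← Real.rpow_add hV0]; norm_num
    have h8 : V ^ ((1 : ℝ) / 2) ≤ C₀ * ((K : ℝ) + 1) :=
      le_of_mul_le_mul_right (h7.trans_le h3) (Real.rpow_pos_of_pos hV0 _)
    rw [← h7, ← mul_pow, sq]
    exact mul_le_mul h8 h8 (Real.rpow_nonneg hV0.le _) (by positivity)
  have hBK : B ≤ CB * ((K : ℝ) + 1) ^ (2 * η) := by
    simp only [B, CB]
    rw [mul_assoc]
    refine mul_le_mul_of_nonneg_left ((Real.rpow_le_rpow hV0.le hV2 hη.le).trans (le_of_eq ?_))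
      (by linarith)
    rw [Real.mul_rpow (by positivity) (by positivity), ← Real.rpow_natCast ((K : ℝ) + 1) 2,
      ← Real.rpow_mul (by positivity)]
    norm_num [Q]
  have hexp : 2 * η * ((A : ℝ) + 1) ≤ ε := by
    simp only [η]
    field_simp
    exact min_le_left ε 1
  constructor
  · refine h1.trans ((mul_le_mul_of_nonneg_left (pow_le_pow_left₀ (zero_le_one.trans hB) hBK A)
      hCo).trans ?_)
    rw [mul_pow, ← mul_assoc, ← Real.rpow_natCast (((K : ℝ) + 1) ^ (2 * η)) A,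
      ← Real.rpow_mul (by positivity)]
    refine mul_le_mul (le_max_right _ _) (Real.rpow_le_rpow_of_exponent_le hK1 ?_)
      (by positivity) (le_max_of_le_left (by positivity))
    nlinarith
  · intro ψ ℓ z hz S Y hS hY
    refine (hTB ψ ℓ z hz S Y hS hY).trans (hBK.trans ?_)
    refine mul_le_mul (le_max_left _ _) (Real.rpow_le_rpow_of_exponent_le hK1 ?_)
      (by positivity) (le_max_of_le_left (by positivity))
    nlinarith [(Nat.cast_nonneg A : (0 : ℝ) ≤ A)]

end Core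

end Vale.Agent.P165.HY
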