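import Vale.Agent.P165.HY.Step

/-!
# The spread of a thin family over classes and targets

Seen from `u = ψ t₀`, a point far from `u` takes the frame that avoids `u` and the reference point of
the family, a near point the one that avoids `u` and `ψ b`. A class is a point of a net. Two classes
whose targets meet are at a bounded distance, so few colours separate the tagged targets.
-/

namespace Vale.Agent.P165.HY.Env

open Finset

variable {Γ O ι V X : Type} [Group Γ] [PseudoMetricSpace X] [Fintype ι] (E : Env Γ O ι V X)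

/-- The points of the chosen target are seen far along the apex. -/
theorem snap_gp {γ : Γ} (hγ : E.k₀ < gp E.t₀ (E.act γ⁻¹ E.t₀) E.b) {w e : ℕ × X}
    (hw : E.Strict w) (hs : E.Snap γ w e) {x : X} (hx : x ∈ E.hullX e) :
    dist E.t₀ (E.act γ E.t₀) - (2 * E.kP + 16 * (E.δ + 1)) ≤ gp E.t₀ x (E.act γ E.t₀) := by
  obtain ⟨h1, h2⟩ := E.snap_near hγ hw hs hx
  set F := Real.exp (E.a * (2 * E.kP)) * qp E.a E.t₀ (E.act γ E.t₀) with hF
  have hF0 : 0 < F := mul_pos (Real.exp_pos _) (qp_pos _ _)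
  have h256 : (256 : ℝ) ≤ Real.exp (E.a * (16 * (E.δ + 1))) := by
    have h : E.a * (16 * (E.δ + 1)) = 8 * Real.log 2 := by linarith [E.a_mul]
    rw [h, show (8 : ℝ) = ((8 : ℕ) : ℝ) by norm_num, Real.exp_nat_mul, Real.exp_log two_pos]
    norm_num
  have h3 : qk E.a E.t₀ x (E.act γ E.t₀) ≤ Real.exp (E.a * (16 * (E.δ + 1))) * F := by
    refine (E.qk_le_max _ _ _).trans (max_le ?_ ?_)
    · rw [mul_assoc 41] at h1; nlinarith
    · rw [mul_assoc 32] at h2; nlinarith [E.four_le_A', qp_pos (a := E.a) E.t₀ x]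
  rw [hF, qk, qp, ← Real.exp_add, ← Real.exp_add, Real.exp_le_exp] at h3
  nlinarith [E.a_pos]

/-- The distance beyond which a point avoids the reference point of the family. -/
def farTh : ℝ := E.k₁ + 2 * E.Cf + E.δ

/-- A point far from `ψ t₀`. -/
def Far (ψ : Γ) (y : V) : Prop := E.farTh < dist (E.act ψ E.t₀) (E.base y)

/-- The frame `i` of `y` in the spread of a family at `ψ` with reference point `w₁`. -/
def Avoids (ψ : Γ) (w₁ : X) (y : V) (i : Fin 3) : Prop :=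
  ∀ q ∈ E.Ax i, gp (E.base y) (E.act (E.sec y) q) (E.act ψ E.t₀) ≤ E.Cf ∧
    (E.Far ψ y → gp (E.base y) (E.act (E.sec y) q) w₁ ≤ E.Cf) ∧
    (¬ E.Far ψ y → gp (E.base y) (E.act (E.sec y) q) (E.act ψ E.b) ≤ E.Cf)

theorem exists_avoids (ψ : Γ) (w₁ : X) (y : V) : ∃ i, E.Avoids ψ w₁ y i := by
  by_cases h : E.Far ψ y
  · obtain ⟨i, hi⟩ := E.avoid_at y (E.act ψ E.t₀) w₁
    exact ⟨i, fun q hq => ⟨(hi q hq).1, fun _ => (hi q hq).2, fun h' => absurd h h'⟩⟩
  · obtain ⟨i, hi⟩ := E.avoid_at y (E.act ψ E.t₀) (E.act ψ E.b)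
    exact ⟨i, fun q hq => ⟨(hi q hq).1, fun h' => absurd h' h, fun _ => (hi q hq).2⟩⟩

variable {ψ : Γ} {w₁ : X} {y : V} {i : Fin 3}

/-- Avoided points see `ψ b` at a small product. -/
theorem avoids_b (hF : E.Avoids ψ w₁ y i) (hy : E.Φ ψ⁻¹ y ∈ E.ok₁) {q : X} (hq : q ∈ E.Ax i) :
    gp (E.act ψ E.t₀) (E.act (E.sec y) q) (E.act ψ E.b) ≤ E.k₁ + 2 * E.Cf + E.δ := by
  set u := E.act ψ E.t₀
  have h1 : gp u (E.base y) (E.act ψ E.b) ≤ E.k₁ + E.Cf := by
    have h : E.act ψ⁻¹ (E.pos y) ∉ E.B E.k₁ 1 := by rw [← E.pos_eq]; exact hy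
    rw [mem_B_one, not_lt, ← E.gp_act ψ, E.act_act_inv] at h
    have h2 := gp_move u (E.act ψ E.b) (E.base y) (E.pos y)
    rw [gp_comm u (E.act ψ E.b) (E.base y), gp_comm u (E.act ψ E.b) (E.pos y)] at h2
    linarith [E.dist_base y]
  obtain ⟨g1, -, g3⟩ := hF q hq
  by_cases hL : E.Far ψ y
  · have h3 := gp_eq_sub u (E.base y) (E.act (E.sec y) q)
    rw [gp_comm (E.base y) (E.act (E.sec y) q) u] at g1 h3
    have h4 := E.hyp u (E.base y) (E.act (E.sec y) q) (E.act ψ E.b)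
    have h5 : E.farTh < dist u (E.base y) := hL
    rw [farTh] at h5
    have := E.one_le_Cf
    rcases le_total (gp u (E.base y) (E.act (E.sec y) q))
      (gp u (E.act (E.sec y) q) (E.act ψ E.b)) with hle | hle
    · rw [min_eq_left hle] at h4; linarith
    · rw [min_eq_right hle] at h4; linarith
  · linarith [gp_beyond u (E.base y) _ _ (g3 hL), E.δ_nonneg]

theorem avoids_pull (hF : E.Avoids ψ w₁ y i) :
    E.k₀ < gp E.t₀ (E.act (ψ⁻¹ * (E.sec y * E.σ i))⁻¹ E.t₀) E.b := by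
  have e : (ψ⁻¹ * (E.sec y * E.σ i))⁻¹ = (E.sec y * E.σ i)⁻¹ * ψ := by group
  rw [e, E.act_mul]
  exact E.pull_avoided y i fun q hq => (hF q hq).1

theorem dist_apex (γ : Γ) :
    dist E.t₀ (E.act (ψ⁻¹ * γ) E.t₀) = dist (E.act ψ E.t₀) (E.act γ E.t₀) := by
  rw [E.act_mul, ← E.isom ψ, E.act_act_inv]

theorem apex_mem (y : V) (i : Fin 3) :
    ∃ q ∈ E.U i, E.act (E.sec y * E.σ i) E.t₀ = E.act (E.sec y) q :=
  E.frame_maps y i (E.t₀_notMem E.k₀_pos.le)

theorem avoids_beyond (hF : E.Avoids ψ w₁ y i) :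
    dist (E.act ψ E.t₀) (E.base y) + E.kU - 2 * E.Cf ≤
      dist (E.act ψ E.t₀) (E.act (E.sec y * E.σ i) E.t₀) := by
  obtain ⟨q, hq, he⟩ := E.apex_mem y i
  rw [he]
  exact E.far_beyond _ y hq (hF q (E.U_sub _ hq)).1

theorem avoids_far (hF : E.Avoids ψ w₁ y i) :
    95 * E.unit ≤ dist E.t₀ (E.act (ψ⁻¹ * (E.sec y * E.σ i)) E.t₀) := by
  rw [E.dist_apex]
  have h : E.Cf ≤ E.unit := by simp only [unit]; linarith [E.k₀_pos, E.δ_nonneg]
  linarith [E.avoids_beyond hF, E.kU_big, E.unit_pos,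
    (dist_nonneg : 0 ≤ dist (E.act ψ E.t₀) (E.base y))]

theorem apex_near (y : V) (i : Fin 3) :
    dist (E.base y) (E.act (E.sec y * E.σ i) E.t₀) ≤ E.Cf + E.D * E.blk := by
  obtain ⟨w, hw, -⟩ := E.frame_path y i
  have h := E.dist_link (S := Set.univ) ⟨w, hw, fun v _ => Set.mem_univ v⟩
  rw [E.pos_eq] at h
  exact (dist_triangle _ (E.pos y) _).trans (add_le_add (E.dist_base y) h)

/-- The points of the image of a target, seen from `ψ t₀`. -/
theorem avoids_see (hF : E.Avoids ψ w₁ y i) (hy : E.Φ ψ⁻¹ y ∈ E.ok₁) {d : ℝ}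
    (hd : |gp (E.pos y) (E.act ψ E.t₀) w₁ - d| ≤ 1) {w e : ℕ × X} (hw : E.Strict w)
    (hs : E.Snap (ψ⁻¹ * (E.sec y * E.σ i)) w e) {x : X} (hx : x ∈ E.hullX e) :
    gp (E.act ψ E.t₀) (E.act ψ x) (E.act ψ E.b) ≤ E.k₂ ∧
      dist (E.act ψ E.t₀) (E.base y) - E.Cf - E.δ ≤
        gp (E.act ψ E.t₀) (E.act ψ x) (E.base y) ∧
      (E.Far ψ y → |gp (E.act ψ E.t₀) (E.act ψ x) w₁ -
        (dist (E.act ψ E.t₀) (E.base y) - d)| ≤ 3 * E.Cf + 1 + E.δ) := by
  have h1 := E.snap_gp (E.avoids_pull hF) hw hs hx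
  rw [E.dist_apex, ← E.gp_act ψ E.t₀ x, E.act_mul ψ⁻¹, E.act_act_inv] at h1
  obtain ⟨q, hq, he⟩ := E.apex_mem y i
  obtain ⟨g1, g2, -⟩ := hF q (E.U_sub _ hq)
  have h2 := E.avoids_b hF hy (E.U_sub _ hq)
  have hdy := E.avoids_beyond hF
  rw [← he] at g1 g2 h2
  set r := E.act (E.sec y * E.σ i) E.t₀
  set u := E.act ψ E.t₀
  have huK := E.hkU
  have := E.hk₀
  have := E.hk₂
  have := E.one_le_Cf
  have := E.δ_nonneg
  have := E.k₁_pos
  rw [kP] at h1
  have hbig : dist u (E.base y) + 20 * (E.k₀ + E.Cf + E.δ + 1) ≤ gp u (E.act ψ x) r := by linarith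
  rw [gp_comm (E.base y) r u] at g1
  refine ⟨?_, ?_, fun hL => ?_⟩
  · have h3 := E.hyp u r (E.act ψ x) (E.act ψ E.b)
    rw [gp_comm u r (E.act ψ x)] at h3
    rcases le_total (gp u (E.act ψ x) r) (gp u (E.act ψ x) (E.act ψ E.b)) with hle | hle
    · rw [min_eq_left hle] at h3; linarith [(dist_nonneg : 0 ≤ dist u (E.base y))]
    · rw [min_eq_right hle] at h3; linarith
  · have h2' := gp_eq_sub u (E.base y) r
    rw [gp_comm (E.base y) r u] at h2'
    have h4 := gp_le_dist u (E.base y) r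
    have h3 := E.hyp u (E.act ψ x) r (E.base y)
    rw [gp_comm u r (E.base y)] at h3
    rw [min_eq_right (by linarith)] at h3
    linarith
  · have h2' := gp_reroot u (E.base y) r w₁
    rw [gp_comm (E.base y) u w₁] at h2'
    have h3 := abs_le.1 hd
    have h4 := gp_base (E.base y) (E.pos y) u w₁
    have h5 := gp_base (E.pos y) (E.base y) u w₁
    rw [dist_comm (E.pos y) (E.base y)] at h5
    rw [gp_comm (E.base y) u w₁] at h4 h5
    have h6 := E.dist_base y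
    have h7 := gp_nonneg (E.base y) r w₁
    have h8 := gp_nonneg (E.base y) u r
    have h9 := gp_nonneg (E.base y) w₁ u
    have h10 := E.hyp u (E.act ψ x) r w₁
    have h11 := E.hyp u r (E.act ψ x) w₁
    rw [gp_comm u r (E.act ψ x)] at h11
    have g2' := g2 hL
    rw [min_eq_right (by linarith)] at h10
    rw [abs_le]
    refine ⟨by linarith, ?_⟩
    rcases le_total (gp u (E.act ψ x) r) (gp u (E.act ψ x) w₁) with hle | hle
    · rw [min_eq_left hle] at h11; linarith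
    · rw [min_eq_right hle] at h11; linarith

/-- The bound on the distance of two classes with meeting targets. -/
def classDist : ℝ := max (2 * E.farTh) (8 * E.Cf + 2 + 6 * E.δ) + 2

/-- Two points with meeting images are near one another and have comparable targets. -/
theorem avoids_meet {y' : V} {i' : Fin 3} (hF : E.Avoids ψ w₁ y i) (hF' : E.Avoids ψ w₁ y' i')
    (hy : E.Φ ψ⁻¹ y ∈ E.ok₁) (hy' : E.Φ ψ⁻¹ y' ∈ E.ok₁) {d : ℝ}
    (hd : |gp (E.pos y) (E.act ψ E.t₀) w₁ - d| ≤ 1)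
    (hd' : |gp (E.pos y') (E.act ψ E.t₀) w₁ - d| ≤ 1) (hsame : E.Far ψ y ↔ E.Far ψ y')
    {w e w' e' : ℕ × X} (hw : E.Strict w) (hw' : E.Strict w')
    (hs : E.Snap (ψ⁻¹ * (E.sec y * E.σ i)) w e) (hs' : E.Snap (ψ⁻¹ * (E.sec y' * E.σ i')) w' e')
    (hl : w.1 = w'.1) {x : X} (hx : x ∈ E.hullX e) (hx' : x ∈ E.hullX e') :
    dist (E.base y) (E.base y') ≤ E.classDist - 2 ∧
      rad e.1 < 2 * Real.exp (E.a * (E.classDist + 2 * (E.Cf + E.D * E.blk))) * rad e'.1 := by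
  obtain ⟨-, s2, s3⟩ := E.avoids_see hF hy hd hw hs hx
  obtain ⟨-, s2', s3'⟩ := E.avoids_see hF' hy' hd' hw' hs' hx'
  set u := E.act ψ E.t₀
  have hyy : dist (E.base y) (E.base y') ≤ E.classDist - 2 := by
    by_cases hL : E.Far ψ y
    · have a1 := abs_le.1 (s3 hL)
      have a2 := abs_le.1 (s3' (hsame.1 hL))
      have hh := E.hyp u (E.base y) (E.act ψ x) (E.base y')
      rw [gp_comm u (E.base y) (E.act ψ x)] at hh
      have hdd : dist (E.base y) (E.base y') =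
          dist u (E.base y) + dist u (E.base y') - 2 * gp u (E.base y) (E.base y') := by
        rw [gp]; ring
      have hm : 8 * E.Cf + 2 + 6 * E.δ ≤ E.classDist - 2 := by
        rw [classDist]; linarith [le_max_right (2 * E.farTh) (8 * E.Cf + 2 + 6 * E.δ)]
      rcases le_total (gp u (E.act ψ x) (E.base y)) (gp u (E.act ψ x) (E.base y')) with hle | hle
      · rw [min_eq_left hle] at hh; linarith
      · rw [min_eq_right hle] at hh; linarith
    · have hL1 : dist u (E.base y) ≤ E.farTh := not_lt.1 hL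
      have hL2 : dist u (E.base y') ≤ E.farTh := not_lt.1 fun h => hL (hsame.2 h)
      have h1 := dist_triangle (E.base y) u (E.base y')
      rw [dist_comm (E.base y) u] at h1
      have hm : 2 * E.farTh ≤ E.classDist - 2 := by
        rw [classDist]; linarith [le_max_left (2 * E.farTh) (8 * E.Cf + 2 + 6 * E.δ)]
      linarith
  refine ⟨hyy, ?_⟩
  set Q := Real.exp (E.a * (E.classDist + 2 * (E.Cf + E.D * E.blk)))
  set R := E.act (E.sec y * E.σ i) E.t₀
  set R' := E.act (E.sec y' * E.σ i') E.t₀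
  have hq : qp E.a u R ≤ Q * qp E.a u R' := by
    rw [qp, qp, ← Real.exp_add]
    refine Real.exp_le_exp.2 ?_
    have h1 := dist_triangle u R R'
    have h2 := dist_triangle4 R (E.base y) (E.base y') R'
    have h3 := E.apex_near y i
    have h4 := E.apex_near y' i'
    rw [dist_comm (E.base y) R] at h3
    nlinarith [E.a_pos]
  obtain ⟨-, -, u2, -⟩ := hs
  obtain ⟨-, u1', -, -⟩ := hs'
  have e1 : qp E.a E.t₀ (E.act (ψ⁻¹ * (E.sec y * E.σ i)) E.t₀) = qp E.a u R := by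
    rw [qp, qp, E.dist_apex]
  have e2 : qp E.a E.t₀ (E.act (ψ⁻¹ * (E.sec y' * E.σ i')) E.t₀) = qp E.a u R' := by
    rw [qp, qp, E.dist_apex]
  simp only [size, e1, hl] at u2
  simp only [size, e2] at u1'
  have hK : 0 ≤ 4 * Real.exp (E.a * (2 * E.kP)) * rad w'.1 :=
    (mul_pos (by positivity) (rad_pos' _)).le
  have h5 := mul_le_mul_of_nonneg_left hq hK
  have h6 := mul_le_mul_of_nonneg_left u1' (Real.exp_pos (E.a * (E.classDist + 2 * (E.Cf + E.D * E.blk)))).le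
  linarith

/-- A radius within a power of two puts the level within that many steps. -/
theorem lev_within {j j' J : ℕ} {Q : ℝ} (hQ : Q ≤ 2 ^ J) (h : rad j' < Q * rad j) : j ≤ j' + J := by
  by_contra hlt
  push Not at hlt
  have h1 : rad j ≤ rad (j' + J) := pow_le_pow_of_le_one (by norm_num) (by norm_num) hlt.le
  have h2 : rad (j' + J) * 2 ^ J = rad j' := by
    rw [rad, rad, pow_add, mul_assoc, ← mul_pow]; norm_num
  nlinarith [mul_le_mul_of_nonneg_left h1 (pow_nonneg two_pos.le J : (0 : ℝ) ≤ 2 ^ J),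
    mul_le_mul_of_nonneg_right hQ (rad_pos' j).le]

/-- Tagged classes near one class with comparable tags are few. -/
theorem card_pairs (L : V → Prop) {R : Set V} {J Nb Nc : ℕ} {D M : ℝ}
    (hNb : ∀ (x : X) (s : Finset X), (∀ y ∈ s, dist x y ≤ D) →
      (s : Set X).Pairwise (fun y z => 1 ≤ dist y z) → s.card ≤ Nb)
    (hNc : ∀ (j : ℕ) (x : X) (F : Finset X),
      (∀ c ∈ F, c ∈ E.net j ∧ rho E.a E.t₀ x c ≤ M * rad j) → F.card ≤ Nc)
    {q : V × (ℕ × X)} (t : Finset (V × (ℕ × X)))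
    (hRsep : R.Pairwise fun y y' => (L y ↔ L y') → 1 ≤ dist (E.base y) (E.base y'))
    (key : ∀ q' ∈ t, q'.1 ∈ R ∧ (L q.1 ↔ L q'.1) ∧ dist (E.base q.1) (E.base q'.1) ≤ D ∧
      q'.2.1 ∈ Finset.Icc (q.2.1 - J) (q.2.1 + J) ∧ q'.2.2 ∈ E.net q'.2.1 ∧
      rho E.a E.t₀ q.2.2 q'.2.2 ≤ M * rad q'.2.1) :
    t.card ≤ Nb * ((2 * J + 1) * Nc) := by
  classical
  have hA : (t.image Prod.fst).card ≤ Nb := by
    have hmem : ∀ c ∈ t.image Prod.fst, c ∈ R ∧ (L q.1 ↔ L c) ∧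
        dist (E.base q.1) (E.base c) ≤ D := fun c hc => by
      obtain ⟨q', hq', rfl⟩ := mem_image.1 hc
      exact ⟨(key q' hq').1, (key q' hq').2.1, (key q' hq').2.2.1⟩
    have hone : ∀ c ∈ t.image Prod.fst, ∀ c' ∈ t.image Prod.fst, c ≠ c' →
        1 ≤ dist (E.base c) (E.base c') := fun c hc c' hc' hne =>
      hRsep (hmem c hc).1 (hmem c' hc').1 hne ((hmem c hc).2.1.symm.trans (hmem c' hc').2.1)
    refine le_trans (le_of_eq (card_image_of_injOn fun c hc c' hc' h => ?_).symm)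
      (hNb (E.base q.1) ((t.image Prod.fst).image E.base) ?_ ?_)
    · by_contra hne
      have := hone c hc c' hc' hne
      rw [h, dist_self] at this
      linarith
    · intro z hz
      obtain ⟨c, hc, rfl⟩ := mem_image.1 hz
      exact (hmem c hc).2.2
    · intro z hz z' hz' hne
      obtain ⟨c, hc, rfl⟩ := mem_image.1 hz
      obtain ⟨c', hc', rfl⟩ := mem_image.1 hz'
      exact hone c hc c' hc' fun h => hne (h ▸ rfl)
  have hB : (t.image Prod.snd).card ≤ (2 * J + 1) * Nc := by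
    have hmem : ∀ e ∈ t.image Prod.snd, e.1 ∈ Finset.Icc (q.2.1 - J) (q.2.1 + J) := fun e he => by
      obtain ⟨q', hq', rfl⟩ := mem_image.1 he
      exact (key q' hq').2.2.2.1
    refine (card_le_mul_card_image_of_maps_to hmem Nc fun j _ => ?_).trans ?_
    · refine le_trans (le_of_eq (card_image_of_injOn (f := Prod.snd) fun e he e' he' h => ?_).symm)
        (hNc j q.2.2 _ fun c hc => ?_)
      · exact Prod.ext ((mem_filter.1 he).2.trans (mem_filter.1 he').2.symm) h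
      obtain ⟨e, he, rfl⟩ := mem_image.1 hc
      obtain ⟨he', rfl⟩ := mem_filter.1 he
      obtain ⟨q', hq', rfl⟩ := mem_image.1 he'
      exact (key q' hq').2.2.2.2
    · rw [Nat.card_Icc, mul_comm]
      exact Nat.mul_le_mul_right _ (by omega)
  calc t.card ≤ ((t.image Prod.fst) ×ˢ (t.image Prod.snd)).card := card_le_card fun q' hq' =>
        mem_product.2 ⟨mem_image_of_mem _ hq', mem_image_of_mem _ hq'⟩
    _ ≤ _ := by rw [card_product]; exact Nat.mul_le_mul hA hB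

theorem spreadOK : E.SpreadOK := by
  classical
  obtain ⟨Nf, hNf⟩ := E.exists_card_snap
  obtain ⟨J, hJ⟩ := pow_unbounded_of_one_lt
    (2 * Real.exp (E.a * (E.classDist + 2 * (E.Cf + E.D * E.blk)))) (one_lt_two : (1 : ℝ) < 2)
  obtain ⟨Nb, hNb⟩ := card_ball_le E.packing E.classDist
  obtain ⟨Nc, hNc⟩ := E.exists_card_centres (4 + 4 * 2 ^ J)
  set Nd := Nb * ((2 * J + 1) * Nc) with hNd
  refine ⟨Nf + 2 * (Nd + 1), fun N hN ψ Y hY => ?_⟩
  obtain ⟨hYok, w₁, d, hd⟩ := hY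
  choose i hF using E.exists_avoids ψ w₁
  set γ : V → Γ := fun y => E.sec y * E.σ (i y) with hγdef
  let img : V → ℕ × X → ℕ × X := fun y w =>
    if h : E.Strict w then
      (E.exists_snap (E.avoids_pull (hF y)) (E.avoids_far (hF y)) h).choose
    else w
  have himg : ∀ y w, E.Strict w → E.Snap (ψ⁻¹ * γ y) w (img y w) ∧
      ∀ x ∈ E.capX w, E.act (ψ⁻¹ * γ y) x ∈ E.capX (img y w) := fun y w hw => by
    simp only [img, dif_pos hw]
    exact (E.exists_snap (E.avoids_pull (hF y)) (E.avoids_far (hF y)) hw).choose_spec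
  set L : V → Prop := fun y => E.Far ψ y with hLdef
  obtain ⟨R, hRY, hRsep, hRcov⟩ := exists_net (↑Y : Set V)
    (fun y y' => (L y ↔ L y') → 1 ≤ dist (E.base y) (E.base y'))
    fun y y' h hl => by rw [dist_comm]; exact h hl.symm
  have hcov' : ∀ y, ∃ c, y ∈ Y → c ∈ R ∧ (L y ↔ L c) ∧ dist (E.base y) (E.base c) ≤ 1 := by
    intro y
    by_cases hy : y ∈ Y
    · obtain ⟨c, hc, h⟩ := hRcov y hy
      refine ⟨c, fun _ => ⟨hc, ?_⟩⟩
      rcases h with rfl | h
      · exact ⟨Iff.rfl, by rw [dist_self]; exact zero_le_one⟩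
      · simp only [Classical.not_imp, not_le] at h
        exact ⟨h.1, h.2.le⟩
    · exact ⟨y, fun h => absurd h hy⟩
  choose cls hcls using hcov'
  refine ⟨cls, fun l => ⟨γ, img, fun y hy => ⟨?_, ?_, ?_, ?_⟩, fun P hP => ?_⟩⟩
  · obtain ⟨w, hw, hs⟩ := E.frame_path y (i y)
    refine ⟨w, hw, fun v hv => ?_⟩
    obtain ⟨q, hq, he⟩ := hs v hv
    show E.pos (E.Φ ψ⁻¹ v) ∉ E.B E.k₀ 1
    rw [mem_B_one, not_lt, E.pos_eq, ← E.gp_act ψ, E.act_act_inv, he]
    linarith [E.avoids_b (hF y) (hYok hy) hq, E.hk₂, E.hk₀, E.one_le_Cf, E.δ_nonneg]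
  · intro v hv
    have hx : E.act (γ y)⁻¹ (E.pos v) ∉ E.B E.k₀ 1 := by rw [← E.pos_eq]; exact hv
    obtain ⟨q, hq, he⟩ := E.frame_maps y (i y) hx
    rw [E.act_act_inv] at he
    show E.pos (E.Φ ψ⁻¹ v) ∉ E.B E.k₀ 1
    rw [mem_B_one, not_lt, E.pos_eq, ← E.gp_act ψ, E.act_act_inv, he]
    linarith [E.avoids_b (hF y) (hYok hy) (E.U_sub _ hq), E.hk₂, E.hk₀, E.one_le_Cf, E.δ_nonneg]
  · intro w hw _
    refine ⟨⟨(himg y w hw).1.1, Set.disjoint_left.2 fun x hx hB => ?_⟩, fun v hv => ?_⟩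
    · have h := (E.avoids_see (hF y) (hYok hy) (hd y hy) hw (himg y w hw).1 hx).1
      rw [mem_B_one, ← E.gp_act ψ] at hB
      exact not_lt.2 h hB
    · have hx : E.act (ψ⁻¹ * γ y)⁻¹ (E.pos v) ∈ E.capX w := by rw [← E.pos_eq]; exact hv
      have := (himg y w hw).2 _ hx
      rwa [E.act_act_inv] at this
  · intro f W hW
    refine ((hNf (ψ⁻¹ * γ y) f W fun w hw => ⟨(hW w hw).1.1, ?_⟩).trans (by omega))
    obtain ⟨h1, -, h2⟩ := hW w hw
    exact h2 ▸ (himg y w h1).1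
  set rel : V × (ℕ × X) → V × (ℕ × X) → Prop := fun q q' =>
    (L q.1 ↔ L q'.1) ∧ ¬ Disjoint (E.hullX q.2) (E.hullX q'.2)
  have hdeg : ∀ q ∈ P, ∀ t : Finset (V × (ℕ × X)), t ⊆ P → (∀ q' ∈ t, rel q q' ∧ q' ≠ q) →
      t.card ≤ Nd := by
    intro q hq t ht hrel
    obtain ⟨y, hy, hyc, w, hw, hwl, -, hqe⟩ := hP q hq
    obtain ⟨-, hyL, hyd⟩ := hcls y hy
    rw [hyc] at hyL hyd
    have key : ∀ q' ∈ t, q'.1 ∈ R ∧ (L q.1 ↔ L q'.1) ∧
        dist (E.base q.1) (E.base q'.1) ≤ E.classDist ∧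
        q'.2.1 ∈ Finset.Icc (q.2.1 - J) (q.2.1 + J) ∧ q'.2.2 ∈ E.net q'.2.1 ∧
        rho E.a E.t₀ q.2.2 q'.2.2 ≤ (4 + 4 * 2 ^ J) * rad q'.2.1 := by
      intro q' hq'
      obtain ⟨hsame, hmeet⟩ := (hrel q' hq').1
      obtain ⟨y', hy', hyc', w', hw', hwl', -, hqe'⟩ := hP q' (ht hq')
      obtain ⟨hR', hyL', hyd'⟩ := hcls y' hy'
      rw [hyc'] at hR' hyL' hyd'
      obtain ⟨x, hx, hx'⟩ := Set.not_disjoint_iff.1 hmeet
      have hs := (himg y w hw).1
      have hs' := (himg y' w' hw').1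
      rw [← hqe] at hs
      rw [← hqe'] at hs'
      have hsm : L y ↔ L y' := hyL.trans (hsame.trans hyL'.symm)
      obtain ⟨m1, m2⟩ := E.avoids_meet (hF y) (hF y') (hYok hy) (hYok hy') (hd y hy) (hd y' hy')
        hsm hw hw' hs hs' (hwl.trans hwl'.symm) hx hx'
      obtain ⟨-, m2'⟩ := E.avoids_meet (hF y') (hF y) (hYok hy') (hYok hy) (hd y' hy') (hd y hy)
        hsm.symm hw' hw hs' hs (hwl'.trans hwl.symm) hx' hx
      have hl1 := lev_within hJ.le m2
      have hl2 := lev_within hJ.le m2'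
      refine ⟨hR', hsame, ?_, Finset.mem_Icc.2 ⟨by omega, by omega⟩, hs'.1, ?_⟩
      · have h1 := dist_triangle4 (E.base q.1) (E.base y) (E.base y') (E.base q'.1)
        rw [dist_comm (E.base q.1) (E.base y)] at h1
        linarith
      · have h1 := (E.lt_of_mem_hull hx).1
        have h2 := (E.lt_of_mem_hull hx').1
        have h3 := rho_triangle (a := E.a) E.t₀ q.2.2 x q'.2.2
        rw [rho_comm E.t₀ q.2.2 x] at h3
        nlinarith [mul_le_mul_of_nonneg_right hJ.le (rad_pos' q'.2.1).le]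
    exact E.card_pairs L hNb hNc t hRsep key
  obtain ⟨col, hcol⟩ := exists_colouring P rel (fun q q' h => ⟨h.1.symm, fun hd => h.2 hd.symm⟩) hdeg
  let side : V × (ℕ × X) → Fin 2 := fun q => if L q.1 then 1 else 0
  refine ⟨fun q => Fin.castLE (by omega) (finProdFinEquiv (side q, col q)),
    fun q hq q' hq' hne heq => ?_⟩
  have h := finProdFinEquiv.injective (Fin.castLE_injective _ heq)
  obtain ⟨hs, hc⟩ := Prod.ext_iff.1 h
  have hsame : L q.1 ↔ L q'.1 := by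
    by_cases h1 : L q.1 <;> by_cases h2 : L q'.1 <;> simp [side, h1, h2] at hs ⊢
  by_contra hdis
  exact hcol q hq q' hq' hne ⟨hsame, fun hd => hdis (hd.preimage _)⟩ hc

end Vale.Agent.P165.HY.Env
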