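import Vale.Agent.P165.HY.Targets

/-!
# The forward frame at a gate of a target

At a gate `z` of a target `v` the frame that avoids `t₀` and `b` maps the complement of the excluded
set into a deep cone at `z`, so into `v`, and every target into one target below `v`.
-/

namespace Vale.Agent.P165.HY.Env

open Finset

variable {Γ O ι V X : Type} [Group Γ] [PseudoMetricSpace X] [Fintype ι] (E : Env Γ O ι V X)

/-- A point that avoids `b` at `y` is seen from `o` at most `C` nearer to `b` than `y` is. -/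
theorem gp_beyond (o y q b : X) {C : ℝ} (h : gp y q b ≤ C) : gp o q b ≤ gp o y b + C := by
  have h1 := gp_reroot o y q b
  have h2 := gp_eq_sub o y b
  rw [gp_comm y b o] at h2
  linarith [gp_nonneg y o q]

theorem cap_notMem_B {v : ℕ × X} (hv : E.Strict v) {x : X} (hx : x ∈ E.capX v) : x ∉ E.B E.k₂ 1 :=
  Set.disjoint_left.1 hv.2 (E.cap_sub_hull v hx)

/-- A deep point that avoids `o` at `y` is far from `o`. -/
theorem far_beyond (o : X) (y : V) {i : Fin 3} {q : X} (hq : q ∈ E.U i)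
    (h : gp (E.base y) (E.act (E.sec y) q) o ≤ E.Cf) :
    dist o (E.base y) + E.kU - 2 * E.Cf ≤ dist o (E.act (E.sec y) q) := by
  rw [dist_eq_gp o (E.base y) (E.act (E.sec y) q)]
  linarith [E.dist_base_deep y hq]

theorem stepOK : E.StepOK := by
  classical
  obtain ⟨N, hN⟩ := E.exists_card_snap
  refine ⟨N, fun M hM v hv z hz => ?_⟩
  obtain ⟨i, hi⟩ := E.avoid_at z E.t₀ E.b
  have hzX : E.pos z ∈ E.capX v := hz.1
  have hzB := E.cap_notMem_B hv hzX
  rw [mem_B_one, not_lt] at hzB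
  set γ := E.sec z * E.σ i with hγdef
  have hγ : E.k₀ < gp E.t₀ (E.act γ⁻¹ E.t₀) E.b := E.pull_avoided z i fun q hq => (hi q hq).1
  have hbz := E.dist_base z
  have hu := E.kU_big
  have hup := E.unit_pos
  have hk₀ := E.hk₀
  have hCf : E.Cf ≤ E.unit := by
    simp only [unit]; linarith [E.k₀_pos, E.δ_nonneg]
  have hzS : Sfun E.a E.A E.t₀ v.2 (E.pos z) < 2 * rad v.1 := hzX
  have hL : Real.exp (-E.a * (E.kU - E.Cf - 2 * (2 * E.Cf))) ≤ 1 / 4 :=
    (E.exp_small (by linarith)).trans (by norm_num)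
  -- deep cones at `z` lie in `v`, and are small
  have hcone : ∀ q ∈ E.U i,
      Sfun E.a E.A E.t₀ v.2 (E.act (E.sec z) q) ≤ Sfun E.a E.A E.t₀ v.2 (E.pos z) ∧
      qp E.a E.t₀ (E.act (E.sec z) q) ≤
        Real.exp (-E.a * (E.kU - 5 * E.Cf)) * qp E.a E.t₀ (E.pos z) := by
    intro q hq
    have h1 : gp (E.pos z) (E.act (E.sec z) q) E.t₀ ≤ 2 * E.Cf := by
      refine (gp_base (E.pos z) (E.base z) _ _).trans ?_
      rw [dist_comm]
      linarith [(hi q (E.U_sub i hq)).1]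
    have h2 : E.kU - E.Cf ≤ dist (E.pos z) (E.act (E.sec z) q) := by
      linarith [dist_triangle (E.base z) (E.pos z) (E.act (E.sec z) q), E.dist_base_deep z hq]
    refine ⟨(Sfun_cone E.a_pos.le (le_of_eq E.A_eq.symm) hL v.2 h1 h2).trans
      (sub_le_self _ (mul_nonneg (div_nonneg E.A_pos.le two_pos.le) (qp_pos _ _).le)), ?_⟩
    refine (qp_le_of_cone E.a_pos.le h1 h2).trans (le_of_eq ?_)
    congr 2; ring
  obtain ⟨q₀, hq₀, hr⟩ := E.frame_maps z i (x := E.t₀) (E.t₀_notMem E.k₀_pos.le)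
  rw [← hγdef] at hr
  have hfar : 95 * E.unit ≤ dist E.t₀ (E.act γ E.t₀) := by
    rw [hr]
    linarith [E.far_beyond E.t₀ z hq₀ (hi q₀ (E.U_sub i hq₀)).1,
      (dist_nonneg : 0 ≤ dist E.t₀ (E.base z))]
  let img : ℕ × X → ℕ × X := fun w =>
    if h : E.Strict w then (E.exists_snap hγ hfar h).choose else w
  have himg : ∀ w, E.Strict w →
      E.Snap γ w (img w) ∧ ∀ x ∈ E.capX w, E.act γ x ∈ E.capX (img w) := fun w hw => by
    simp only [img, dif_pos hw]
    exact (E.exists_snap hγ hfar hw).choose_spec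
  have hsub : ∀ w, E.Strict w → E.hullX (img w) ⊆ E.hullX v := by
    intro w hw x hx
    obtain ⟨h1, h2⟩ := E.snap_near hγ hw (himg w hw).1 hx
    obtain ⟨h3, h4⟩ := hcone q₀ hq₀
    rw [← hr] at h3 h4
    show Sfun E.a E.A E.t₀ v.2 x < 4 * rad v.1
    have h5 : rho E.a E.t₀ (E.act γ E.t₀) v.2 ≤ Sfun E.a E.A E.t₀ v.2 (E.pos z) :=
      le_trans (le_add_of_nonneg_right (mul_nonneg E.A_pos.le (qp_pos _ _).le)) h3
    have h6 := rho_triangle (a := E.a) E.t₀ x (E.act γ E.t₀) v.2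
    have h7 := mul_qp_le_Sfun (a := E.a) E.A E.t₀ v.2 (E.pos z)
    have h8 : Real.exp (E.a * (2 * E.kP)) * qp E.a E.t₀ (E.act γ E.t₀) ≤
        1 / 2 ^ 40 * qp E.a E.t₀ (E.pos z) := by
      refine (mul_le_mul_of_nonneg_left h4 (Real.exp_pos _).le).trans ?_
      rw [← mul_assoc, ← Real.exp_add]
      refine mul_le_mul_of_nonneg_right (le_trans (le_of_eq ?_)
        (E.exp_small (L := E.kU - 5 * E.Cf - 2 * E.kP) ?_)) (qp_pos _ _).le
      · congr 1; ring
      · simp only [kP, unit] at hu hup hCf ⊢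
        linarith [E.one_le_Cf, E.δ_nonneg]
    have h9 := E.four_le_A'
    rw [Sfun]
    nlinarith [rad_pos' v.1, qp_pos (a := E.a) E.t₀ (E.pos z)]
  refine ⟨γ, img, ?_, ?_, fun w hw => ?_, fun f W hW => ?_⟩
  · obtain ⟨w, hw, hs⟩ := E.frame_path z i
    refine ⟨w, hw, fun u hu' => ?_⟩
    obtain ⟨q, hq, he⟩ := hs u hu'
    show E.pos u ∉ E.B E.k₀ 1
    rw [mem_B_one, not_lt, he]
    refine (gp_beyond _ (E.base z) _ _ (hi q hq).2).trans ?_
    have h1 := gp_move E.t₀ E.b (E.base z) (E.pos z)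
    rw [gp_comm E.t₀ E.b (E.base z), gp_comm E.t₀ E.b (E.pos z)] at h1
    linarith [E.one_le_Cf, E.δ_nonneg]
  · intro u hu'
    have hx : E.act γ⁻¹ (E.pos u) ∉ E.B E.k₀ 1 := by
      rw [← E.pos_eq]; exact hu'
    obtain ⟨q, hq, he⟩ := E.frame_maps z i hx
    rw [← hγdef, E.act_act_inv] at he
    show Sfun E.a E.A E.t₀ v.2 (E.pos u) < 2 * rad v.1
    rw [he]
    exact (hcone q hq).1.trans_lt hzS
  · refine ⟨⟨(himg w hw).1.1, hv.2.mono_left (hsub w hw)⟩, fun u hu' => hsub w hw hu', ?_⟩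
    intro u hu'
    have hx : E.act γ⁻¹ (E.pos u) ∈ E.capX w := by rw [← E.pos_eq]; exact hu'
    have := (himg w hw).2 _ hx
    rwa [E.act_act_inv] at this
  · exact (hN γ f W fun w hw => ⟨(hW w hw).1.1, (hW w hw).2 ▸ (himg w (hW w hw).1).1⟩).trans hM

end Vale.Agent.P165.HY.Env
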