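import Vale.Agent.P165.HY.Codes
import Vale.Agent.P165.TR.Tail

/-!
# The tail in the abstract setting

The points of a thin family fall into classes, each point opens a frame, and the images of its chain
targets, tagged by the class, fall into boundedly many separated families. Insertion turns a large
count in one class into many such targets.
-/

namespace Vale.Agent.P165.HY.Core

open Finset FF
open Vale.Agent.P165.FP (hit hit_nonneg hit_mono hit_move hit_map sum_le_rpow)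
open Vale.Agent.P165.FQ (hitN HitN Within tauW hitN_nonneg hitN_mono hitN_map hitN_move hitN_le_hit
  within_mono count_le_levels sum_rpow_add_le log_steps_le)
open Vale.Agent.P165.TR (rpow_weights insertion_union_weight)

variable {Γ O ι V : Type} [Group Γ] [Fintype ι] (E : Core Γ V O ι) [DecidableEq V]

open Classical in
/-- The code bound seen from a point linked to a translate of the anchor. -/
theorem bound_at {p θ : ℝ} (h0 : 0 < p) (h1 : p ≤ 1) (hθ : 0 < θ) (hB : E.Bound p θ) {ψ : Γ}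
    {ℓ : ℕ} {z : V} (hj : Link E.G (shift E.Φ ψ E.ok) ℓ z (E.Φ ψ E.a₁)) (R : Finset V)
    (hR : ∀ v ∈ R, v ∈ shift E.Φ ψ E.ok) (F : Finset E.Tgt) (hF : E.Apart F)
    (hF' : ∀ f ∈ F, E.Strict f) :
    ∑ f ∈ F, (p ^ ℓ * hit E.nb R p z (shift E.Φ ψ (E.cap f))) ^ θ ≤ E.N / E.c₁ p ^ θ := by
  obtain ⟨w, hw, hsupp⟩ := hj
  set U := R ∪ w.support.toFinset with hUdef
  set ρ := U.sup fun v => (E.conn.preconnected E.a₁ (E.Φ ψ⁻¹ v)).some.length
  have hU : U ⊆ (E.om ρ).image (E.Φ ψ) := by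
    intro v hv
    refine mem_image.2 ⟨E.Φ ψ⁻¹ v, E.mem_om.2 ⟨E.mem_ball.2
      ⟨(E.conn.preconnected E.a₁ (E.Φ ψ⁻¹ v)).some,
        le_sup (f := fun v => (E.conn.preconnected E.a₁ (E.Φ ψ⁻¹ v)).some.length) hv⟩, ?_⟩,
      E.Φ_Φ_inv ψ v⟩
    rcases mem_union.1 hv with h | h
    · exact hR v h
    · exact hsupp v (List.mem_toFinset.1 h)
  have h := hB ρ F hF hF'
  rw [mul_comm, ← le_div_iff₀ (Real.rpow_pos_of_pos (E.c₁_pos h0) θ)] at h
  refine (sum_le_sum fun f _ => Real.rpow_le_rpow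
    (mul_nonneg (pow_nonneg h0.le _) (hit_nonneg _ h0.le h1 _ _)) ?_ hθ.le).trans h
  have e1 : E.Φ ψ ⁻¹' shift E.Φ ψ (E.cap f) = E.cap f := Set.ext fun v => E.mem_shift
  have h3 := hit_map E.hl (E.Φ ψ) (E.om ρ) p E.a₁ (shift E.Φ ψ (E.cap f))
  rw [e1] at h3
  rw [Psi, ← h3]
  refine le_trans ?_ (hit_mono E.hl hU Set.Subset.rfl h0.le h1 _)
  refine le_trans ?_ (hit_move E.hl h0.le h1 w.reverse (fun v hv => mem_union_right _ ?_) _)
  · rw [SimpleGraph.Walk.length_reverse]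
    exact mul_le_mul (pow_le_pow_of_le_one h0.le h1 hw)
      (hit_mono E.hl subset_union_left Set.Subset.rfl h0.le h1 _) (hit_nonneg _ h0.le h1 _ _)
      (pow_nonneg h0.le _)
  · rw [SimpleGraph.Walk.support_reverse, List.mem_reverse] at hv
    exact List.mem_toFinset.2 hv

variable [Fintype O]

theorem vol_mono {p : ℝ} (h0 : 0 ≤ p) (h1 : p ≤ 1) {K K' : ℕ} (h : K ≤ K') :
    E.vol p K ≤ E.vol p K' :=
  sum_le_sum fun _ _ => (sum_le_sum fun y _ => E.tau_mono h0 h1 h _ y).trans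
    (sum_le_sum_of_subset_of_nonneg (E.ball_mono _ h) fun _ _ _ => E.tau_nonneg h0 h1 _ _ _)

/-- Chains have a positive length. -/
theorem one_le_C {ps δ : ℝ} (D : E.Data ps δ) : 1 ≤ D.C := by
  by_contra hC
  have h := D.chain 1 le_rfl
  have hz : ∀ e ∈ D.W 1, E.PsiN (D.C * (Nat.log 2 1 + 1)) (D.C * (Nat.log 2 1 + 1)) ps e = 0 := by
    intro e he
    refine (avg_congr _ _ fun η _ => if_neg ?_).trans (by simp [avg])
    rintro ⟨v, hv, wk, hwk⟩
    obtain rfl : E.a₁ = v := SimpleGraph.Walk.eq_of_length_eq_zero (p := wk) (by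
      have : D.C = 0 := by omega
      rw [this, zero_mul] at hwk
      omega)
    exact (E.cap_ok e (D.mem 1 e he).1).2 hv
  rw [sum_eq_zero fun e he => by rw [hz e he, mul_zero, min_eq_left zero_le_one]] at h
  simp only [Nat.cast_one, Real.one_rpow, mul_one] at h
  linarith [D.κ_pos]

open Classical in
/-- Few classes carry many points. -/
theorem exists_level {ps δ : ℝ} (h0 : 0 < ps) (h1 : ps ≤ 1) (hδ : 0 < δ) (hδ1 : δ ≤ 1)
    (D : E.Data ps δ) :
    ∃ A : ℝ, 0 ≤ A ∧ ∀ (ψ : Γ) (ℓ : ℕ) (z : V),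
      Link E.G (shift E.Φ ψ E.ok) ℓ z (E.Φ ψ E.a₁) →
      ∀ (S Y : Finset V), (∀ v ∈ S, v ∈ shift E.Φ ψ E.ok) → E.Thin ψ (Y : Set V) →
      ∃ cls : V → V, ∀ K L : ℕ, 1 ≤ L → ∑ x ∈ Y.image cls,
        (ps ^ ℓ * avg (inE E.nb S) ps fun η => ind (L ≤ ((Y.filter fun y =>
          cls y = x).filter (Within z K η)).card)) ^ D.θ'
        ≤ A * (L : ℝ) ^ (3 * δ - D.θ) := by
  have hθ' : 0 < D.θ' := D.θ_pos.trans_le D.θ_le
  have hC := E.one_le_C D
  set J : ℝ := (2 : ℝ) ^ E.blk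
  have hJ : 1 ≤ J := one_le_pow₀ one_le_two
  set cl : ℝ := 1 + (1 - ps) / ps * (D.C * (1 / (δ * Real.log 2) + 1))
  have hps' : 0 ≤ (1 - ps) / ps := div_nonneg (by linarith) h0.le
  have hl2 : (0 : ℝ) < Real.log 2 := Real.log_pos one_lt_two
  have hcl : 1 ≤ cl := le_add_of_nonneg_right (by positivity)
  have hN : 0 ≤ (E.N : ℝ) := Nat.cast_nonneg _
  have hc₁ := E.c₁_pos h0
  have hpb : 0 < ps ^ E.blk := pow_pos h0 _
  have hpb1 : ps ^ E.blk ≤ 1 := pow_le_one₀ h0.le h1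
  set H : ℝ := E.N / E.c₁ ps ^ D.θ'
  have hH : 0 ≤ H := div_nonneg hN (Real.rpow_nonneg hc₁.le _)
  set κ' : ℝ := D.κ * ps ^ E.blk / E.N
  have hN' : 0 < (E.N : ℝ) := Nat.cast_pos.2 E.one_le_N
  have hκ' : 0 < κ' := div_pos (mul_pos D.κ_pos hpb) hN'
  refine ⟨(1 + D.S) * cl * (J * J) * (E.N * H) / κ', by have := D.S_nonneg; positivity,
    fun ψ ℓ z hj S Y hS hY => ?_⟩
  obtain ⟨cls, hcls⟩ := E.spread ψ Y hY
  refine ⟨cls, fun K L hL => ?_⟩
  obtain ⟨γ, img, hper, hcol⟩ := hcls (D.l L)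
  set n := D.C * (Nat.log 2 L + 1) with hn
  set L' := L * 2 ^ E.blk with hL'def
  have hL' : 1 ≤ L' := Nat.mul_pos hL (Nat.two_pow_pos _)
  set n' := D.C * (Nat.log 2 L' + 1) with hn'def
  have hnn : n + E.blk ≤ n' := by
    have h2 : Nat.log 2 L + E.blk ≤ Nat.log 2 L' := Nat.le_log_of_pow_le one_lt_two (by
      rw [pow_add, hL'def]
      exact Nat.mul_le_mul (Nat.pow_log_le_self 2 (by omega)) le_rfl)
    have h3 := Nat.mul_le_mul (le_refl D.C) h2
    have h4 := Nat.mul_le_mul hC (le_refl E.blk)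
    rw [hn, hn'def]
    simp only [Nat.mul_add, Nat.mul_one] at h3 ⊢
    omega
  have hLr : (1 : ℝ) ≤ L := by exact_mod_cast hL
  have hLδ : 1 ≤ (L : ℝ) ^ δ := Real.one_le_rpow hLr hδ.le
  set R := S ∪ (Y ∪ Y.biUnion fun y => (E.om n).image (E.Φ (γ y)) ∪
    (E.ball y E.blk).filter (fun v => v ∈ shift E.Φ ψ E.ok)) with hRdef
  have hR : ∀ v ∈ R, v ∈ shift E.Φ ψ E.ok := by
    intro v hv
    rcases mem_union.1 hv with hv | hv
    · exact hS v hv
    rcases mem_union.1 hv with hv | hv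
    · exact E.ok₁_sub (E.thin_ok hY (mem_coe.2 hv))
    · obtain ⟨y, hy, hv⟩ := mem_biUnion.1 hv
      rcases mem_union.1 hv with hv | hv
      · obtain ⟨u, hu, rfl⟩ := mem_image.1 hv
        exact (hper y hy).2.1 (E.mem_shift.2 (E.mem_om.1 hu).2)
      · exact (mem_filter.1 hv).2
  set DS := inE E.nb S
  set ES := inE E.nb R
  have hD : DS ⊆ ES := inE_mono E.hl subset_union_left
  let fib : V → Finset V := fun x => Y.filter fun y => cls y = x
  let tgt : V → Finset E.Tgt := fun y => (D.W L).image (img y)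
  let T : V → Finset E.Tgt := fun x => (fib x).biUnion tgt
  let hf : V → E.Tgt → ℝ := fun y f => hitN E.nb R ps y (shift E.Φ ψ (E.cap f)) n'
  have hf0 : ∀ y f, 0 ≤ hf y f := fun y f => hitN_nonneg _ h0.le h1 _ _ _
  -- a chain target seen from a point of the family
  have hstep : ∀ y ∈ Y, ∀ w ∈ D.W L, ps ^ E.blk * E.PsiN n n ps w ≤ hf y (img y w) := by
    intro y hy w hw
    obtain ⟨⟨wk, hwk, hs⟩, -, hw', -⟩ := hper y hy
    obtain ⟨hst, hlv, -⟩ := D.mem L w hw
    obtain ⟨-, hsub⟩ := hw' w hst hlv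
    have hsup : ∀ v ∈ wk.support, v ∈ R := fun v hv =>
      mem_union_right _ (mem_union_right _ (mem_biUnion.2 ⟨y, hy, mem_union_right _
        (mem_filter.2 ⟨E.mem_ball.2
          ⟨wk.takeUntil v hv, (wk.length_takeUntil_le_length hv).trans hwk⟩, hs v hv⟩)⟩))
    have h2 : E.PsiN n n ps w ≤
        hitN E.nb R ps (E.Φ (γ y) E.a₁) (shift E.Φ ψ (E.cap (img y w))) n := by
      refine le_trans (le_of_eq ?_) (hitN_mono E.hl (S := (E.om n).image (E.Φ (γ y)))
        (fun v hv => mem_union_right _ (mem_union_right _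
          (mem_biUnion.2 ⟨y, hy, mem_union_left _ hv⟩)))
        (T := E.Φ (γ y) '' E.cap w) ?_ le_rfl h0.le h1 _)
      · rw [hitN_map E.hl (E.Φ (γ y)), Set.preimage_image_eq _ (E.Φ (γ y)).injective]
        rfl
      · rintro _ ⟨u, hu, rfl⟩
        have h3 := hsub ((E.mem_shift (γ := ψ⁻¹ * γ y)).2 hu)
        rwa [E.Φ_mul] at h3
    refine (mul_le_mul (pow_le_pow_of_le_one h0.le h1 hwk) h2 (hitN_nonneg _ h0.le h1 _ _ _)
      (pow_nonneg h0.le _)).trans ((hitN_move E.hl h0.le h1 wk hsup _ n).trans ?_)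
    exact hitN_mono E.hl Subset.rfl Set.Subset.rfl (by omega) h0.le h1 y
  -- the images carry a share of the chain
  have hchain : ∀ y ∈ Y,
      κ' * (L : ℝ) ^ (D.θ - δ) ≤ ∑ f ∈ tgt y, min ((L : ℝ) * hf y f) 1 := by
    intro y hy
    have h := D.chain L hL
    rw [← sum_fiberwise_of_maps_to (g := img y) (t := tgt y) fun w hw => mem_image_of_mem _ hw] at h
    rw [show κ' * (L : ℝ) ^ (D.θ - δ) = D.κ * (L : ℝ) ^ (D.θ - δ) / (E.N / ps ^ E.blk) by
      simp only [κ']; field_simp, div_le_iff₀' (div_pos hN' hpb)]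
    refine h.trans ?_
    rw [mul_sum]
    refine sum_le_sum fun f _ => ?_
    refine (sum_le_card_nsmul _ _ (min ((L : ℝ) * hf y f) 1 / ps ^ E.blk) fun w hw => ?_).trans ?_
    · obtain ⟨hw1, rfl⟩ := mem_filter.1 hw
      rw [le_div_iff₀ hpb, min_mul_of_nonneg _ _ hpb.le, one_mul]
      refine min_le_min ?_ hpb1
      rw [mul_assoc, mul_comm _ (ps ^ E.blk)]
      exact mul_le_mul_of_nonneg_left (hstep y hy w hw1) (Nat.cast_nonneg _)
    · rw [nsmul_eq_mul, ← mul_div_assoc, div_mul_eq_mul_div]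
      refine div_le_div_of_nonneg_right (mul_le_mul_of_nonneg_right ?_
        (le_min (mul_nonneg (Nat.cast_nonneg _) (hf0 y f)) zero_le_one)) hpb.le
      exact Nat.cast_le.2 ((hper y hy).2.2.2 f _ fun w hw => by
        obtain ⟨hw1, hw2⟩ := mem_filter.1 hw
        exact ⟨(D.mem L w hw1).1, (D.mem L w hw1).2.1, hw2⟩)
  let β : E.Tgt → V → ℝ := fun f y =>
    if f ∈ tgt y then min ((L : ℝ) * hf y f) 1 / L else 0
  have hβ0 : ∀ f y, 0 ≤ β f y := by
    intro f y
    simp only [β]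
    split_ifs
    · exact div_nonneg (le_min (mul_nonneg (Nat.cast_nonneg _) (hf0 y f)) zero_le_one)
        (Nat.cast_nonneg _)
    · exact le_rfl
  have hβhit : ∀ f y, β f y ≤ hf y f := by
    intro f y
    simp only [β]
    split_ifs
    · rw [div_le_iff₀' (by linarith)]
      exact min_le_left _ _
    · exact hf0 y f
  have hβL : ∀ f y, β f y ≤ 1 / L := by
    intro f y
    simp only [β]
    split_ifs
    · exact div_le_div_of_nonneg_right (min_le_right _ _) (Nat.cast_nonneg _)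
    · positivity
  -- the cost of the insertion
  set Λ : ℝ := (1 + ((n' : ℝ) + 1) * E.vol ps n') * (1 + (1 - ps) / ps * n')
  have hM : 0 ≤ ((n' : ℝ) + 1) * E.vol ps n' :=
    mul_nonneg (by positivity) (E.vol_nonneg h0.le h1 n')
  have hn' : 0 ≤ (1 - ps) / ps * (n' : ℝ) := by positivity
  have hΛ1 : 1 ≤ Λ := by nlinarith
  have hL'δ : (L' : ℝ) ^ δ ≤ J * (L : ℝ) ^ δ := by
    rw [hL'def, Nat.cast_mul, Nat.cast_pow, Nat.cast_ofNat,
      Real.mul_rpow (Nat.cast_nonneg _) (zero_le_one.trans hJ), mul_comm]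
    exact mul_le_mul_of_nonneg_right
      ((Real.rpow_le_rpow_of_exponent_le hJ hδ1).trans_eq (Real.rpow_one _)) (by positivity)
  have hΛle : Λ ≤ (1 + D.S) * cl * (J * J) * ((L : ℝ) ^ δ * (L : ℝ) ^ δ) := by
    have hs := D.short L' hL'
    have hlog := mul_le_mul_of_nonneg_left (log_steps_le D.C hL' hδ) hps'
    have hJL : 1 ≤ J * (L : ℝ) ^ δ := one_le_mul_of_one_le_of_one_le hJ hLδ
    calc Λ ≤ ((1 + D.S) * (J * (L : ℝ) ^ δ)) * (cl * (J * (L : ℝ) ^ δ)) := by
          refine mul_le_mul ?_ ?_ (by positivity) (mul_nonneg (by linarith [D.S_nonneg])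
            (by linarith))
          · have := mul_le_mul_of_nonneg_left hL'δ D.S_nonneg
            rw [← hn'def] at hs
            nlinarith
          · have := mul_le_mul_of_nonneg_left hL'δ
              (show 0 ≤ (1 - ps) / ps * (D.C * (1 / (δ * Real.log 2) + 1)) by positivity)
            rw [← hn'def] at hlog
            simp only [cl]
            nlinarith
      _ = _ := by ring
  have hlev : ∀ x ∈ Y.image cls, κ' * (L : ℝ) ^ (D.θ - δ) *
      (ps ^ ℓ * avg DS ps fun η => ind (L ≤ ((fib x).filter (Within z K η)).card)) ^ D.θ'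
      ≤ Λ * ∑ f ∈ T x, (ps ^ ℓ * hit E.nb R ps z (shift E.Φ ψ (E.cap f))) ^ D.θ' := by
    intro x _
    let A : Finset (Sym2 V) → Prop := fun η =>
      L ≤ ((fib x).filter (Within z K (η ∩ DS))).card
    let seeds : Finset (Sym2 V) → Finset V := fun η =>
      if h : A η then (exists_subset_card_eq h).choose else ∅
    have hseeds : ∀ η, A η → seeds η ⊆ (fib x).filter (Within z K (η ∩ DS)) ∧
        (seeds η).card = L := fun η h => by
      simp only [seeds, dif_pos h]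
      exact (exists_subset_card_eq h).choose_spec
    have hsum1 : ∀ f η, A η → ∑ y ∈ seeds η, β f y ≤ 1 := fun f η h => by
      refine (sum_le_sum fun y _ => hβL f y).trans ?_
      rw [sum_const, (hseeds η h).2, nsmul_eq_mul, mul_one_div,
        div_self (show (L : ℝ) ≠ 0 by linarith)]
    set P := avg ES ps fun η => ind (A η) with hPdef
    set Q : E.Tgt → ℝ := fun f =>
      avg ES ps fun η => ind (A η) * ∑ y ∈ seeds η, β f y with hQdef
    have hP : avg DS ps (fun η => ind (L ≤ ((fib x).filter (Within z K η)).card)) = P := by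
      have h := avg_split hD ps (fun η => ind (L ≤ ((fib x).filter (Within z K η)).card))
        fun _ => (1 : ℝ)
      simp only [mul_one, avg_one] at h
      exact h.symm
    have hQ0 : ∀ f, 0 ≤ Q f := fun f => avg_nonneg _ h0.le h1 fun η _ =>
      mul_nonneg (ind_nonneg _) (sum_nonneg fun y _ => hβ0 _ y)
    have hQP : ∀ f, Q f ≤ P := fun f => avg_mono _ h0.le h1 fun η _ => by
      by_cases h : A η
      · exact mul_le_of_le_one_right (ind_nonneg _) (hsum1 _ η h)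
      · rw [show ind (A η) = 0 from if_neg h, zero_mul]
    have hQH : ∀ f, Q f ≤ Λ * hit E.nb R ps z (shift E.Φ ψ (E.cap f)) := fun f => by
      have hins := insertion_union_weight hD h0 h1 z (shift E.Φ ψ (E.cap f)) K n' (fib x)
        (β := β f) (B := E.vol ps n') (fun y _ => hβ0 _ y) (E.vol_nonneg h0.le h1 n')
        (fun y _ => hβhit f y)
        (fun u => (sum_le_sum fun y _ => E.tauW_le_tau h0.le h1 R n' u y).trans
          (E.sum_tau_le_vol h0.le h1 _ n' u))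
        A
        (fun η η' h hA => hA.trans (card_le_card fun y hy => mem_filter.2 ⟨(mem_filter.1 hy).1,
          within_mono le_rfl (inter_subset_inter h le_rfl) (mem_filter.1 hy).2⟩))
        (fun η η' _ _ hag hA => hA.trans (card_le_card fun y hy => mem_filter.2
          ⟨(mem_filter.1 hy).1, (hag K le_rfl y).2 (mem_filter.1 hy).2⟩))
        seeds (fun η _ h y hy => mem_filter.1 ((hseeds η h).1 hy)) fun η _ h => hsum1 _ η h
      refine hins.trans (mul_le_mul_of_nonneg_left ?_ (by linarith))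
      exact (avg_mono _ h0.le h1 fun η _ => ind_mono fun h => h.2).trans
        (hitN_le_hit E.nb R h0.le h1 z _ _)
    have hPQ : κ' * (L : ℝ) ^ (D.θ - δ) * P ≤ ∑ f ∈ T x, Q f := by
      simp only [hQdef, ← avg_sum]
      rw [← avg_mul]
      refine avg_mono _ h0.le h1 fun η _ => ?_
      simp only [← mul_sum]
      by_cases h : A η
      swap
      · simp [ind, h]
      rw [show ind (A η) = 1 from if_pos h, mul_one, one_mul, sum_comm]
      refine le_trans (le_of_eq ?_) (sum_le_sum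
        (f := fun _ => κ' * (L : ℝ) ^ (D.θ - δ) / L) fun y hy => ?_)
      · rw [sum_const, (hseeds η h).2, nsmul_eq_mul,
          mul_div_cancel₀ _ (show (L : ℝ) ≠ 0 by linarith)]
      have hyf := (mem_filter.1 ((hseeds η h).1 hy)).1
      refine le_trans ?_ (sum_le_sum_of_subset_of_nonneg (s := tgt y)
        (fun f hf => mem_biUnion.2 ⟨y, hyf, hf⟩) fun f _ _ => hβ0 f y)
      rw [sum_congr rfl (g := fun f : E.Tgt => min ((L : ℝ) * hf y f) 1 / L)
        fun f hf => if_pos hf, ← sum_div]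
      exact div_le_div_of_nonneg_right (hchain y (mem_filter.1 hyf).1) (Nat.cast_nonneg _)
    have hpℓ : 0 ≤ ps ^ ℓ := pow_nonneg h0.le _
    have key := rpow_weights (T x)
      (fun f => ps ^ ℓ * Q f) (fun f => ps ^ ℓ * hit E.nb R ps z (shift E.Φ ψ (E.cap f))) (Λ := Λ)
      (c := κ' * (L : ℝ) ^ (D.θ - δ)) (P := ps ^ ℓ * P) hθ' D.θ'_le_one hΛ1
      (mul_nonneg hpℓ (avg_nonneg _ h0.le h1 fun _ _ => ind_nonneg _))
      (fun f _ => mul_nonneg hpℓ (hQ0 f)) (fun f _ => mul_le_mul_of_nonneg_left (hQP f) hpℓ)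
      (fun f _ => mul_nonneg hpℓ (hit_nonneg _ h0.le h1 _ _))
      (fun f _ => (mul_le_mul_of_nonneg_left (hQH f) hpℓ).trans_eq (mul_left_comm _ _ _))
      (by rw [← mul_sum, mul_left_comm]; exact mul_le_mul_of_nonneg_left hPQ hpℓ)
    rw [hP]
    exact key
  -- the images fall into boundedly many separated families
  have hfam : ∑ x ∈ Y.image cls, ∑ f ∈ T x,
      (ps ^ ℓ * hit E.nb R ps z (shift E.Φ ψ (E.cap f))) ^ D.θ' ≤ E.N * H := by
    set P : Finset (V × E.Tgt) := (Y.image cls).biUnion fun x => (T x).image fun f => (x, f)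
    have hP : ∀ q ∈ P, ∃ y ∈ Y, cls y = q.1 ∧ ∃ w, E.Strict w ∧ E.lev w = D.l L ∧
        (E.cap w).Nonempty ∧ q.2 = img y w := by
      intro q hq
      obtain ⟨x, -, hq⟩ := mem_biUnion.1 hq
      obtain ⟨f, hf, rfl⟩ := mem_image.1 hq
      obtain ⟨y, hy, hfy⟩ := mem_biUnion.1 hf
      obtain ⟨w, hw, rfl⟩ := mem_image.1 hfy
      obtain ⟨a, b, c⟩ := D.mem L w hw
      exact ⟨y, (mem_filter.1 hy).1, (mem_filter.1 hy).2, w, a, b, c, rfl⟩
    obtain ⟨col, hcol⟩ := hcol P hP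
    rw [show ∑ x ∈ Y.image cls, ∑ f ∈ T x,
        (ps ^ ℓ * hit E.nb R ps z (shift E.Φ ψ (E.cap f))) ^ D.θ' =
        ∑ q ∈ P, (ps ^ ℓ * hit E.nb R ps z (shift E.Φ ψ (E.cap q.2))) ^ D.θ' by
      rw [sum_biUnion fun x _ x' _ hne => disjoint_left.2 fun a ha hb => hne (by
        obtain ⟨f, -, rfl⟩ := mem_image.1 ha
        obtain ⟨g, -, he⟩ := mem_image.1 hb
        exact (congrArg Prod.fst he).symm)]
      exact sum_congr rfl fun x _ => by
        rw [sum_image fun f _ g _ (h : (x, f) = (x, g)) => (Prod.ext_iff.1 h).2]]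
    rw [← sum_fiberwise P col]
    refine (sum_le_card_nsmul _ _ H fun k _ => ?_).trans_eq
      (by rw [card_univ, Fintype.card_fin, nsmul_eq_mul])
    have hst : ∀ q ∈ P, E.Strict q.2 ∧ (E.hull q.2).Nonempty := fun q hq => by
      obtain ⟨y, hy, -, w, hw, hl, ⟨u, hu⟩, e⟩ := hP q hq
      obtain ⟨hs, hsub⟩ := (hper y hy).2.2.1 w hw hl
      rw [e]
      exact ⟨hs, _, E.cap_hull _ (hsub ((E.mem_shift (γ := ψ⁻¹ * γ y)).2 hu))⟩
    have hinj : Set.InjOn Prod.snd ((P.filter fun q => col q = k : Finset _) : Set (V × E.Tgt)) :=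
      fun q hq q' hq' e => by
        obtain ⟨hqP, rfl⟩ := mem_filter.1 (mem_coe.1 hq)
        obtain ⟨hq', hc⟩ := mem_filter.1 (mem_coe.1 hq')
        by_contra hne
        have h := hcol q hqP q' hq' hne hc.symm
        rw [e] at h
        exact (hst q' hq').2.ne_empty (disjoint_self.1 h)
    rw [← sum_image (g := Prod.snd)
      (f := fun f => (ps ^ ℓ * hit E.nb R ps z (shift E.Φ ψ (E.cap f))) ^ D.θ') hinj]
    refine E.bound_at h0 h1 hθ' D.bound hj R hR _ ?_ ?_
    · intro f hf f' hf' hne'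
      obtain ⟨q, hq, rfl⟩ := mem_image.1 (mem_coe.1 hf)
      obtain ⟨q', hq', rfl⟩ := mem_image.1 (mem_coe.1 hf')
      obtain ⟨hqP, rfl⟩ := mem_filter.1 hq
      obtain ⟨hq', hc⟩ := mem_filter.1 hq'
      exact hcol q hqP q' hq' (fun h => hne' (h ▸ rfl)) hc.symm
    · intro f hf
      obtain ⟨q, hq, rfl⟩ := mem_image.1 hf
      exact (hst q (mem_filter.1 hq).1).1
  have hall := sum_le_sum hlev
  rw [← mul_sum, ← mul_sum] at hall
  have h2 := hall.trans (mul_le_mul hΛle hfam (sum_nonneg fun x _ =>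
    sum_nonneg fun f _ => Real.rpow_nonneg (mul_nonneg (pow_nonneg h0.le _)
      (hit_nonneg _ h0.le h1 _ _)) _) ((zero_le_one.trans hΛ1).trans hΛle))
  rw [← le_div_iff₀' (mul_pos hκ' (Real.rpow_pos_of_pos (by linarith) _))] at h2
  refine h2.trans (le_of_eq ?_)
  rw [show 3 * δ - D.θ = δ + δ - (D.θ - δ) by ring, Real.rpow_sub (by linarith) (δ + δ),
    Real.rpow_add (by linarith) δ]
  field_simp

open Classical in
/-- Step 3: the tail. -/
theorem tails {ps : ℝ} (h0 : 0 < ps) (h1 : ps ≤ 1) (hD : E.DataExists ps) : E.Tails ps := by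
  intro ε hε
  obtain ⟨θ₀', hθ₀', hD⟩ := hD
  set θ₀ := min θ₀' 1
  have hθ₀ : 0 < θ₀ := lt_min hθ₀' one_pos
  have hθ₁ : θ₀ ≤ 1 := min_le_right _ _
  set δ := min ε 1 * θ₀ / 40
  have hδ : 0 < δ := by have := lt_min hε one_pos; positivity
  have hδ1 : δ < 1 / 2 := by
    have : min ε 1 * θ₀ ≤ 1 * 1 := mul_le_mul (min_le_right _ _) hθ₁ hθ₀.le zero_le_one
    simp only [δ]; linarith
  obtain ⟨D, hDθ⟩ := hD δ hδ hδ1
  have hθ' : 0 < D.θ' := D.θ_pos.trans_le D.θ_le
  have hθθ' : θ₀ ≤ D.θ' := ((min_le_left _ _).trans hDθ).trans D.θ_le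
  obtain ⟨A, hA0, hA⟩ := E.exists_level h0 h1 hδ (by linarith) D
  set η := 4 * δ / θ₀ with hη
  have hη0 : 0 ≤ η := by positivity
  set A' := A ^ (1 / D.θ') * (1 + 1 / δ)
  have hA' : 0 ≤ A' := mul_nonneg (Real.rpow_nonneg hA0 _) (by positivity)
  refine ⟨A' * (2 : ℝ) ^ (η + δ) + 1, by positivity, fun K ψ ℓ z hj S Y hS hY => ?_⟩
  obtain ⟨cls, hA⟩ := hA ψ ℓ z hj S Y hS hY
  set Vv := E.vol ps K + 1
  have hV : 1 ≤ Vv := le_add_of_nonneg_left (E.vol_nonneg h0.le h1 K)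
  set N := ⌈Vv ^ 3⌉₊
  have hV3 : (1 : ℝ) ≤ Vv ^ 3 := one_le_pow₀ hV
  have hN : 1 ≤ N := Nat.one_le_ceil_iff.2 (by linarith)
  have hup : (N : ℝ) ≤ 2 * Vv ^ 3 := by
    have := Nat.ceil_lt_add_one (show 0 ≤ Vv ^ 3 by linarith)
    linarith
  have hpl : 0 ≤ ps ^ ℓ := pow_nonneg h0.le _
  set DS := inE E.nb S
  let cnt : V → Finset (Sym2 V) → ℕ := fun x ξ =>
    ((Y.filter fun y => cls y = x).filter (Within z K ξ)).card
  -- one level
  have hlev : ∀ j : ℕ, ∑ x ∈ Y.image cls, ps ^ ℓ * avg DS ps (fun ξ => ind (j + 1 ≤ cnt x ξ))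
      ≤ A ^ (1 / D.θ') * ((j : ℝ) + 1) ^ (η - 1) := by
    intro j
    have h := sum_le_rpow _ hθ' D.θ'_le_one
      (fun x _ => mul_nonneg hpl (avg_nonneg _ h0.le h1 fun _ _ => ind_nonneg _))
      (hA K (j + 1) (Nat.succ_pos j))
    refine h.trans ?_
    rw [Real.mul_rpow hA0 (Real.rpow_nonneg (Nat.cast_nonneg _) _),
      ← Real.rpow_mul (Nat.cast_nonneg _)]
    refine mul_le_mul_of_nonneg_left ?_ (Real.rpow_nonneg hA0 _)
    push_cast
    refine Real.rpow_le_rpow_of_exponent_le (by linarith [(Nat.cast_nonneg j : (0 : ℝ) ≤ j)]) ?_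
    rw [mul_one_div, div_le_iff₀ hθ', hη, sub_mul, div_mul_eq_mul_div, one_mul]
    have h4 : 4 * δ ≤ 4 * δ * D.θ' / θ₀ := by
      rw [le_div_iff₀ hθ₀]
      exact mul_le_mul_of_nonneg_left hθθ' (by positivity)
    have h5 := D.ratio
    nlinarith [D.θ'_le_one]
  have hpt : ∀ ξ, ∑ y ∈ Y, ind (Within z K ξ y) ≤
      (∑ x ∈ Y.image cls, ∑ j ∈ range N, ind (j + 1 ≤ cnt x ξ))
        + ((Y.filter (Within z K ξ)).card : ℝ) ^ 2 / N := by
    intro ξ
    have hsum : ∑ x ∈ Y.image cls, cnt x ξ = (Y.filter (Within z K ξ)).card := by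
      rw [card_eq_sum_card_fiberwise (t := Y.image cls) (f := cls)
        fun y hy => mem_image_of_mem _ (mem_filter.1 hy).1]
      exact sum_congr rfl fun x _ => congrArg card (filter_comm _ _ _)
    have e : ∑ y ∈ Y, ind (Within z K ξ y) = ((Y.filter (Within z K ξ)).card : ℝ) := by
      simp only [ind, sum_boole]
    rw [e, ← hsum, Nat.cast_sum]
    refine (sum_le_sum fun x _ => count_le_levels (cnt x ξ) N hN).trans ?_
    rw [sum_add_distrib, ← sum_div]
    exact add_le_add le_rfl (div_le_div_of_nonneg_right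
      (sum_sq_le_sq_sum_of_nonneg fun x _ => Nat.cast_nonneg _) (Nat.cast_nonneg N))
  have hmom : avg DS ps (fun ξ => ((Y.filter (Within z K ξ)).card : ℝ) ^ 2) ≤ Vv ^ 3 :=
    (FQ.second_moment S Y h0.le h1 z K fun u F =>
      (sum_le_sum fun y _ => E.tauW_le_tau h0.le h1 S K u y).trans
        (E.sum_tau_le_vol h0.le h1 F K u)).trans
      (pow_le_pow_left₀ (E.vol_nonneg h0.le h1 K) (le_add_of_nonneg_right zero_le_one) 3)
  have hVe : (N : ℝ) ^ (η + δ) ≤ (2 : ℝ) ^ (η + δ) * Vv ^ ε := by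
    refine (Real.rpow_le_rpow (Nat.cast_nonneg N) hup (by linarith)).trans ?_
    rw [Real.mul_rpow (by norm_num) (by linarith), ← Real.rpow_natCast Vv 3,
      ← Real.rpow_mul (by linarith)]
    refine mul_le_mul_of_nonneg_left (Real.rpow_le_rpow_of_exponent_le hV ?_) (by positivity)
    have h6 : δ / θ₀ = min ε 1 / 40 := by simp only [δ]; field_simp
    have h7 : δ ≤ δ / θ₀ := le_div_self hδ.le hθ₀ hθ₁
    have h8 : η = 4 * (δ / θ₀) := by rw [hη]; ring
    push_cast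
    linarith [min_le_left ε 1]
  calc ps ^ ℓ * ∑ y ∈ Y, tauW E.nb S ps z y K
      = ps ^ ℓ * avg DS ps (fun ξ => ∑ y ∈ Y, ind (Within z K ξ y)) := by
        rw [avg_sum]; rfl
    _ ≤ ps ^ ℓ * avg DS ps (fun ξ => (∑ x ∈ Y.image cls, ∑ j ∈ range N, ind (j + 1 ≤ cnt x ξ))
          + ((Y.filter (Within z K ξ)).card : ℝ) ^ 2 / N) :=
        mul_le_mul_of_nonneg_left (avg_mono _ h0.le h1 fun ξ _ => hpt ξ) hpl
    _ = (∑ j ∈ range N, ∑ x ∈ Y.image cls, ps ^ ℓ * avg DS ps fun ξ => ind (j + 1 ≤ cnt x ξ))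
          + ps ^ ℓ * (avg DS ps (fun ξ => ((Y.filter (Within z K ξ)).card : ℝ) ^ 2) / N) := by
        rw [avg_add, mul_add]
        congr 1
        · rw [avg_sum, mul_sum, sum_comm]
          simp only [avg_sum, mul_sum]
        · simp only [avg, sum_div, mul_div_assoc]
    _ ≤ A' * ((2 : ℝ) ^ (η + δ) * Vv ^ ε) + 1 := by
        refine add_le_add ((sum_le_sum fun j _ => hlev j).trans ?_) ?_
        · rw [← mul_sum]
          refine le_trans (mul_le_mul_of_nonneg_left (sum_rpow_add_le N hN hη0 hδ)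
            (Real.rpow_nonneg hA0 _)) ?_
          rw [← mul_assoc]
          exact mul_le_mul_of_nonneg_left hVe hA'
        · refine mul_le_one₀ (pow_le_one₀ h0.le h1)
            (div_nonneg (avg_nonneg _ h0.le h1 fun _ _ => by positivity) (Nat.cast_nonneg _)) ?_
          rw [div_le_one (by exact_mod_cast hN)]
          exact hmom.trans (Nat.le_ceil _)
    _ ≤ (A' * (2 : ℝ) ^ (η + δ) + 1) * Vv ^ ε := by
        have : (1 : ℝ) ≤ Vv ^ ε := Real.one_le_rpow hV hε.le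
        nlinarith

end Vale.Agent.P165.HY.Core
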