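import Vale.Agent.P165.HY.Geo

/-!
# Targets of the hyperbolic setting

Elementary facts on the frames at a vertex, a centre of a net near every small point, the target that
contains the translate of a target, and the two goals that need no frame: few targets at a point and
many separated targets.
-/

namespace Vale.Agent.P165.HY.Env

open Finset

variable {Γ O ι V X : Type} [Group Γ] [PseudoMetricSpace X] [Fintype ι] (E : Env Γ O ι V X)

/-! ### Constants -/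

theorem a_pos : 0 < E.a := expo_pos _

theorem exp_sq_le : Real.exp (E.a * E.δ) ^ 2 ≤ 2 := by
  rw [← Real.exp_nat_mul, show (2 : ℝ) = Real.exp (Real.log 2) from (Real.exp_log two_pos).symm]
  refine Real.exp_le_exp.2 ?_
  have := two_expo_le E.δ
  push_cast
  simp only [a]
  linarith [this]

theorem a_mul : E.a * (E.δ + 1) = Real.log 2 / 2 := by
  rw [a, expo, max_eq_left E.δ_nonneg]
  have := E.δ_nonneg
  field_simp

theorem a_le : E.a ≤ Real.log 2 / 2 := by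
  have := E.a_mul
  nlinarith [E.a_pos, E.δ_nonneg]

theorem A_eq : E.A = 4 * Real.exp (E.a * (2 * E.Cf)) := rfl

theorem four_le_A' : 4 ≤ E.A := by
  rw [A]
  linarith [Real.one_le_exp (mul_nonneg E.a_pos.le (by linarith [E.one_le_Cf] : (0 : ℝ) ≤ 2 * E.Cf))]

theorem A_pos : 0 < E.A := by linarith [E.four_le_A']

theorem k₁_pos : 0 < E.k₁ := by linarith [E.hk₁, E.one_le_Cf, E.δ_nonneg]

theorem k₂_pos : 0 < E.k₂ := by linarith [E.hk₂, E.k₁_pos, E.one_le_Cf, E.δ_nonneg]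

theorem k₀_pos : 0 < E.k₀ := by linarith [E.hk₀, E.k₂_pos, E.one_le_Cf, E.δ_nonneg]

/-- The unit of the depths. -/
def unit : ℝ := E.k₀ + E.Cf + E.δ + 1

theorem kU_big : 100 * E.unit ≤ E.kU := E.hkU

theorem unit_pos : 0 < E.unit := by
  rw [unit]; linarith [E.k₀_pos, E.one_le_Cf, E.δ_nonneg]

/-- Exponentials of the depth are negligible. -/
theorem exp_small {L : ℝ} (h : 90 * E.unit ≤ L) : Real.exp (-E.a * L) ≤ 1 / 2 ^ 40 := by
  rw [show (1 : ℝ) / 2 ^ 40 = Real.exp (-(40 * Real.log 2)) by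
    rw [Real.exp_neg, show (40 : ℝ) = ((40 : ℕ) : ℝ) by norm_num, Real.exp_nat_mul,
      Real.exp_log two_pos, one_div]]
  refine Real.exp_le_exp.2 ?_
  have h2 : E.a * (90 * (E.δ + 1)) ≤ E.a * L := by
    refine mul_le_mul_of_nonneg_left (le_trans ?_ h) E.a_pos.le
    rw [unit]
    linarith [E.k₀_pos, E.one_le_Cf]
  have h3 := E.a_mul
  have h4 := Real.log_pos (one_lt_two : (1 : ℝ) < 2)
  nlinarith

theorem exp_le_shift {k L : ℝ} (h : k ≤ L) : Real.exp (-E.a * L) ≤ Real.exp (-E.a * k) :=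
  Real.exp_le_exp.2 (by nlinarith [E.a_pos])

/-! ### The action -/

theorem act_mul (γ δ : Γ) (x : X) : E.act (γ * δ) x = E.act γ (E.act δ x) := by
  rw [map_mul]; rfl

theorem act_one (x : X) : E.act 1 x = x := by rw [map_one]; rfl

theorem act_inv (γ : Γ) (x : X) : E.act γ⁻¹ (E.act γ x) = x := by
  rw [← E.act_mul, inv_mul_cancel, E.act_one]

theorem act_act_inv (γ : Γ) (x : X) : E.act γ (E.act γ⁻¹ x) = x := by
  rw [← E.act_mul, mul_inv_cancel, E.act_one]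

theorem gp_act (γ : Γ) (o x y : X) : gp (E.act γ o) (E.act γ x) (E.act γ y) = gp o x y :=
  gp_map (E.isom γ) o x y

theorem gp_pull (γ : Γ) (o x y : X) :
    gp (E.act γ o) x y = gp o (E.act γ⁻¹ x) (E.act γ⁻¹ y) := by
  conv_lhs => rw [← E.act_act_inv γ x, ← E.act_act_inv γ y]
  rw [E.gp_act]

theorem mem_B {k : ℝ} {ψ : Γ} {x : X} :
    x ∈ E.B k ψ ↔ k < gp (E.act ψ E.t₀) x (E.act ψ E.b) := Iff.rfl

theorem mem_B_one {k : ℝ} {x : X} : x ∈ E.B k 1 ↔ k < gp E.t₀ x E.b := by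
  rw [mem_B, E.act_one, E.act_one]

theorem pos_sec (v : V) : E.pos v = E.act (E.sec v) (E.pos (E.rep (E.typ v))) := by
  conv_lhs => rw [← E.sec_spec v]
  rw [E.pos_eq]

theorem dist_base (v : V) : dist (E.base v) (E.pos v) ≤ E.Cf := by
  rw [E.pos_sec v, base, E.isom]
  exact E.hrep _

/-- At a vertex some wide set avoids two given points. -/
theorem avoid_at (y : V) (u w : X) : ∃ i, ∀ q ∈ E.Ax i,
    gp (E.base y) (E.act (E.sec y) q) u ≤ E.Cf ∧ gp (E.base y) (E.act (E.sec y) q) w ≤ E.Cf := by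
  obtain ⟨i, hi⟩ := E.avoid (E.act (E.sec y)⁻¹ u) (E.act (E.sec y)⁻¹ w)
  refine ⟨i, fun q hq => ?_⟩
  rw [base, E.gp_pull, E.act_inv, E.gp_pull, E.act_inv]
  exact hi q hq

theorem dist_base_deep (y : V) {i : Fin 3} {q : X} (hq : q ∈ E.U i) :
    E.kU ≤ dist (E.base y) (E.act (E.sec y) q) := by
  rw [base, E.isom]; exact E.U_deep i q hq

/-- A frame maps the complement of the excluded set deep. -/
theorem frame_maps (y : V) (i : Fin 3) {x : X} (hx : x ∉ E.B E.k₀ 1) :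
    ∃ q ∈ E.U i, E.act (E.sec y * E.σ i) x = E.act (E.sec y) q :=
  ⟨E.act (E.σ i) x, E.σ_maps i x hx, E.act_mul _ _ _⟩

theorem t₀_notMem {k : ℝ} (hk : 0 ≤ k) : E.t₀ ∉ E.B k 1 := by
  rw [mem_B_one, gp, dist_self]
  linarith

/-- A point avoided at a vertex is pulled back into the excluded set. -/
theorem pull_avoided (y : V) (i : Fin 3) {u : X}
    (h : ∀ q ∈ E.Ax i, gp (E.base y) (E.act (E.sec y) q) u ≤ E.Cf) :
    E.k₀ < gp E.t₀ (E.act (E.sec y * E.σ i)⁻¹ u) E.b := by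
  rw [← mem_B_one]
  by_contra hn
  obtain ⟨q, hq, he⟩ := E.frame_maps y i hn
  rw [E.act_act_inv] at he
  have h1 := h q (E.U_sub i hq)
  rw [← he, gp_self] at h1
  have h2 := E.dist_base_deep y hq
  rw [← he] at h2
  have h3 := E.kU_big
  rw [unit] at h3
  linarith [E.k₀_pos, E.one_le_Cf, E.δ_nonneg]

/-- The path of a forward frame. -/
theorem frame_path (y : V) (i : Fin 3) : ∃ w : E.G.Walk y (E.Φ (E.sec y * E.σ i) E.a₁),
    w.length ≤ E.blk ∧ ∀ v ∈ w.support, ∃ q ∈ E.Ax i, E.pos v = E.act (E.sec y) q := by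
  obtain ⟨w, hw, hs⟩ := E.σ_path i (E.typ y)
  have e1 : E.Φ (E.sec y) (E.rep (E.typ y)) = y := E.sec_spec y
  have e2 : E.Φ (E.sec y) (E.Φ (E.σ i) E.a₁) = E.Φ (E.sec y * E.σ i) E.a₁ := by
    rw [map_mul]; rfl
  refine ⟨(w.map (E.Φ (E.sec y)).toHom).copy e1 e2, ?_, fun v hv => ?_⟩
  · erw [SimpleGraph.Walk.length_copy, SimpleGraph.Walk.length_map]; exact hw
  · erw [SimpleGraph.Walk.support_copy, SimpleGraph.Walk.support_map, List.mem_map] at hv
    obtain ⟨u, hu, rfl⟩ := hv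
    exact ⟨E.pos u, hs u hu, E.pos_eq _ _⟩

/-! ### Sublevel sets -/

theorem rad_pos' (j : ℕ) : 0 < rad j := pow_pos (by norm_num) j

theorem rad_succ (j : ℕ) : rad (j + 1) = rad j / 2 := by rw [rad, rad, pow_succ]; ring

theorem qk_le_max (o x y : X) :
    qk E.a o x y ≤ max (2 * rho E.a o x y) (qp E.a o x) := by
  by_cases h : x = y
  · subst h
    rw [qk_self]; exact le_max_right _ _
  · exact (qk_le_rho E.hyp E.a_pos.le E.exp_sq_le o h).trans (le_max_left _ _)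

theorem qp_le_of_centre {j : ℕ} {c : X} (h : c ∈ E.net j) :
    qp E.a E.t₀ c ≤ rad j / (2 * E.A) := (E.net_spec j).1 h

theorem centre_mem_cap {e : ℕ × X} (h : e.2 ∈ E.net e.1) : e.2 ∈ E.capX e := by
  show Sfun E.a E.A E.t₀ e.2 e.2 < 2 * rad e.1
  have h2 := mul_le_mul_of_nonneg_left (E.qp_le_of_centre h) E.A_pos.le
  have h3 : E.A * (rad e.1 / (2 * E.A)) = rad e.1 / 2 := by
    field_simp [E.A_pos.ne']
  rw [Sfun, rho_self]
  linarith [rad_pos' e.1]

theorem cap_sub_hull (e : ℕ × X) : E.capX e ⊆ E.hullX e := fun x hx => by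
  have hx : Sfun E.a E.A E.t₀ e.2 x < 2 * rad e.1 := hx
  show Sfun E.a E.A E.t₀ e.2 x < 4 * rad e.1
  linarith [rad_pos' e.1]

theorem lt_of_mem_hull {e : ℕ × X} {x : X} (h : x ∈ E.hullX e) :
    rho E.a E.t₀ x e.2 < 4 * rad e.1 ∧ E.A * qp E.a E.t₀ x < 4 * rad e.1 := by
  have h' : Sfun E.a E.A E.t₀ e.2 x < 4 * rad e.1 := h
  rw [Sfun] at h'
  have h1 := rho_nonneg (a := E.a) E.t₀ x e.2
  have h2 := mul_nonneg E.A_pos.le (qp_pos (a := E.a) E.t₀ x).le
  constructor <;> linarith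

/-- Every small point is near a centre. -/
theorem exists_centre {j : ℕ} {p : X} (hp : qp E.a E.t₀ p ≤ rad j / (2 * E.A)) :
    ∃ c ∈ E.net j, rho E.a E.t₀ p c < rad j := by
  obtain ⟨c, hc, h⟩ := (E.net_spec j).2.2 p hp
  refine ⟨c, hc, ?_⟩
  rcases h with rfl | h
  · rw [rho_self]; exact rad_pos' j
  · exact not_le.1 h

/-- Centres of one level near a point are few. -/
theorem exists_card_centres (M : ℝ) : ∃ N : ℕ, ∀ (j : ℕ) (x : X) (F : Finset X),
    (∀ c ∈ F, c ∈ E.net j ∧ rho E.a E.t₀ x c ≤ M * rad j) → F.card ≤ N := by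
  obtain ⟨N, hN⟩ := card_cap_le E.packing E.hyp E.a_pos E.exp_sq_le M
  refine ⟨N, fun j x F hF => hN E.t₀ x (rad j) (rad_pos' j) F
    (fun c hc => ⟨(E.qp_le_of_centre (hF c hc).1).trans ?_, (hF c hc).2⟩)
    fun c hc c' hc' hne => (E.net_spec j).2.1 (hF c hc).1 (hF c' hc').1 hne⟩
  have h : (1 : ℝ) / 2 ≤ Real.exp (-E.a) := by
    rw [show (1 : ℝ) / 2 = Real.exp (-Real.log 2) by
      rw [Real.exp_neg, Real.exp_log two_pos, one_div]]
    refine Real.exp_le_exp.2 ?_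
    linarith [E.a_le, Real.log_pos (one_lt_two : (1 : ℝ) < 2)]
  calc rad j / (2 * E.A) ≤ rad j * (1 / 2) := by
        rw [div_le_iff₀ (by linarith [E.A_pos])]
        nlinarith [E.four_le_A', rad_pos' j]
    _ ≤ _ := mul_le_mul_of_nonneg_left h (rad_pos' j).le

/-- A small point has a level whose radius is comparable with its size. -/
theorem exists_level {η : ℝ} (h0 : 0 < η) (h1 : η ≤ 1) : ∃ j, η ≤ rad j ∧ rad j < 2 * η := by
  obtain ⟨j, hj1, hj2⟩ := exists_nat_pow_near_of_lt_one h0 h1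
    (by norm_num : (0 : ℝ) < 1 / 2) (by norm_num : (1 : ℝ) / 2 < 1)
  refine ⟨j, hj2, ?_⟩
  have h : rad (j + 1) < η := hj1
  rw [rad_succ] at h
  linarith

/-! ### The translate of a target -/

/-- The bound on the products seen from the apex of a frame. -/
def kP : ℝ := E.k₂ + E.δ

/-- The size of the translate of a target. -/
noncomputable def size (γ : Γ) (w : ℕ × X) : ℝ :=
  4 * Real.exp (E.a * (2 * E.kP)) * qp E.a E.t₀ (E.act γ E.t₀) * rad w.1

/-- The target `e` is chosen for the translate of `w` by `γ`. -/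
def Snap (γ : Γ) (w e : ℕ × X) : Prop :=
  e.2 ∈ E.net e.1 ∧ E.size γ w ≤ rad e.1 ∧ rad e.1 < 2 * E.size γ w ∧
    rho E.a E.t₀ (E.act γ w.2) e.2 < rad e.1

theorem size_pos (γ : Γ) (w : ℕ × X) : 0 < E.size γ w :=
  mul_pos (mul_pos (by positivity) (qp_pos _ _)) (rad_pos' _)

/-- A point outside the shadow of level `k₂` is seen at a bounded product from the root. -/
theorem gp_apex_le {γ : Γ} (hγ : E.k₀ < gp E.t₀ (E.act γ⁻¹ E.t₀) E.b) {x : X}
    (hx : x ∉ E.B E.k₂ 1) : gp (E.act γ E.t₀) E.t₀ (E.act γ x) ≤ E.kP := by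
  rw [mem_B_one, not_lt] at hx
  have h := E.hyp E.t₀ x (E.act γ⁻¹ E.t₀) E.b
  rw [E.gp_pull, E.act_inv, gp_comm, kP]
  have h0 := E.hk₀
  have := E.one_le_Cf
  rcases le_total (gp E.t₀ x (E.act γ⁻¹ E.t₀)) (gp E.t₀ (E.act γ⁻¹ E.t₀) E.b) with hle | hle
  · rw [min_eq_left hle] at h; linarith
  · rw [min_eq_right hle] at h; linarith [E.δ_nonneg]

/-- Changing the root to the apex scales the kernels. -/
theorem qk_translate_le {γ : Γ} {x y : X} (hx : gp (E.act γ E.t₀) E.t₀ (E.act γ x) ≤ E.kP)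
    (hy : gp (E.act γ E.t₀) E.t₀ (E.act γ y) ≤ E.kP) :
    qk E.a E.t₀ (E.act γ x) (E.act γ y) ≤
      Real.exp (E.a * (2 * E.kP)) * qp E.a E.t₀ (E.act γ E.t₀) * qk E.a E.t₀ x y := by
  rw [qk, qk, qp, ← Real.exp_add, ← Real.exp_add]
  refine Real.exp_le_exp.2 ?_
  have h := gp_reroot E.t₀ (E.act γ E.t₀) (E.act γ x) (E.act γ y)
  rw [E.gp_act] at h
  nlinarith [E.a_pos]

theorem qp_translate_le {γ : Γ} {x : X} (hx : gp (E.act γ E.t₀) E.t₀ (E.act γ x) ≤ E.kP) :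
    qp E.a E.t₀ (E.act γ x) ≤
      Real.exp (E.a * (2 * E.kP)) * qp E.a E.t₀ (E.act γ E.t₀) * qp E.a E.t₀ x := by
  have h := E.qk_translate_le hx hx
  rwa [qk_self, qk_self] at h

theorem strict_centre {w : ℕ × X} (hw : E.Strict w) : w.2 ∉ E.B E.k₂ 1 :=
  Set.disjoint_left.1 hw.2 (E.cap_sub_hull w (E.centre_mem_cap hw.1))

/-- A frame has a target for the translate of every target. -/
theorem exists_snap {γ : Γ} (hγ : E.k₀ < gp E.t₀ (E.act γ⁻¹ E.t₀) E.b)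
    (hfar : 95 * E.unit ≤ dist E.t₀ (E.act γ E.t₀)) {w : ℕ × X} (hw : E.Strict w) :
    ∃ e, E.Snap γ w e ∧ ∀ x ∈ E.capX w, E.act γ x ∈ E.capX e := by
  set κ := Real.exp (E.a * (2 * E.kP)) * qp E.a E.t₀ (E.act γ E.t₀) with hκdef
  have hκ : 0 < κ := mul_pos (Real.exp_pos _) (qp_pos _ _)
  have hsize : E.size γ w = 4 * κ * rad w.1 := by rw [size, hκdef]; ring
  have h1 : E.size γ w ≤ 1 := by
    have hk : κ ≤ 1 / 2 ^ 40 := by
      rw [hκdef, qp, ← Real.exp_add]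
      refine le_trans (le_of_eq ?_) (E.exp_small (L := dist E.t₀ (E.act γ E.t₀) - 2 * E.kP) ?_)
      · congr 1; ring
      · have := E.hk₀; have := E.one_le_Cf; have := E.δ_nonneg
        simp only [unit] at hfar ⊢
        simp only [kP]
        linarith [E.k₂_pos]
    have : rad w.1 ≤ 1 := pow_le_one₀ (by norm_num) (by norm_num)
    rw [hsize]
    nlinarith [rad_pos' w.1]
  obtain ⟨j, hj1, hj2⟩ := exists_level (E.size_pos γ w) h1
  have hc := E.strict_centre hw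
  have hqc := E.qp_translate_le (E.gp_apex_le hγ hc)
  have hqw := E.qp_le_of_centre hw.1
  have hA := E.A_pos
  have hp : qp E.a E.t₀ (E.act γ w.2) ≤ rad j / (2 * E.A) := by
    refine hqc.trans ?_
    rw [← hκdef, le_div_iff₀ (by linarith)]
    rw [le_div_iff₀ (by linarith)] at hqw
    rw [hsize] at hj1
    nlinarith [rad_pos' w.1, qp_pos (a := E.a) E.t₀ w.2]
  obtain ⟨c, hcn, hcr⟩ := E.exists_centre hp
  refine ⟨(j, c), ⟨hcn, hj1, hj2, hcr⟩, fun x hx => ?_⟩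
  have hxB : x ∉ E.B E.k₂ 1 := Set.disjoint_left.1 hw.2 (E.cap_sub_hull w hx)
  have hgx := E.gp_apex_le hγ hxB
  have hS : Sfun E.a E.A E.t₀ w.2 x < 2 * rad w.1 := hx
  rw [Sfun] at hS
  have hrho : rho E.a E.t₀ (E.act γ x) (E.act γ w.2) ≤ 2 * κ * rho E.a E.t₀ x w.2 := by
    by_cases he : x = w.2
    · rw [he, rho_self, rho_self, mul_zero]
    · refine (rho_le_qk _ _ _).trans ((E.qk_translate_le hgx (E.gp_apex_le hγ hc)).trans ?_)
      rw [← hκdef]
      have := qk_le_rho E.hyp E.a_pos.le E.exp_sq_le E.t₀ he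
      nlinarith
  have hq := E.qp_translate_le hgx
  rw [← hκdef] at hq
  show Sfun E.a E.A E.t₀ c (E.act γ x) < 2 * rad j
  have htri := rho_triangle (a := E.a) E.t₀ (E.act γ x) (E.act γ w.2) c
  have h0 := rho_nonneg (a := E.a) E.t₀ x w.2
  have h4 := mul_le_mul_of_nonneg_left hq hA.le
  rw [Sfun]
  have h5 : 0 ≤ E.A * qp E.a E.t₀ x := mul_nonneg hA.le (qp_pos _ _).le
  rw [hsize] at hj1
  nlinarith

/-- A frame sends boundedly many targets to one. -/
theorem exists_card_snap : ∃ N : ℕ, ∀ (γ : Γ) (f : ℕ × X) (W : Finset (ℕ × X)),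
    (∀ w ∈ W, w.2 ∈ E.net w.1 ∧ E.Snap γ w f) → W.card ≤ N := by
  classical
  obtain ⟨N, hN⟩ := E.exists_card_centres (32 * Real.exp (E.a * (2 * E.kP)))
  refine ⟨N, fun γ f W hW => ?_⟩
  rcases W.eq_empty_or_nonempty with rfl | ⟨w₀, hw₀⟩
  · exact Nat.zero_le _
  have hlev : ∀ w ∈ W, w.1 = w₀.1 := by
    intro w hw
    by_contra hne
    obtain ⟨-, h1, h2, -⟩ := (hW w hw).2
    obtain ⟨-, h3, h4, -⟩ := (hW w₀ hw₀).2
    have key : ∀ {m m' : ℕ}, m < m' → rad m' ≤ rad m / 2 := fun {m m'} h => by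
      rw [← rad_succ]; exact pow_le_pow_of_le_one (by norm_num) (by norm_num) h
    have hC : 0 < 4 * Real.exp (E.a * (2 * E.kP)) * qp E.a E.t₀ (E.act γ E.t₀) :=
      mul_pos (by positivity) (qp_pos _ _)
    simp only [size] at h1 h2 h3 h4
    rcases lt_or_gt_of_ne hne with h | h <;> nlinarith [key h]
  refine le_trans (le_of_eq (card_image_of_injOn fun w hw w' hw' h => ?_).symm)
    (hN w₀.1 w₀.2 (W.image Prod.snd) fun c hc => ?_)
  · exact Prod.ext ((hlev w hw).trans (hlev w' hw').symm) h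
  obtain ⟨w, hw, rfl⟩ := mem_image.1 hc
  obtain ⟨hn, hsn⟩ := hW w hw
  refine ⟨hlev w hw ▸ hn, ?_⟩
  by_cases he : w₀.2 = w.2
  · rw [← he, rho_self]; exact (mul_pos (by positivity) (rad_pos' _)).le
  have hne : E.act γ w₀.2 ≠ E.act γ w.2 := fun h => he ((E.act γ).injective h)
  have h1 : qk E.a E.t₀ w₀.2 w.2 * qp E.a E.t₀ (E.act γ E.t₀) ≤
      qk E.a E.t₀ (E.act γ w₀.2) (E.act γ w.2) := by
    rw [qk, qk, qp, ← Real.exp_add]
    refine Real.exp_le_exp.2 ?_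
    have h := gp_reroot E.t₀ (E.act γ E.t₀) (E.act γ w₀.2) (E.act γ w.2)
    rw [E.gp_act] at h
    nlinarith [E.a_pos, gp_nonneg (E.act γ E.t₀) E.t₀ (E.act γ w₀.2),
      gp_nonneg (E.act γ E.t₀) E.t₀ (E.act γ w.2)]
  have h2 := qk_le_rho E.hyp E.a_pos.le E.exp_sq_le E.t₀ hne
  have h3 := rho_triangle (a := E.a) E.t₀ (E.act γ w₀.2) f.2 (E.act γ w.2)
  rw [rho_comm E.t₀ f.2] at h3
  obtain ⟨-, -, h5, h6⟩ := (hW w₀ hw₀).2
  obtain ⟨-, -, -, h7⟩ := hsn
  have hq := qp_pos (a := E.a) E.t₀ (E.act γ E.t₀)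
  refine (rho_le_qk _ _ _).trans ((mul_le_mul_iff_left₀ hq).1 ?_)
  simp only [size] at h5
  nlinarith

/-- All points of the chosen target are near the apex. -/
theorem snap_near {γ : Γ} (hγ : E.k₀ < gp E.t₀ (E.act γ⁻¹ E.t₀) E.b) {w e : ℕ × X}
    (hw : E.Strict w) (hs : E.Snap γ w e) {x : X} (hx : x ∈ E.hullX e) :
    rho E.a E.t₀ x (E.act γ E.t₀) ≤
        41 * Real.exp (E.a * (2 * E.kP)) * qp E.a E.t₀ (E.act γ E.t₀) ∧
      E.A * qp E.a E.t₀ x ≤ 32 * Real.exp (E.a * (2 * E.kP)) * qp E.a E.t₀ (E.act γ E.t₀) := by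
  obtain ⟨-, -, h2, h3⟩ := hs
  obtain ⟨hx1, hx2⟩ := E.lt_of_mem_hull hx
  set r := E.act γ E.t₀
  have hq := qp_pos (a := E.a) E.t₀ r
  have hw1 : rad w.1 ≤ 1 := pow_le_one₀ (by norm_num) (by norm_num)
  have hE : 1 ≤ Real.exp (E.a * (2 * E.kP)) := Real.one_le_exp
    (mul_nonneg E.a_pos.le (by simp only [kP]; linarith [E.k₂_pos, E.δ_nonneg]))
  have hb : rad e.1 ≤ 8 * Real.exp (E.a * (2 * E.kP)) * qp E.a E.t₀ r := by
    simp only [size] at h2
    nlinarith [mul_le_mul_of_nonneg_left hw1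
      (mul_nonneg (zero_le_one.trans hE) hq.le)]
  have hcr : rho E.a E.t₀ (E.act γ w.2) r ≤ Real.exp (E.a * (2 * E.kP)) * qp E.a E.t₀ r := by
    rw [rho_comm]
    refine (rho_le_qk _ _ _).trans ((qk_le_of_cone E.a_pos.le (C := E.kP) ?_).trans ?_)
    · rw [gp_comm]; exact E.gp_apex_le hγ (E.strict_centre hw)
    · refine mul_le_mul_of_nonneg_right (Real.exp_le_exp.2 ?_) hq.le
      have : 0 ≤ E.kP := by simp only [kP]; linarith [E.k₂_pos, E.δ_nonneg]
      nlinarith [E.a_pos]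
  have t1 := rho_triangle (a := E.a) E.t₀ x e.2 r
  have t2 := rho_triangle (a := E.a) E.t₀ e.2 (E.act γ w.2) r
  rw [rho_comm E.t₀ e.2 (E.act γ w.2)] at t2
  constructor <;> nlinarith

/-! ### Few targets at a point, many targets -/

theorem lev_le {e : ℕ × X} {x : X} (hx : x ∈ E.capX e) : (e.1 : ℝ) ≤ dist E.t₀ x := by
  have h : Sfun E.a E.A E.t₀ e.2 x < 2 * rad e.1 := hx
  have h1 := mul_qp_le_Sfun (a := E.a) E.A E.t₀ e.2 x
  have h2 : qp E.a E.t₀ x < rad e.1 := by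
    nlinarith [E.four_le_A', qp_pos (a := E.a) E.t₀ x, rad_pos' e.1]
  rw [qp, show rad e.1 = Real.exp (-((e.1 : ℝ) * Real.log 2)) by
    rw [Real.exp_neg, Real.exp_nat_mul, Real.exp_log two_pos, rad, one_div_pow, one_div],
    Real.exp_lt_exp] at h2
  have := mul_le_mul_of_nonneg_right E.a_le (dist_nonneg : 0 ≤ dist E.t₀ x)
  nlinarith [Real.log_pos (one_lt_two : (1 : ℝ) < 2), (Nat.cast_nonneg e.1 : (0 : ℝ) ≤ e.1),
    (dist_nonneg : 0 ≤ dist E.t₀ x)]

theorem dist_link {S : Set V} {k : ℕ} {x y : V} (h : Link E.G S k x y) :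
    dist (E.pos x) (E.pos y) ≤ E.D * k := by
  obtain ⟨w, hw, -⟩ := h
  refine le_trans ?_ (mul_le_mul_of_nonneg_left (Nat.cast_le.2 hw) E.D_nonneg)
  induction w with
  | nil => simp
  | @cons u v _ h w ih =>
    refine (dist_triangle _ (E.pos v) _).trans ?_
    rw [SimpleGraph.Walk.length_cons, Nat.cast_succ, mul_add, mul_one, add_comm]
    exact add_le_add (ih (Nat.le_of_succ_le hw)) (E.lip _ _ h)

theorem countOK : E.CountOK := by
  classical
  obtain ⟨N₁, hN₁⟩ := E.exists_card_centres 2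
  refine ⟨(N₁ + 1) * (⌈E.D⌉₊ + 1), fun N hN => ?_⟩
  have hD : ∀ k : ℕ, E.D * (k : ℝ) ≤ ((⌈E.D⌉₊ * k : ℕ) : ℝ) := fun k => by
    push_cast; exact mul_le_mul_of_nonneg_right (Nat.le_ceil _) (Nat.cast_nonneg _)
  have hlev : ∀ {e : ℕ × X} {v : V} {n : ℕ}, v ∈ E.cap e → Link E.G Set.univ n E.a₁ v →
      e.1 ≤ ⌈E.D⌉₊ * n := fun {e v n} hv hl =>
    Nat.cast_le.1 ((E.lev_le hv).trans ((E.dist_link hl).trans (hD n)))
  have hDN : ⌈E.D⌉₊ ≤ N := le_trans
    (le_trans (Nat.le_succ _) (Nat.le_mul_of_pos_left _ (Nat.succ_pos _))) hN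
  refine ⟨fun v ρ hl W hW => ?_, fun e v n _ hv hl => (hlev hv hl).trans
    (Nat.mul_le_mul hDN (Nat.le_succ n))⟩
  have hmem : ∀ e ∈ W, e.1 ∈ range (⌈E.D⌉₊ * ρ + 1) := fun e he =>
    mem_range.2 (Nat.lt_succ_of_le (hlev (hW e he).2.1 hl))
  refine (card_le_mul_card_image_of_maps_to hmem N₁ fun j _ => ?_).trans ?_
  · refine le_trans (le_of_eq (card_image_of_injOn (f := Prod.snd) fun e he e' he' h => ?_).symm)
      (hN₁ j (E.pos v) _ fun c hc => ?_)
    · exact Prod.ext ((mem_filter.1 he).2.trans (mem_filter.1 he').2.symm) h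
    obtain ⟨e, he, rfl⟩ := mem_image.1 hc
    obtain ⟨heW, rfl⟩ := mem_filter.1 he
    refine ⟨(hW e heW).1.1, ?_⟩
    have h : Sfun E.a E.A E.t₀ e.2 (E.pos v) < 2 * rad e.1 := (hW e heW).2.1
    have := mul_nonneg E.A_pos.le (qp_pos (a := E.a) E.t₀ (E.pos v)).le
    rw [Sfun] at h
    linarith
  · rw [card_range]
    refine le_trans ?_ (Nat.mul_le_mul_right _ hN)
    calc N₁ * (⌈E.D⌉₊ * ρ + 1) ≤ (N₁ + 1) * ((⌈E.D⌉₊ + 1) * (ρ + 1)) := by
          refine Nat.mul_le_mul (Nat.le_succ _) ?_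
          nlinarith
      _ = _ := by ring

theorem manyOK : E.ManyOK := by
  classical
  intro n
  obtain ⟨P, hP, hspec, hsep⟩ := E.deep n E.o₁
  have hone : ∀ ψ ∈ P, ∃ e, E.Strict e ∧ E.act ψ E.t₀ ∈ E.capX e ∧
      (∀ x ∈ E.hullX e, rho E.a E.t₀ x (E.act ψ E.t₀) <
        20 * E.A * qp E.a E.t₀ (E.act ψ E.t₀)) ∧
      ∃ u k, u ∈ E.cap e ∧ Link E.G E.ok k E.a₁ u := by
    intro ψ hψ
    obtain ⟨hfar, hback, hdir, w, hw, hs⟩ := hspec ψ hψ
    set p := E.act ψ E.t₀ with hpdef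
    have hq := qp_pos (a := E.a) E.t₀ p
    have hbig := E.kU_big
    have hbound := E.exp_small (L := dist E.t₀ p - 10 * E.unit)
      (by change E.kU ≤ dist E.t₀ p at hfar; linarith)
    have hAq : 2 ^ 10 * (E.A * qp E.a E.t₀ p * Real.exp (E.a * (E.Cf + E.δ))) ≤ 1 := by
      rw [A, qp, mul_assoc (4 : ℝ), mul_assoc (4 : ℝ), ← Real.exp_add, ← Real.exp_add]
      have : Real.exp (E.a * (2 * E.Cf) + -E.a * dist E.t₀ p + E.a * (E.Cf + E.δ)) ≤ 1 / 2 ^ 40 := by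
        refine le_trans (Real.exp_le_exp.2 ?_) hbound
        simp only [unit]
        nlinarith [E.a_pos, E.k₀_pos, E.δ_nonneg, E.one_le_Cf]
      linarith
    have hex : 1 ≤ Real.exp (E.a * (E.Cf + E.δ)) :=
      Real.one_le_exp (mul_nonneg E.a_pos.le (by linarith [E.one_le_Cf, E.δ_nonneg]))
    have hAq1 : 2 ^ 10 * (E.A * qp E.a E.t₀ p) ≤ 1 :=
      le_trans (mul_le_mul_of_nonneg_left
        (le_mul_of_one_le_right (mul_nonneg E.A_pos.le hq.le) hex) (by norm_num)) hAq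
    obtain ⟨j, hj1, hj2⟩ := exists_level (η := 2 * E.A * qp E.a E.t₀ p)
      (by have := E.A_pos; positivity) (by nlinarith [E.A_pos])
    obtain ⟨c, hc, hcr⟩ := E.exists_centre (j := j) (p := p)
      (by rw [le_div_iff₀ (by linarith [E.A_pos])]; linarith)
    have hpc : p ∈ E.capX (j, c) := by
      show Sfun E.a E.A E.t₀ c p < 2 * rad j
      rw [Sfun]
      linarith [rad_pos' j]
    have hnear : ∀ x ∈ E.hullX (j, c), rho E.a E.t₀ x p < 20 * E.A * qp E.a E.t₀ p := by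
      intro x hx
      have h1 := (E.lt_of_mem_hull hx).1
      have h2 := rho_triangle (a := E.a) E.t₀ x c p
      rw [rho_comm E.t₀ c p] at h2
      linarith
    refine ⟨(j, c), ⟨hc, Set.disjoint_left.2 fun x hx hB => ?_⟩, hpc, hnear, ?_⟩
    · rw [mem_B_one] at hB
      change gp E.t₀ p E.b ≤ E.Cf at hdir
      have h := E.hyp E.t₀ p x E.b
      have hk := E.hk₂
      have := E.k₁_pos
      have := E.one_le_Cf
      have := E.δ_nonneg
      have hp : E.Cf + E.δ < gp E.t₀ p x := by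
        by_contra hle
        push Not at hle
        have h5 : Real.exp (-E.a * (E.Cf + E.δ)) ≤ qk E.a E.t₀ p x := E.exp_le_shift hle
        have h6 : qk E.a E.t₀ p x < 41 * E.A * qp E.a E.t₀ p := by
          refine (E.qk_le_max _ _ _).trans_lt (max_lt ?_ ?_)
          · rw [rho_comm]
            have h7 := mul_pos E.A_pos hq
            nlinarith [hnear x hx]
          · nlinarith [E.four_le_A']
        have h9 : Real.exp (-E.a * (E.Cf + E.δ)) * Real.exp (E.a * (E.Cf + E.δ)) = 1 := by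
          rw [← Real.exp_add]; simp
        have h8 := mul_lt_mul_of_pos_right (h5.trans_lt h6)
          (Real.exp_pos (E.a * (E.Cf + E.δ)))
        rw [h9] at h8
        nlinarith [mul_pos (mul_pos E.A_pos hq) (Real.exp_pos (E.a * (E.Cf + E.δ)))]
      rcases le_total (gp E.t₀ p x) (gp E.t₀ x E.b) with hle | hle
      · rw [min_eq_left hle] at h; linarith
      · rw [min_eq_right hle] at h; linarith [E.δ_nonneg]
    · exact ⟨E.Φ ψ E.a₁, _, by show E.pos (E.Φ ψ E.a₁) ∈ E.capX (j, c); rw [E.pos_eq]; exact hpc, w, hw,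
        fun v hv => (hs v hv).2⟩
  have : Nonempty (ℕ × X) := ⟨(0, E.t₀)⟩
  choose! e he hcap hnear hlink using hone
  have hdisj : ∀ ψ ∈ P, ∀ ψ' ∈ P, ψ ≠ ψ' → Disjoint (E.hullX (e ψ)) (E.hullX (e ψ')) := by
    intro ψ hψ ψ' hψ' hne
    refine Set.disjoint_left.2 fun x hx hx' => ?_
    have d1 : gp E.t₀ (E.act ψ E.t₀) (E.act ψ' E.t₀) + E.kU ≤ dist E.t₀ (E.act ψ E.t₀) :=
      hsep ψ hψ ψ' hψ' hne
    have d2 : gp E.t₀ (E.act ψ' E.t₀) (E.act ψ E.t₀) + E.kU ≤ dist E.t₀ (E.act ψ' E.t₀) :=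
      hsep ψ' hψ' ψ hψ hne.symm
    rw [gp_comm] at d2
    set p := E.act ψ E.t₀
    set p' := E.act ψ' E.t₀
    have h1 := hnear ψ hψ x hx
    have h2 := hnear ψ' hψ' x hx'
    rw [rho_comm] at h1
    have h3 := rho_triangle (a := E.a) E.t₀ p x p'
    have hA := E.four_le_A'
    have q1 := qp_pos (a := E.a) E.t₀ p
    have q2 := qp_pos (a := E.a) E.t₀ p'
    have e1 : qk E.a E.t₀ p p' < 40 * E.A * (qp E.a E.t₀ p + qp E.a E.t₀ p') := by
      refine (E.qk_le_max _ _ _).trans_lt (max_lt (by nlinarith) ?_)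
      nlinarith [mul_pos E.A_pos q2]
    have big : 2 ^ 10 * E.A ≤ Real.exp (E.a * E.kU) := by
      have h := E.exp_small (L := E.kU - 2 * E.Cf)
        (by linarith [E.kU_big, E.unit_pos, (show E.Cf ≤ E.unit by
          simp only [unit]; linarith [E.k₀_pos, E.δ_nonneg])])
      have e : Real.exp (-E.a * (E.kU - 2 * E.Cf)) * Real.exp (E.a * E.kU) =
          Real.exp (E.a * (2 * E.Cf)) := by rw [← Real.exp_add]; congr 1; ring
      have := mul_le_mul_of_nonneg_right h (Real.exp_pos (E.a * E.kU)).le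
      rw [e] at this
      rw [A]
      linarith [Real.exp_pos (E.a * E.kU)]
    have key : ∀ {y : X}, gp E.t₀ p p' + E.kU ≤ dist E.t₀ y →
        Real.exp (E.a * E.kU) * qp E.a E.t₀ y ≤ qk E.a E.t₀ p p' := fun {y} h => by
      rw [qp, qk, ← Real.exp_add]
      exact Real.exp_le_exp.2 (by nlinarith [E.a_pos])
    nlinarith [key d1, key d2, mul_le_mul_of_nonneg_right big (add_pos q1 q2).le]
  have hinj : Set.InjOn e (P : Set Γ) := fun ψ hψ ψ' hψ' h => by
    by_contra hne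
    exact Set.disjoint_left.1 (hdisj ψ hψ ψ' hψ' hne) (E.cap_sub_hull _ (hcap ψ hψ))
      (h ▸ E.cap_sub_hull _ (hcap ψ hψ))
  obtain ⟨W, hW, hWn⟩ := exists_subset_card_eq (s := P.image e) (n := n)
    (by rw [card_image_of_injOn hinj, hP]; exact (Nat.lt_two_pow_self).le)
  refine ⟨W, hWn, fun a ha b hb hne => ?_, fun a ha => ?_⟩
  · obtain ⟨ψ, hψ, rfl⟩ := mem_image.1 (hW ha)
    obtain ⟨ψ', hψ', rfl⟩ := mem_image.1 (hW hb)
    exact (hdisj ψ hψ ψ' hψ' fun h => hne (h ▸ rfl)).preimage _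
  · obtain ⟨ψ, hψ, rfl⟩ := mem_image.1 (hW ha)
    exact ⟨he ψ hψ, hlink ψ hψ⟩

end Vale.Agent.P165.HY.Env
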