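import Vale.Agent.P165.HY.Assembly
import Vale.Agent.P165.HY.Targets
import Vale.Agent.P165.HY.Step
import Vale.Agent.P165.HY.Spread
import Vale.Agent.P165.HY.Cuts
import Vale.Agent.P165.HY.Nested
import Vale.Agent.P165.HY.Frames
import Vale.Agent.P165.HY.Chains
import Vale.Agent.P165.HY.Tail
import Vale.Agent.P165.HY.Own
import Vale.Agent.P165.HY.Form
import Vale.Agent.P165.HY.Graph
import Vale.Agent.P165.TL.Main

/-!
# Nonuniqueness for four-ended actions on hyperbolic spaces with packing
-/

namespace Vale.Agent.P165.HY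

open Finset FF

section Core

variable {Γ V O ι : Type} [Group Γ] [Fintype ι] [DecidableEq V] [Fintype O] (E : Core Γ V O ι)

/-- The small form at the last subcritical parameter. -/
theorem Core.small {p : ℝ} (hs : QT.Sub E.nb p) : E.Small p :=
  E.small_of_closed hs.1 hs.2.1
    (E.closed_of_tails hs.1 hs.2.1 (E.tails hs.1 hs.2.1 (E.dataExists hs)))

/-- An abstract setting has a nonuniqueness phase. -/
theorem Core.pc_lt_pu [Infinite V] : pc E.G < pu E.G :=
  QT.pc_lt_pu_of_small E.hl E.Φ _ E.cover_rep E.conn fun _ hs => E.small hs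

end Core

/-- A connected regular graph with an action with finitely many orbits and an equivariant map to a
hyperbolic space with packing on which two elements have four ends has a nonuniqueness phase. -/
theorem pc_lt_pu_of_fourEnds {Γ V X : Type} [Group Γ] [PseudoMetricSpace X] {G : SimpleGraph V}
    {d : ℕ} (hconn : G.Connected) (hreg : ∀ v, (G.neighborSet v).encard = d) (Φ : Γ →* (G ≃g G))
    (R : Finset V) (cover : ∀ v, ∃ g, Φ g v ∈ R) {δ : ℝ} (hδ : 0 ≤ δ) (hyp : Hyp X δ)
    (hpack : Packing X) (act : Γ →* Equiv.Perm X)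
    (isom : ∀ γ x y, dist (act γ x) (act γ y) = dist x y) (pos : V → X)
    (hpos : ∀ γ v, pos (Φ γ v) = act γ (pos v)) (o : X) (h4 : FourEnds act o) : pc G < pu G := by
  classical
  obtain ⟨v₀⟩ := hconn.nonempty
  have : Infinite V := by
    by_contra hfin
    rw [not_infinite_iff_finite] at hfin
    have := Fintype.ofFinite V
    obtain ⟨g, h', K', hg, -⟩ := h4
    obtain ⟨n, hn⟩ := exists_nat_gt (2 * dist o (pos v₀) + ∑ v : V, dist (pos v₀) (pos v))
    have h1 : dist (pos v₀) (pos (Φ (g ^ n) v₀)) ≤ ∑ v : V, dist (pos v₀) (pos v) :=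
      single_le_sum (f := fun v => dist (pos v₀) (pos v)) (fun _ _ => dist_nonneg) (mem_univ _)
    rw [hpos] at h1
    have h2 := (hg n).1
    have h3 := dist_triangle4 o (pos v₀) (act (g ^ n) (pos v₀)) (act (g ^ n) o)
    rw [isom, dist_comm (pos v₀) o] at h3
    linarith
  obtain ⟨nb, hl⟩ := exists_labelling G d hreg
  obtain ⟨O, hO, E, rfl, rfl⟩ :=
    exists_env act hl hconn Φ R cover hδ hyp hpack isom pos hpos o h4
  obtain ⟨C, hC, -⟩ :=
    E.exists_core E.countOK E.manyOK E.stepOK E.spreadOK E.cutsOK E.rowsOK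
  exact hC ▸ C.pc_lt_pu

/-- Every group with a four-ended isometric action on a hyperbolic space with packing has a
nonuniqueness phase. -/
theorem nonuniquePhase_of_fourEnds {Γ X : Type} [Group Γ] [PseudoMetricSpace X] {δ : ℝ}
    (hδ : 0 ≤ δ) (hyp : Hyp X δ) (hpack : Packing X) (act : Γ →* Equiv.Perm X)
    (isom : ∀ γ x y, dist (act γ x) (act γ y) = dist x y) (o : X) (h : FourEnds act o) :
    SG.NonuniquePhase Γ := by
  classical
  have key : ∀ (V : Type) (G : SimpleGraph V) (d : ℕ), G.Connected →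
      (∀ v, (G.neighborSet v).encard = d) → ∀ (Φ : Γ →* (G ≃g G)),
      (∀ g v, Φ g v = v → g = 1) → ∀ R : Finset V, (∀ v, ∃ g, Φ g v ∈ R) → pc G < pu G := by
    intro V G d hc hd Φ free R cover
    obtain ⟨O, hO, hO', G', hinv, ⟨φ⟩⟩ := exists_chart G Φ free R cover
    have hc' : G'.Connected := φ.connected_iff.1 hc
    have hd' : ∀ x, (G'.neighborSet x).encard = d := fun x => by
      obtain ⟨v, rfl⟩ := φ.surjective x
      rw [← hd v]
      exact (ENat.card_congr (φ.mapNeighborSet v)).symm
    rw [pc_congr φ, pu_congr φ]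
    refine pc_lt_pu_of_fourEnds hc' hd'
      { toFun := trIso hinv
        map_one' := by ext x <;> simp [trIso, tr]
        map_mul' := fun a b => by ext x <;> simp [trIso, tr, mul_assoc] }
      (univ.image fun o : O => ((1 : Γ), o))
      (fun v => ⟨v.1⁻¹, mem_image.2 ⟨v.2, mem_univ _, by simp [trIso, tr]⟩⟩)
      hδ hyp hpack act isom (fun v => act v.1 o) (fun γ v => ?_) o h
    show act (γ * v.1) o = act γ (act v.1 o)
    rw [map_mul]; rfl
  refine ⟨key, fun Δ' _ s hfin hgen ψ hψ hidx => ?_⟩
  obtain ⟨hconn, d, hd⟩ := TL.connected_regular_mulCayley s hfin hgen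
  obtain ⟨Φ, R, free, cover⟩ := exists_leftAction (SimpleGraph.mulCayley s)
    (fun _ _ _ => SimpleGraph.mulCayley_adj_mul_iff_right) ψ hψ hidx
  exact key _ _ d hconn hd Φ free R cover

/-- Every group with a four-ended action on a hyperbolic graph of bounded degree has a nonuniqueness
phase, whatever the kernel and the stabilisers. -/
theorem nonuniquePhase_of_graph {Γ W : Type} [Group Γ] {H : SimpleGraph W} (hc : H.Connected)
    {δ D : ℕ} (hh : GraphHyp H δ)
    (hD : ∀ x, (H.neighborSet x).Finite ∧ (H.neighborSet x).ncard ≤ D)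
    (act : Γ →* (H ≃g H)) (o : W) (h : SG.FourEnds H act o) : SG.NonuniquePhase Γ :=
  let _inst := graphMetric hc
  nonuniquePhase_of_fourEnds (Nat.cast_nonneg δ) (hyp_graph hc hh) (packing_graph hc hh hD) _
    (fun γ x y => congrArg Nat.cast (QT.dist_iso hc (act γ) x y)) o (fourEnds_graph hc act h)

end Vale.Agent.P165.HY
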