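import Mathlib

/-!
# Hyperbolic spaces with packing: products, the visual metric, exact sets, nets

`gp o x y` is the Gromov product. `rho a o` is the chain metric of `q = exp (-a gp)`: at most `q`, and
at least `q / 2` between different points when `exp (a δ) ^ 2 ≤ 2`. The function
`S x = rho o x c + A exp (-a (dist o x))` drops along cones away from `o`, so its sublevel sets are
exactly closed under them.
-/

namespace Vale.Agent.P165.HY

open Finset Real

variable {X : Type} [PseudoMetricSpace X]

/-- The Gromov product of `x` and `y` seen from `o`. -/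
noncomputable def gp (o x y : X) : ℝ := (dist o x + dist o y - dist x y) / 2

/-- The four point condition. -/
def Hyp (X : Type) [PseudoMetricSpace X] (δ : ℝ) : Prop :=
  ∀ o x y z : X, min (gp o x y) (gp o y z) ≤ gp o x z + δ

/-- Few points, one apart and at least `r` away from a point, have all their products seen from it
within `A` of `r`. -/
def Packing (X : Type) [PseudoMetricSpace X] : Prop :=
  ∀ A : ℝ, ∃ N : ℕ, ∀ (o : X) (r : ℝ), 0 ≤ r → ∀ s : Finset X, (∀ x ∈ s, r ≤ dist o x) →
    (s : Set X).Pairwise (fun x y => 1 ≤ dist x y ∧ |gp o x y - r| ≤ A) → s.card ≤ N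

theorem gp_comm (o x y : X) : gp o x y = gp o y x := by
  rw [gp, gp, dist_comm x y]; ring

theorem gp_nonneg (o x y : X) : 0 ≤ gp o x y := by
  have := dist_triangle x o y
  rw [gp, dist_comm o x]
  linarith

theorem gp_le_dist (o x y : X) : gp o x y ≤ dist o x := by
  have := dist_triangle o x y
  rw [gp]
  linarith

theorem gp_le_dist' (o x y : X) : gp o x y ≤ dist o y := gp_comm o y x ▸ gp_le_dist o y x

theorem gp_self (o x : X) : gp o x x = dist o x := by
  rw [gp, dist_self]; ring

theorem gp_base (o o' x y : X) : gp o x y ≤ gp o' x y + dist o o' := by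
  have h1 := dist_triangle o o' x
  have h2 := dist_triangle o o' y
  rw [gp, gp]
  linarith

theorem gp_move (o x y y' : X) : gp o x y ≤ gp o x y' + dist y y' := by
  have h1 := dist_triangle o y' y
  have h2 := dist_triangle x y y'
  rw [gp, gp, dist_comm y' y] at *
  linarith

/-- The two parts of a distance. -/
theorem gp_split (x y r : X) : gp x y r + gp y x r = dist x y := by
  rw [gp, gp, dist_comm y x]; ring

/-- The far part of a distance. -/
theorem dist_eq_gp (o x y : X) : dist o y = dist o x + dist x y - 2 * gp x y o := by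
  rw [gp, dist_comm x o, dist_comm y o]; ring

theorem gp_eq_sub (o x y : X) : gp o x y = dist o x - gp x y o := by
  rw [gp, gp, dist_comm x o, dist_comm y o]; ring

/-- Changing the root. -/
theorem gp_reroot (o r x y : X) :
    gp o x y = gp r x y + dist o r - gp r o x - gp r o y := by
  simp only [gp, dist_comm r o]; ring

section Isometry

variable {f : X → X} (hf : ∀ x y, dist (f x) (f y) = dist x y)

include hf in
theorem gp_map (o x y : X) : gp (f o) (f x) (f y) = gp o x y := by
  simp only [gp, hf]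

end Isometry

/-! ### The visual metric -/

/-- The visual kernel. -/
noncomputable def qk (a : ℝ) (o x y : X) : ℝ := exp (-a * gp o x y)

/-- The visual size of a point. -/
noncomputable def qp (a : ℝ) (o x : X) : ℝ := exp (-a * dist o x)

/-- The exponent for the constant `δ`. -/
noncomputable def expo (δ : ℝ) : ℝ := Real.log 2 / (2 * (max δ 0 + 1))

theorem expo_pos (δ : ℝ) : 0 < expo δ :=
  div_pos (Real.log_pos one_lt_two) (by have := le_max_right δ 0; linarith)

theorem two_expo_le (δ : ℝ) : 2 * (expo δ * δ) ≤ Real.log 2 := by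
  have h1 : 0 < max δ 0 + 1 := by have := le_max_right δ 0; linarith
  have h2 := expo_pos δ
  have h3 : expo δ * (2 * (max δ 0 + 1)) = Real.log 2 := by
    rw [expo, div_mul_cancel₀ _ (by linarith)]
  nlinarith [le_max_left δ 0]

variable {a : ℝ}

theorem qk_pos (o x y : X) : 0 < qk a o x y := exp_pos _

theorem qp_pos (o x : X) : 0 < qp a o x := exp_pos _

theorem qk_comm (o x y : X) : qk a o x y = qk a o y x := by rw [qk, qk, gp_comm]

theorem qk_self (o x : X) : qk a o x x = qp a o x := by rw [qk, qp, gp_self]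

theorem qk_le_one (ha : 0 ≤ a) (o x y : X) : qk a o x y ≤ 1 :=
  exp_le_one_iff.2 (by have := gp_nonneg o x y; nlinarith)

theorem qp_le_qk (ha : 0 ≤ a) (o x y : X) : qp a o x ≤ qk a o x y :=
  exp_le_exp.2 (by have := gp_le_dist o x y; nlinarith)

theorem qk_max {δ : ℝ} (hh : Hyp X δ) (ha : 0 ≤ a) (o x y z : X) :
    qk a o x z ≤ exp (a * δ) * max (qk a o x y) (qk a o y z) := by
  have h := hh o x y z
  rcases le_total (gp o x y) (gp o y z) with hle | hle
  · rw [min_eq_left hle] at h
    refine le_trans ?_ (mul_le_mul_of_nonneg_left (le_max_left _ _) (exp_pos _).le)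
    rw [qk, qk, ← exp_add]
    exact exp_le_exp.2 (by nlinarith)
  · rw [min_eq_right hle] at h
    refine le_trans ?_ (mul_le_mul_of_nonneg_left (le_max_right _ _) (exp_pos _).le)
    rw [qk, qk, ← exp_add]
    exact exp_le_exp.2 (by nlinarith)

/-- The length of a chain of points. -/
noncomputable def chainLen (a : ℝ) (o : X) (p : ℕ → X) (n : ℕ) : ℝ :=
  ∑ i ∈ range n, qk a o (p i) (p (i + 1))

theorem chainLen_nonneg (o : X) (p : ℕ → X) (n : ℕ) : 0 ≤ chainLen a o p n :=
  sum_nonneg fun _ _ => (qk_pos o _ _).le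

theorem chainLen_le {m n : ℕ} (h : m ≤ n) (o : X) (p : ℕ → X) :
    chainLen a o p m ≤ chainLen a o p n :=
  sum_le_sum_of_subset_of_nonneg (range_subset_range.2 h) fun _ _ _ => (qk_pos o _ _).le

/-- Frink: a chain is at least half the kernel between its ends. -/
theorem qk_le_chain {δ : ℝ} (hh : Hyp X δ) (ha : 0 ≤ a) (hK : exp (a * δ) ^ 2 ≤ 2) (o : X) :
    ∀ (n : ℕ), 1 ≤ n → ∀ p : ℕ → X, qk a o (p 0) (p n) ≤ 2 * chainLen a o p n := by
  intro n
  induction n using Nat.strong_induction_on with
  | _ n ih =>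
    intro hn p
    classical
    set Q := chainLen a o p n
    set K := exp (a * δ)
    have hK0 : 0 < K := exp_pos _
    have hK2 : K ≤ 2 := by nlinarith
    have hQ : 0 < Q := lt_of_lt_of_le (qk_pos (a := a) o (p 0) (p 1))
      ((show qk a o (p 0) (p 1) ≤ chainLen a o p 1 from le_of_eq (by simp [chainLen])).trans
        (chainLen_le hn o p))
    set P : ℕ → Prop := fun i => chainLen a o p i ≤ Q / 2 with hP
    have hP0 : P 0 := by simp [hP, chainLen]; linarith
    set i := Nat.findGreatest P n
    have hi : chainLen a o p i ≤ Q / 2 := Nat.findGreatest_spec (P := P) (Nat.zero_le n) hP0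
    have hin : i < n := by
      refine lt_of_le_of_ne (Nat.findGreatest_le n) fun h => ?_
      rw [h] at hi
      change Q ≤ Q / 2 at hi
      linarith
    have hnext : Q / 2 < chainLen a o p (i + 1) := by
      by_contra h
      exact absurd (Nat.le_findGreatest (P := P) hin (not_lt.1 h)) (by omega)
    have hmid : qk a o (p i) (p (i + 1)) ≤ Q := by
      refine le_trans (le_trans ?_ (le_of_eq rfl)) (chainLen_le (show i + 1 ≤ n from hin) o p)
      rw [chainLen, sum_range_succ]
      exact le_add_of_nonneg_left (chainLen_nonneg o p i)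
    have hlast : i + 1 < n → qk a o (p (i + 1)) (p n) ≤ Q := fun h => by
      have h1 := ih (n - (i + 1)) (by omega) (by omega) fun k => p (i + 1 + k)
      rw [show i + 1 + (n - (i + 1)) = n by omega] at h1
      simp only [add_zero] at h1
      have h2 : chainLen a o (fun k => p (i + 1 + k)) (n - (i + 1)) =
          Q - chainLen a o p (i + 1) := by
        have h3 := sum_range_add (fun k => qk a o (p k) (p (k + 1))) (i + 1) (n - (i + 1))
        rw [show i + 1 + (n - (i + 1)) = n by omega] at h3
        simp only [chainLen, Q, add_assoc] at h3 ⊢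
        linarith
      linarith
    have hrest : qk a o (p i) (p n) ≤ K * Q ∨ i + 1 = n := by
      by_cases h : i + 1 = n
      · exact Or.inr h
      exact Or.inl ((qk_max hh ha o _ (p (i + 1)) _).trans (mul_le_mul_of_nonneg_left
        (max_le hmid (hlast (by omega))) hK0.le))
    have hrest' : qk a o (p i) (p n) ≤ max K 1 * Q := by
      rcases hrest with h | h
      · exact h.trans (mul_le_mul_of_nonneg_right (le_max_left _ _) hQ.le)
      · rw [← h]
        exact hmid.trans (le_mul_of_one_le_left hQ.le (le_max_right _ _))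
    have hmax : max K 1 * Q ≤ 2 * Q :=
      mul_le_mul_of_nonneg_right (max_le hK2 one_le_two) hQ.le
    rcases Nat.eq_zero_or_pos i with hi0 | hi0
    · rw [hi0] at hrest'
      exact hrest'.trans hmax
    have hfirst : qk a o (p 0) (p i) ≤ Q := by
      have := ih i hin hi0 p
      linarith
    refine (qk_max hh ha o _ (p i) _).trans (le_trans
      (mul_le_mul_of_nonneg_left (max_le (hfirst.trans (le_mul_of_one_le_left hQ.le
        (le_max_right K 1))) hrest') hK0.le) ?_)
    rcases le_total K 1 with h | h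
    · rw [max_eq_right h]; nlinarith
    · rw [max_eq_left h]; nlinarith

open Classical in
/-- The visual metric. -/
noncomputable def rho (a : ℝ) (o x y : X) : ℝ :=
  if x = y then 0 else
    sInf {Q | ∃ (n : ℕ) (p : ℕ → X), 1 ≤ n ∧ p 0 = x ∧ p n = y ∧ Q = chainLen a o p n}

theorem rho_self (o x : X) : rho a o x x = 0 := if_pos rfl

theorem rho_le_chain {o : X} {p : ℕ → X} {n : ℕ} (hn : 1 ≤ n) :
    rho a o (p 0) (p n) ≤ chainLen a o p n := by
  rw [rho]
  split_ifs
  · exact chainLen_nonneg o p n
  · exact csInf_le ⟨0, fun Q ⟨n', p', _, _, _, hQ⟩ => hQ ▸ chainLen_nonneg o p' n'⟩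
      ⟨n, p, hn, rfl, rfl, rfl⟩

theorem rho_nonneg (o x y : X) : 0 ≤ rho a o x y := by
  rw [rho]
  split_ifs
  · exact le_rfl
  · exact Real.sInf_nonneg fun Q ⟨n', p', _, _, _, hQ⟩ => hQ ▸ chainLen_nonneg o p' n'

theorem rho_le_qk (o x y : X) : rho a o x y ≤ qk a o x y := by
  have h := rho_le_chain (a := a) (o := o) (p := fun k => if k = 0 then x else y) (n := 1) le_rfl
  simpa [chainLen] using h

theorem le_rho {o x y : X} (hne : x ≠ y) {b : ℝ}
    (h : ∀ (n : ℕ) (p : ℕ → X), 1 ≤ n → p 0 = x → p n = y → b ≤ chainLen a o p n) :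
    b ≤ rho a o x y := by
  rw [rho, if_neg hne]
  refine le_csInf ⟨_, 1, fun k => if k = 0 then x else y, le_rfl, by simp, by simp, rfl⟩ ?_
  rintro Q ⟨n, p, hn, h0, h1, rfl⟩
  exact h n p hn h0 h1

theorem qk_le_rho {δ : ℝ} (hh : Hyp X δ) (ha : 0 ≤ a) (hK : exp (a * δ) ^ 2 ≤ 2) (o : X) {x y : X}
    (hne : x ≠ y) : qk a o x y ≤ 2 * rho a o x y := by
  have : qk a o x y / 2 ≤ rho a o x y := le_rho hne fun n p hn h0 h1 => by
    have := qk_le_chain hh ha hK o n hn p
    rw [h0, h1] at this
    linarith
  linarith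

theorem rho_triangle (o x y z : X) : rho a o x z ≤ rho a o x y + rho a o y z := by
  classical
  by_cases hxy : x = y
  · subst hxy; rw [rho_self, zero_add]
  by_cases hyz : y = z
  · subst hyz; rw [rho_self, add_zero]
  suffices h : ∀ (n : ℕ) (p : ℕ → X), 1 ≤ n → p 0 = x → p n = y →
      rho a o x z - rho a o y z ≤ chainLen a o p n by
    have := le_rho hxy h
    linarith
  intro n p hn hp0 hp1
  suffices h : ∀ (m : ℕ) (r : ℕ → X), 1 ≤ m → r 0 = y → r m = z →
      rho a o x z - chainLen a o p n ≤ chainLen a o r m by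
    have := le_rho hyz h
    linarith
  intro m r hm hr0 hr1
  set s : ℕ → X := fun k => if k < n then p k else r (k - n) with hs
  have h0 : s 0 = x := by rw [hs]; simp [show 0 < n from hn, hp0]
  have h1 : s (n + m) = z := by simp [hs, hr1]
  have h := rho_le_chain (a := a) (o := o) (p := s) (n := n + m) (by omega)
  rw [h0, h1] at h
  have e : chainLen a o s (n + m) = chainLen a o p n + chainLen a o r m := by
    rw [chainLen, sum_range_add]
    refine congrArg₂ (· + ·) (sum_congr rfl fun k hk => ?_) (sum_congr rfl fun k _ => ?_)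
    · rw [mem_range] at hk
      have hk' : s k = p k := if_pos hk
      have hk1 : s (k + 1) = p (k + 1) := by
        by_cases hkn : k + 1 < n
        · exact if_pos hkn
        · simp only [hs, if_neg hkn]
          rw [show k + 1 - n = 0 by omega, hr0, show k + 1 = n by omega, hp1]
      rw [hk', hk1]
    · simp [hs, show ¬ n + k + 1 < n by omega, show n + k + 1 - n = k + 1 by omega]
  linarith

theorem rho_comm (o x y : X) : rho a o x y = rho a o y x := by
  suffices h : ∀ x y, x ≠ y → rho a o x y ≤ rho a o y x by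
    by_cases he : x = y
    · rw [he]
    · exact le_antisymm (h x y he) (h y x fun e => he e.symm)
  intro x y hne
  refine le_rho (fun e => hne e.symm) fun n p hn hp0 hp1 => ?_
  have h := rho_le_chain (a := a) (o := o) (p := fun k => p (n - k)) hn
  simp only [Nat.sub_zero, Nat.sub_self, hp0, hp1] at h
  refine h.trans (le_of_eq ?_)
  rw [chainLen, chainLen, ← sum_range_reflect]
  refine sum_congr rfl fun k hk => ?_
  rw [mem_range] at hk
  rw [qk_comm, show n - (n - 1 - k + 1) = k by omega, show n - (n - 1 - k) = k + 1 by omega]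

theorem rho_map {f : X → X} (hf : ∀ x y, dist (f x) (f y) = dist x y) (hb : Function.Bijective f)
    (o x y : X) : rho a (f o) (f x) (f y) = rho a o x y := by
  by_cases he : x = y
  · subst he; rw [rho_self, rho_self]
  have hne : f x ≠ f y := fun e => he (hb.1 e)
  rw [rho, rho, if_neg hne, if_neg he]
  refine congrArg sInf (Set.ext fun Q => ⟨?_, ?_⟩)
  · rintro ⟨n, p, hn, h0, h1, rfl⟩
    refine ⟨n, fun k => Function.surjInv hb.2 (p k), hn, hb.1 ?_, hb.1 ?_, ?_⟩
    · rw [Function.surjInv_eq hb.2, h0]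
    · rw [Function.surjInv_eq hb.2, h1]
    · refine sum_congr rfl fun k _ => ?_
      simp only [qk]
      rw [← gp_map hf o, Function.surjInv_eq hb.2, Function.surjInv_eq hb.2]
  · rintro ⟨n, p, hn, h0, h1, rfl⟩
    refine ⟨n, fun k => f (p k), hn, congrArg f h0, congrArg f h1, sum_congr rfl fun k _ => ?_⟩
    simp only [qk, gp_map hf]

/-! ### Exact sets -/

/-- The function whose sublevel sets replace half spaces. -/
noncomputable def Sfun (a A : ℝ) (o c x : X) : ℝ := rho a o x c + A * qp a o x

theorem mul_qp_le_Sfun (A : ℝ) (o c x : X) : A * qp a o x ≤ Sfun a A o c x :=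
  le_add_of_nonneg_left (rho_nonneg o x c)

theorem qk_le_of_cone (ha : 0 ≤ a) {o x y : X} {C : ℝ} (h : gp x y o ≤ C) :
    qk a o x y ≤ exp (a * C) * qp a o x := by
  rw [qk, qp, ← exp_add]
  refine exp_le_exp.2 ?_
  rw [gp_eq_sub]
  nlinarith

theorem qp_le_of_cone (ha : 0 ≤ a) {o x y : X} {C L : ℝ} (h : gp x y o ≤ C) (hd : L ≤ dist x y) :
    qp a o y ≤ exp (-a * (L - 2 * C)) * qp a o x := by
  rw [qp, qp, ← exp_add]
  refine exp_le_exp.2 ?_
  rw [dist_eq_gp o x y]
  nlinarith

/-- The function drops in a deep cone away from the root. -/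
theorem Sfun_cone (ha : 0 ≤ a) {A C L : ℝ} (hA : 4 * exp (a * C) ≤ A)
    (hL : exp (-a * (L - 2 * C)) ≤ 1 / 4) {o x y : X} (c : X) (h : gp x y o ≤ C)
    (hd : L ≤ dist x y) : Sfun a A o c y ≤ Sfun a A o c x - A / 2 * qp a o x := by
  have h1 := rho_triangle (a := a) o y x c
  have h2 : rho a o y x ≤ exp (a * C) * qp a o x := by
    rw [rho_comm]
    exact (rho_le_qk o x y).trans (qk_le_of_cone ha h)
  have hA0 : 0 ≤ A := le_trans (by positivity) hA
  have h3 : qp a o y ≤ 1 / 4 * qp a o x :=
    (qp_le_of_cone ha h hd).trans (mul_le_mul_of_nonneg_right hL (qp_pos o x).le)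
  have h4 : A * qp a o y ≤ A * (1 / 4 * qp a o x) := mul_le_mul_of_nonneg_left h3 hA0
  have h5 : exp (a * C) * qp a o x ≤ A / 4 * qp a o x :=
    mul_le_mul_of_nonneg_right (by linarith) (qp_pos o x).le
  simp only [Sfun]
  nlinarith

theorem qp_le_of_near (ha : 0 ≤ a) {o x y : X} {D : ℝ} (h : dist x y ≤ D) :
    qp a o y ≤ exp (a * D) * qp a o x := by
  rw [qp, qp, ← exp_add]
  refine exp_le_exp.2 ?_
  have := dist_triangle o y x
  rw [dist_comm y x] at this
  nlinarith

/-- A short step changes the function by little. -/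
theorem Sfun_near (ha : 0 ≤ a) {A D : ℝ} (hA : 0 ≤ A) {o x y : X} (c : X) (h : dist x y ≤ D) :
    Sfun a A o c y ≤ Sfun a A o c x + (1 + A) * exp (a * D) * qp a o x := by
  have h1 := rho_triangle (a := a) o y x c
  have h2 : rho a o y x ≤ exp (a * D) * qp a o x := by
    rw [rho_comm]
    refine (rho_le_qk o x y).trans (qk_le_of_cone ha ?_)
    exact (gp_le_dist x y o).trans h
  have h3 : A * qp a o y ≤ A * (exp (a * D) * qp a o x) :=
    mul_le_mul_of_nonneg_left (qp_le_of_near ha h) hA
  have h4 : 0 ≤ A * qp a o x := mul_nonneg hA (qp_pos o x).le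
  simp only [Sfun]
  nlinarith

/-! ### Nets, counting, colouring -/

/-- A maximal separated subset. -/
theorem exists_net {α : Type} (K : Set α) (sep : α → α → Prop) (hsymm : ∀ x y, sep x y → sep y x) :
    ∃ N ⊆ K, N.Pairwise sep ∧ ∀ x ∈ K, ∃ c ∈ N, x = c ∨ ¬ sep x c := by
  obtain ⟨N, hN⟩ := zorn_subset {N : Set α | N ⊆ K ∧ N.Pairwise sep} fun c hc hchain =>
    ⟨⋃₀ c, ⟨Set.sUnion_subset fun s hs => (hc hs).1,
      (Set.pairwise_sUnion hchain.directedOn).2 fun s hs => (hc hs).2⟩,
      fun s hs => Set.subset_sUnion_of_mem hs⟩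
  refine ⟨N, hN.prop.1, hN.prop.2, fun x hx => ?_⟩
  by_contra h
  push Not at h
  have hins : insert x N ∈ {N : Set α | N ⊆ K ∧ N.Pairwise sep} :=
    ⟨Set.insert_subset hx hN.prop.1, hN.prop.2.insert fun y hy _ =>
      ⟨(h y hy).2, hsymm _ _ (h y hy).2⟩⟩
  exact (h x (hN.le_of_ge hins (Set.subset_insert x N) (Set.mem_insert x N))).1 rfl

/-- Points one apart in a ball are few. -/
theorem card_ball_le (hp : Packing X) (R : ℝ) :
    ∃ N : ℕ, ∀ (x : X) (s : Finset X), (∀ y ∈ s, dist x y ≤ R) →
      (s : Set X).Pairwise (fun y z => 1 ≤ dist y z) → s.card ≤ N := by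
  obtain ⟨N, hN⟩ := hp R
  refine ⟨N, fun x s hs hsep => hN x 0 le_rfl s (fun y _ => dist_nonneg) fun y hy z hz hne =>
    ⟨hsep hy hz hne, ?_⟩⟩
  rw [sub_zero, abs_of_nonneg (gp_nonneg x y z)]
  exact (gp_le_dist x y z).trans (hs y hy)

/-- Small points that are `s` apart in a visual ball of radius `M s` are few. -/
theorem card_cap_le (hp : Packing X) {δ : ℝ} (hh : Hyp X δ) (ha : 0 < a)
    (hK : exp (a * δ) ^ 2 ≤ 2) (M : ℝ) :
    ∃ N : ℕ, ∀ (o x : X) (s : ℝ), 0 < s → ∀ F : Finset X,
      (∀ c ∈ F, qp a o c ≤ s * exp (-a) ∧ rho a o x c ≤ M * s) →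
      (F : Set X).Pairwise (fun c c' => s ≤ rho a o c c') → F.card ≤ N := by
  classical
  set A : ℝ := max (Real.log (4 * max M 1) / a) 0
  obtain ⟨N, hN⟩ := hp A
  refine ⟨max N 1, fun o x s hs F hF hsep => ?_⟩
  by_cases h1 : F.card ≤ 1
  · exact h1.trans (le_max_right _ _)
  push Not at h1
  obtain ⟨c₀, hc₀, c₁, hc₁, hne₀⟩ := one_lt_card.1 h1
  have hs1 : s ≤ 1 := (hsep hc₀ hc₁ hne₀).trans ((rho_le_qk o c₀ c₁).trans (qk_le_one ha.le o _ _))
  set r := -Real.log s / a
  have hr : 0 ≤ r := div_nonneg (neg_nonneg.2 (Real.log_nonpos hs.le hs1)) ha.le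
  have hsr : s = exp (-a * r) := by
    rw [show -a * r = Real.log s by simp only [r]; field_simp, exp_log hs]
  have hfar : ∀ c ∈ F, r + 1 ≤ dist o c := fun c hc => by
    have h := (hF c hc).1
    rw [qp, hsr, ← exp_add, exp_le_exp] at h
    nlinarith
  refine (hN o r hr F (fun c hc => by have := hfar c hc; linarith) ?_).trans (le_max_left _ _)
  intro c hc c' hc' hne
  have hlow : gp o c c' ≤ r := by
    have h := (hsep hc hc' hne).trans (rho_le_qk o c c')
    rw [qk, hsr, exp_le_exp] at h
    nlinarith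
  refine ⟨?_, abs_le.2 ⟨?_, ?_⟩⟩
  · have h2 := hfar c hc
    have h3 := hfar c' hc'
    rw [gp] at hlow
    linarith
  · have h2 := rho_triangle (a := a) o c x c'
    rw [rho_comm o c x] at h2
    have h3 := qk_le_rho hh ha.le hK o hne
    have h4 : qk a o c c' ≤ 4 * max M 1 * s := by
      have := (hF c hc).2
      have := (hF c' hc').2
      nlinarith [le_max_left M 1]
    rw [qk] at h4
    have h5 := Real.log_le_log (exp_pos _) h4
    rw [Real.log_exp, Real.log_mul (by positivity) hs.ne', hsr, Real.log_exp] at h5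
    have h6 : Real.log (4 * max M 1) ≤ a * A := by
      refine le_trans (le_of_eq ?_) (mul_le_mul_of_nonneg_left (le_max_left _ _) ha.le)
      field_simp
    nlinarith
  · have : (0 : ℝ) ≤ A := le_max_right _ _
    linarith

/-- Few neighbours give few colours. -/
theorem exists_colouring {α : Type} (s : Finset α) (R : α → α → Prop) (hsymm : ∀ x y, R x y → R y x)
    {N : ℕ} (hN : ∀ x ∈ s, ∀ t : Finset α, t ⊆ s → (∀ y ∈ t, R x y ∧ y ≠ x) → t.card ≤ N) :
    ∃ col : α → Fin (N + 1), ∀ x ∈ s, ∀ y ∈ s, x ≠ y → R x y → col x ≠ col y := by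
  classical
  induction s using Finset.induction_on with
  | empty => exact ⟨fun _ => 0, by simp⟩
  | @insert x s hx ih =>
    obtain ⟨col, hcol⟩ := ih fun y hy t ht => hN y (mem_insert_of_mem hy) t
      (ht.trans (subset_insert x s))
    set used := (s.filter (R x)).image col
    have hcard : used.card < (univ : Finset (Fin (N + 1))).card := by
      rw [card_univ, Fintype.card_fin]
      refine Nat.lt_succ_of_le (card_image_le.trans (hN x (mem_insert_self x s) _
        ((filter_subset _ _).trans (subset_insert x s)) fun y hy => ?_))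
      obtain ⟨hys, hxy⟩ := mem_filter.1 hy
      exact ⟨hxy, fun h => hx (h ▸ hys)⟩
    obtain ⟨k, -, hk⟩ := exists_mem_notMem_of_card_lt_card hcard
    refine ⟨Function.update col x k, fun y hy z hz hne hR => ?_⟩
    rcases mem_insert.1 hy with rfl | hy' <;> rcases mem_insert.1 hz with rfl | hz'
    · exact absurd rfl hne
    · rw [Function.update_self, Function.update_of_ne hne.symm]
      exact fun h => hk (mem_image.2 ⟨z, mem_filter.2 ⟨hz', hR⟩, h.symm⟩)
    · rw [Function.update_self, Function.update_of_ne hne]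
      exact fun h => hk (mem_image.2 ⟨y, mem_filter.2 ⟨hy', hsymm _ _ hR⟩, h⟩)
    · rw [Function.update_of_ne fun h : y = x => hx (h ▸ hy'),
        Function.update_of_ne fun h : z = x => hx (h ▸ hz')]
      exact hcol y hy' z hz' hne hR

end Vale.Agent.P165.HY
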