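import Vale.Agent.P165.HY.Geo

/-!
# From the geometric pieces to the abstract setting
-/

namespace Vale.Agent.P165.HY.Env

open Finset

variable {Γ O ι V X : Type} [Group Γ] [PseudoMetricSpace X] [Fintype ι] (E : Env Γ O ι V X)

theorem pos_Φ_inv (γ : Γ) (v : V) : E.pos (E.Φ γ⁻¹ v) = E.act γ⁻¹ (E.pos v) := E.pos_eq _ _

theorem one_le_A : 1 ≤ E.A := by
  have h : 0 ≤ E.a * (2 * E.Cf) := mul_nonneg (expo_pos _).le (by linarith [E.one_le_Cf])
  have := Real.add_one_le_exp (E.a * (2 * E.Cf))
  rw [A]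
  linarith

theorem four_le_A : 4 ≤ E.A := by
  have h : 0 ≤ E.a * (2 * E.Cf) := mul_nonneg (expo_pos _).le (by linarith [E.one_le_Cf])
  have := Real.add_one_le_exp (E.a * (2 * E.Cf))
  rw [A]
  linarith

theorem rad_pos (j : ℕ) : 0 < rad j := by unfold rad; positivity

theorem rad_le_one (j : ℕ) : rad j ≤ 1 := pow_le_one₀ (by norm_num) (by norm_num)

theorem cap_hull (e : ℕ × X) : E.cap e ⊆ E.hull e := fun v (hv : Sfun _ _ _ _ _ < _) =>
  hv.trans_le (mul_le_mul_of_nonneg_right (by norm_num) (rad_pos e.1).le)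

theorem cap_ok (e : ℕ × X) (he : E.Strict e) : E.cap e ⊆ E.ok ∧ E.a₁ ∉ E.cap e := by
  refine ⟨fun v hv hB => Set.disjoint_left.1 he.2 (E.cap_hull e hv) ?_, fun h => ?_⟩
  · show E.k₂ < _
    have hB' : E.k₀ < _ := hB
    linarith [E.hk₀, E.δ_nonneg, E.one_le_Cf]
  · have h1 : E.A * qp E.a E.t₀ E.t₀ ≤ _ := mul_qp_le_Sfun (a := E.a) E.A E.t₀ e.2 E.t₀
    have h2 : Sfun E.a E.A E.t₀ e.2 E.t₀ < 2 * rad e.1 := h
    rw [qp, dist_self, mul_zero, Real.exp_zero, mul_one] at h1
    linarith [E.four_le_A, rad_le_one e.1]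

theorem sph_map (γ : Γ) (x y : V) : E.sph (E.Φ γ x) (E.Φ γ y) = E.sph x y := by
  rw [sph, sph, E.pos_eq, E.pos_eq, E.isom]

theorem kap_sph (x y : V) : E.sph x y ≤ (E.kap x y).1 + (E.kap x y).2 + 2 ∧
    (E.kap x y).1 + (E.kap x y).2 ≤ E.sph x y + 2 := by
  set g := gp (E.pos x) (E.pos y) E.t₀
  set g' := gp (E.pos y) (E.pos x) E.t₀
  have hs : g + g' = dist (E.pos x) (E.pos y) := gp_split _ _ _
  have hg := gp_nonneg (E.pos x) (E.pos y) E.t₀
  have hg' := gp_nonneg (E.pos y) (E.pos x) E.t₀
  have a1 := Nat.floor_le hg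
  have a2 := Nat.floor_le hg'
  have a3 := Nat.lt_floor_add_one g
  have a4 := Nat.lt_floor_add_one g'
  have a5 := Nat.floor_le (show (0 : ℝ) ≤ dist (E.pos x) (E.pos y) from dist_nonneg)
  have a6 := Nat.lt_floor_add_one (dist (E.pos x) (E.pos y))
  constructor
  · have : ((E.sph x y : ℕ) : ℝ) ≤ (((E.kap x y).1 + (E.kap x y).2 + 2 : ℕ) : ℝ) := by
      simp only [sph, kap, g, g'] at *; push_cast; linarith
    exact_mod_cast this
  · have : (((E.kap x y).1 + (E.kap x y).2 : ℕ) : ℝ) ≤ ((E.sph x y + 2 : ℕ) : ℝ) := by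
      simp only [sph, kap, g, g'] at *; push_cast; linarith
    exact_mod_cast this

theorem dist_walk {x y : V} (w : E.G.Walk x y) :
    dist (E.pos x) (E.pos y) ≤ E.D * w.length := by
  induction w with
  | nil => simp
  | @cons u v _ h w ih =>
    refine (dist_triangle _ (E.pos v) _).trans ?_
    rw [SimpleGraph.Walk.length_cons, Nat.cast_succ, mul_add, mul_one, add_comm]
    exact add_le_add ih (E.lip _ _ h)

/-- The geometric pieces give the abstract setting. -/
theorem exists_core (h1 : E.CountOK) (h2 : E.ManyOK) (h3 : E.StepOK) (h4 : E.SpreadOK)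
    (h5 : E.CutsOK) (h6 : E.RowsOK) : ∃ C : Core Γ V O ι, C.G = E.G ∧ C.nb = E.nb := by
  obtain ⟨n1, h1⟩ := h1
  obtain ⟨n3, h3⟩ := h3
  obtain ⟨n4, h4⟩ := h4
  obtain ⟨n5, h5⟩ := h5
  obtain ⟨n6, h6⟩ := h6
  set N := n1 + n3 + n4 + n5 + n6 + ⌈E.D⌉₊ + 2 with hN
  exact ⟨{ G := E.G
           nb := E.nb
           hl := E.hl
           conn := E.conn
           Φ := E.Φ
           rep := E.rep
           sec := E.sec
           typ := E.typ
           sec_spec := E.sec_spec
           a₁ := E.a₁
           ok := E.ok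
           ok₁ := E.ok₁
           ok₁_sub := fun v (hv : ¬ (E.k₁ < _)) (h : E.k₀ < _) => hv
             (lt_trans (by linarith [E.hk₂, E.hk₀, E.δ_nonneg, E.one_le_Cf]) h)
           a₁_ok₁ := fun h => by
             have h' : E.k₁ < gp (E.act 1 E.t₀) E.t₀ (E.act 1 E.b) := h
             simp only [map_one, Equiv.Perm.one_apply, gp, dist_self] at h'
             linarith [E.hk₁, E.δ_nonneg, E.one_le_Cf]
           N := N
           one_le_N := by omega
           blk := E.blk
           one_le_blk := E.one_le_blk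
           Tgt := ℕ × X
           cap := E.cap
           hull := E.hull
           Strict := E.Strict
           lev := Prod.fst
           cap_hull := E.cap_hull
           cap_ok := E.cap_ok
           count := h1 N (by omega)
           many := h2
           step := h3 N (by omega)
           Thin := E.Thin
           thin_mono := fun h ⟨hY, w, d, hd⟩ => ⟨h.trans hY, w, d, fun y hy => hd y (h hy)⟩
           thin_ok := fun h => h.1
           spread := h4 N (by omega)
           sph := E.sph
           sph_self := fun x => by simp [sph]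
           sph_map := E.sph_map
           sph_le := fun x y k ⟨w, hw, _⟩ => by
             refine Nat.floor_le_of_le ((E.dist_walk w).trans ?_)
             have hD := Nat.le_ceil E.D
             have hk : (w.length : ℝ) ≤ k := Nat.cast_le.2 hw
             have hNc : (⌈E.D⌉₊ : ℝ) ≤ N := Nat.cast_le.2 (by omega)
             push_cast
             nlinarith [E.D_nonneg, (Nat.cast_nonneg k : (0 : ℝ) ≤ k),
               (Nat.cast_nonneg N : (0 : ℝ) ≤ N), (Nat.cast_nonneg w.length : (0:ℝ) ≤ w.length)]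
           cuts := h5 N (by omega)
           kap := E.kap
           kap_swap := fun x y => rfl
           kap_sph := fun x y => by have := E.kap_sph x y; omega
           rows := h6 N (by omega) }, rfl, rfl⟩

end Vale.Agent.P165.HY.Env
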