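import Vale.Agent.P165.HY.Core
import Vale.Agent.P165.FQ.Basic

/-!
# Translations, balls, connection probabilities in the abstract setting
-/

namespace Vale.Agent.P165.HY.Core

open Finset FF
open Vale.Agent.P165.FP (hit)
open Vale.Agent.P165.FQ

variable {Γ O ι V : Type} [Group Γ] [Fintype ι] (E : Core Γ V O ι)

theorem Φ_mul (γ δ : Γ) (v : V) : E.Φ (γ * δ) v = E.Φ γ (E.Φ δ v) := by rw [map_mul]; rfl

theorem Φ_inv (γ : Γ) (v : V) : E.Φ γ⁻¹ (E.Φ γ v) = v := by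
  rw [← E.Φ_mul, inv_mul_cancel, map_one]; rfl

theorem Φ_Φ_inv (γ : Γ) (v : V) : E.Φ γ (E.Φ γ⁻¹ v) = v := by
  rw [← E.Φ_mul, mul_inv_cancel, map_one]; rfl

theorem mem_shift {γ : Γ} {K : Set V} {v : V} : E.Φ γ v ∈ shift E.Φ γ K ↔ v ∈ K := by
  show E.Φ γ⁻¹ (E.Φ γ v) ∈ K ↔ _
  rw [E.Φ_inv]

theorem shift_shift (γ δ : Γ) (K : Set V) :
    shift E.Φ γ (shift E.Φ δ K) = shift E.Φ (γ * δ) K := by
  ext v
  show E.Φ δ⁻¹ (E.Φ γ⁻¹ v) ∈ K ↔ E.Φ (γ * δ)⁻¹ v ∈ K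
  rw [mul_inv_rev, E.Φ_mul]

theorem exists_map_walk (γ : Γ) {a c : V} (w : E.G.Walk a c) :
    ∃ w' : E.G.Walk (E.Φ γ a) (E.Φ γ c), w'.length = w.length ∧
      ∀ v ∈ w'.support, ∃ u ∈ w.support, E.Φ γ u = v := by
  refine ⟨w.map (E.Φ γ).toHom, SimpleGraph.Walk.length_map _ _, fun v hv => ?_⟩
  have hv2 := (congrArg (v ∈ ·) (SimpleGraph.Walk.support_map _ w)).mp hv
  exact List.mem_map.1 hv2

theorem link_tr (γ : Γ) {S : Set V} {k : ℕ} {a c : V} (h : Link E.G S k a c) :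
    Link E.G (shift E.Φ γ S) k (E.Φ γ a) (E.Φ γ c) := by
  obtain ⟨w, hw, hs⟩ := h
  obtain ⟨w', hw', hs'⟩ := E.exists_map_walk γ w
  refine ⟨w', hw'.trans_le hw, fun v hv => ?_⟩
  obtain ⟨u, hu, rfl⟩ := hs' v hv
  exact E.mem_shift.2 (hs u hu)

variable [DecidableEq V]

/-! ### Balls -/

theorem mem_ball {n : ℕ} {a y : V} :
    y ∈ E.ball a n ↔ ∃ w : E.G.Walk a y, w.length ≤ n := by
  simp only [ball, QT.wball, mem_biUnion, mem_range, QT.walkBall_mem E.hl]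
  exact ⟨fun ⟨r, hr, w, hw⟩ => ⟨w, by omega⟩, fun ⟨w, hw⟩ => ⟨w.length, by omega, w, rfl⟩⟩

theorem self_mem_ball (a : V) (n : ℕ) : a ∈ E.ball a n :=
  E.mem_ball.2 ⟨.nil, Nat.zero_le n⟩

theorem sph_le_of_mem {a y : V} {n : ℕ} (h : y ∈ E.ball a n) : E.sph a y ≤ E.N * (n + 1) := by
  obtain ⟨w, hw⟩ := E.mem_ball.1 h
  exact E.sph_le a y n ⟨w, hw, fun _ _ => Set.mem_univ _⟩

theorem covers_ball (n : ℕ) : Covers E.G (fun x => E.ball x n) n := fun _ _ w hw v hv =>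
  E.mem_ball.2 ⟨w.takeUntil v hv, (w.length_takeUntil_le_length hv).trans hw⟩

theorem ball_subset {a z : V} {K K' n : ℕ} (hz : z ∈ E.ball a K) (hn : K + K' ≤ n) :
    E.ball z K' ⊆ E.ball a n := fun y hy => by
  obtain ⟨w, hw⟩ := E.mem_ball.1 hz
  obtain ⟨w', hw'⟩ := E.mem_ball.1 hy
  exact E.mem_ball.2 ⟨w.append w', by rw [SimpleGraph.Walk.length_append]; omega⟩

theorem ball_mono (a : V) {n n' : ℕ} (h : n ≤ n') : E.ball a n ⊆ E.ball a n' :=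
  E.ball_subset (E.self_mem_ball a 0) (by omega)

theorem image_ball (γ : Γ) (a : V) (n : ℕ) :
    (E.ball a n).image (E.Φ γ) = E.ball (E.Φ γ a) n := by
  have key : ∀ γ a y, y ∈ E.ball a n → E.Φ γ y ∈ E.ball (E.Φ γ a) n := fun γ a y hy => by
    obtain ⟨w, hw⟩ := E.mem_ball.1 hy
    obtain ⟨w', hw', -⟩ := E.exists_map_walk γ w
    exact E.mem_ball.2 ⟨w', hw'.trans_le hw⟩
  ext y
  rw [mem_image]
  refine ⟨fun ⟨z, hz, e⟩ => e ▸ key γ a z hz, fun h => ⟨E.Φ γ⁻¹ y, ?_, ?_⟩⟩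
  · have h2 := key γ⁻¹ _ _ h
    rwa [E.Φ_inv] at h2
  · rw [← E.Φ_mul, mul_inv_cancel, map_one]; rfl

theorem mem_om {ρ : ℕ} {v : V} : v ∈ E.om ρ ↔ v ∈ E.ball E.a₁ ρ ∧ v ∈ E.ok := by
  simp only [om, mem_filter]

theorem a₁_mem_om (ρ : ℕ) : E.a₁ ∈ E.om ρ :=
  E.mem_om.2 ⟨E.self_mem_ball _ ρ, E.ok₁_sub E.a₁_ok₁⟩

theorem om_mono {ρ ρ' : ℕ} (h : ρ ≤ ρ') : E.om ρ ⊆ E.om ρ' := by
  classical
  exact filter_subset_filter _ (E.ball_mono _ h)

/-! ### Short connections -/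

variable {p : ℝ}

theorem tau_nonneg (h0 : 0 ≤ p) (h1 : p ≤ 1) (K : ℕ) (a y : V) : 0 ≤ E.tau p K a y :=
  tauW_nonneg _ h0 h1 _ _ _

theorem tau_le_one (h0 : 0 ≤ p) (h1 : p ≤ 1) (K : ℕ) (a y : V) : E.tau p K a y ≤ 1 :=
  tauW_le_one _ h0 h1 _ _ _

theorem tau_self (p : ℝ) (K : ℕ) (a : V) : E.tau p K a a = 1 := tauW_self _ p a K

theorem tauW_le_tau (h0 : 0 ≤ p) (h1 : p ≤ 1) (S : Finset V) (K : ℕ) (a y : V) :
    tauW E.nb S p a y K ≤ E.tau p K a y :=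
  tauW_le_window E.hl (E.covers_ball K) S h0 h1 a y

theorem tau_eq_zero {K : ℕ} {a y : V} (h : y ∉ E.ball a K) : E.tau p K a y = 0 :=
  tauW_eq_zero E.hl (E.covers_ball K) _ p fun hc => h hc.1

theorem tau_comm (h0 : 0 ≤ p) (h1 : p ≤ 1) (K : ℕ) (a y : V) :
    E.tau p K a y = E.tau p K y a := by
  refine le_antisymm ?_ ?_
  · rw [tau, tauW_comm]
    exact E.tauW_le_tau h0 h1 _ K y a
  · rw [tau, tauW_comm]
    exact E.tauW_le_tau h0 h1 _ K a y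

theorem tau_tr (p : ℝ) (K : ℕ) (γ : Γ) (a y : V) :
    E.tau p K (E.Φ γ a) (E.Φ γ y) = E.tau p K a y := by
  rw [tau, tau, ← E.image_ball]
  exact tauW_map E.hl (E.Φ γ) _ p a y K

theorem tau_mono (h0 : 0 ≤ p) (h1 : p ≤ 1) {K K' : ℕ} (h : K ≤ K') (a y : V) :
    E.tau p K a y ≤ E.tau p K' a y :=
  tauW_mono E.hl (E.ball_mono a h) h h0 h1 a y

open Classical in
/-- A sum of short connections from `a` is a sum from the representative of its orbit. -/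
theorem sum_tau_rep (h0 : 0 ≤ p) (h1 : p ≤ 1) (K : ℕ) (a : V) (F : Finset V) (P : V → Prop)
    (hP : ∀ y ∈ F, P y) :
    ∑ y ∈ F, E.tau p K a y ≤
      ∑ y ∈ (E.ball (E.rep (E.typ a)) K).filter (fun y => P (E.Φ (E.sec a) y)),
        E.tau p K (E.rep (E.typ a)) y := by
  set γ := E.sec a
  have e : E.Φ γ (E.rep (E.typ a)) = a := E.sec_spec a
  calc ∑ y ∈ F, E.tau p K a y
      = ∑ y ∈ F.filter (fun y => y ∈ E.ball a K), E.tau p K a y :=
        (sum_filter_of_ne fun y _ hne => by_contra fun h => hne (E.tau_eq_zero h)).symm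
    _ ≤ ∑ y ∈ ((E.ball (E.rep (E.typ a)) K).filter
          fun y => P (E.Φ γ y)).image (E.Φ γ), E.tau p K a y := by
        refine sum_le_sum_of_subset_of_nonneg (fun y hy => ?_)
          fun y _ _ => E.tau_nonneg h0 h1 K a y
        obtain ⟨hy1, hy2⟩ := mem_filter.1 hy
        rw [← e, ← E.image_ball] at hy2
        obtain ⟨u, hu, rfl⟩ := mem_image.1 hy2
        refine mem_image.2 ⟨u, mem_filter.2 ⟨hu, ?_⟩, rfl⟩
        exact hP _ hy1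
    _ = _ := by
        rw [sum_image fun x _ y _ h => (E.Φ γ).injective h]
        refine sum_congr rfl fun y _ => ?_
        conv_lhs => rw [← e]
        exact E.tau_tr p K γ _ _

theorem shell_nonneg (h0 : 0 ≤ p) (h1 : p ≤ 1) (K : ℕ) (o : O) (j : ℕ) : 0 ≤ E.shell p K o j :=
  sum_nonneg fun _ _ => E.tau_nonneg h0 h1 _ _ _

variable [Fintype O]

theorem shell_le_own (h0 : 0 ≤ p) (h1 : p ≤ 1) (K : ℕ) (o : O) (j : ℕ) :
    E.shell p K o j ≤ E.own p K := by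
  classical
  have key : ∀ q ∈ (univ : Finset O) ×ˢ range (E.N * (K + 1) + 1),
      E.shell p K q.1 q.2 ≤ E.own p K := by
    intro q hq
    unfold own
    exact Finset.le_sup' (f := fun q : O × ℕ => E.shell p K q.1 q.2) hq
  by_cases hj : j ≤ E.N * (K + 1)
  · exact key (o, j) (mem_product.2 ⟨mem_univ o, mem_range.2 (Nat.lt_succ_of_le hj)⟩)
  · refine le_trans (le_of_eq ?_) ((E.shell_nonneg h0 h1 K o 0).trans
      (key (o, 0) (mem_product.2 ⟨mem_univ o, mem_range.2 (Nat.succ_pos _)⟩)))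
    unfold shell
    refine sum_eq_zero fun y hy => absurd ?_ hj
    obtain ⟨h2, h3⟩ := mem_filter.1 hy
    exact h3 ▸ E.sph_le_of_mem h2

theorem own_nonneg (h0 : 0 ≤ p) (h1 : p ≤ 1) (K : ℕ) : 0 ≤ E.own p K :=
  (E.shell_nonneg h0 h1 K (E.typ E.a₁) 0).trans (E.shell_le_own h0 h1 K (E.typ E.a₁) 0)

/-- The points of one class at any start are bounded by `own`. -/
theorem sum_shell_le (h0 : 0 ≤ p) (h1 : p ≤ 1) (K : ℕ) (a : V) (F : Finset V) (j : ℕ)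
    (hF : ∀ y ∈ F, E.sph a y = j) : ∑ y ∈ F, E.tau p K a y ≤ E.own p K := by
  classical
  have h := E.sum_tau_rep h0 h1 K a F (fun q => E.sph a q = j) hF
  refine h.trans ((le_of_eq ?_).trans (E.shell_le_own h0 h1 K (E.typ a) j))
  refine sum_congr (Finset.ext fun y => ?_) fun _ _ => rfl
  have e : E.sph a (E.Φ (E.sec a) y) = E.sph (E.rep (E.typ a)) y := by
    conv_lhs => rw [← E.sec_spec a]
    rw [E.sec_spec, ← E.sph_map (E.sec a) (E.rep (E.typ a)) y, E.sec_spec]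
  simp only [mem_filter, e]

/-- The points of the classes up to `J` at any start. -/
theorem sum_near_le (h0 : 0 ≤ p) (h1 : p ≤ 1) (K : ℕ) (a : V) (F : Finset V) (J : ℕ)
    (hF : ∀ y ∈ F, E.sph a y ≤ J) :
    ∑ y ∈ F, E.tau p K a y ≤ ((J : ℝ) + 1) * E.own p K := by
  classical
  rw [← sum_fiberwise_of_maps_to (g := fun y => E.sph a y)
    (t := range (J + 1)) fun y hy => mem_range.2 (Nat.lt_succ_of_le (hF y hy))]
  refine (sum_le_card_nsmul _ _ _ fun j _ => E.sum_shell_le h0 h1 K a _ j fun y hy =>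
    (mem_filter.1 hy).2).trans (le_of_eq ?_)
  rw [card_range, nsmul_eq_mul, Nat.cast_succ]

theorem sum_tau_le_vol (h0 : 0 ≤ p) (h1 : p ≤ 1) (F : Finset V) (K : ℕ) (a : V) :
    ∑ y ∈ F, E.tau p K a y ≤ E.vol p K := by
  classical
  have h := E.sum_tau_rep h0 h1 K a F (fun _ => True) fun _ _ => trivial
  simp only [filter_true] at h
  exact h.trans (single_le_sum (f := fun o => ∑ y ∈ E.ball (E.rep o) K, E.tau p K (E.rep o) y)
    (fun o _ => sum_nonneg fun y _ => E.tau_nonneg h0 h1 K _ y) (mem_univ _))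

theorem one_le_vol (h0 : 0 ≤ p) (h1 : p ≤ 1) (K : ℕ) : 1 ≤ E.vol p K := by
  refine le_trans ?_ (E.sum_tau_le_vol h0 h1 {E.a₁} K E.a₁)
  rw [sum_singleton, E.tau_self]

theorem vol_nonneg (h0 : 0 ≤ p) (h1 : p ≤ 1) (K : ℕ) : 0 ≤ E.vol p K :=
  zero_le_one.trans (E.one_le_vol h0 h1 K)

theorem one_le_own (h0 : 0 ≤ p) (h1 : p ≤ 1) (K : ℕ) : 1 ≤ E.own p K := by
  refine le_trans ?_ (E.sum_shell_le h0 h1 K E.a₁ {E.a₁} 0 fun y hy => ?_)
  · rw [sum_singleton, E.tau_self]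
  · rw [mem_singleton.1 hy, E.sph_self]

/-- The volume through the shells. -/
theorem vol_le_own (h0 : 0 ≤ p) (h1 : p ≤ 1) (K : ℕ) :
    E.vol p K ≤ (Fintype.card O : ℝ) * (((E.N * (K + 1) : ℕ) : ℝ) + 1) * E.own p K := by
  refine (sum_le_card_nsmul _ _ ((((E.N * (K + 1) : ℕ) : ℝ) + 1) * E.own p K) fun o _ =>
    E.sum_near_le h0 h1 K _ _ _ fun y hy => E.sph_le_of_mem hy).trans (le_of_eq ?_)
  rw [nsmul_eq_mul, card_univ, mul_assoc]

/-- The representatives meet every orbit. -/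
theorem cover_rep (v : V) : ∃ g, E.Φ g v ∈ (univ : Finset O).image E.rep :=
  ⟨(E.sec v)⁻¹, mem_image.2 ⟨E.typ v, mem_univ _, by
    have h := congrArg (E.Φ (E.sec v)⁻¹) (E.sec_spec v)
    rwa [E.Φ_inv] at h⟩⟩

end Vale.Agent.P165.HY.Core
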