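import Vale.Agent.P165.HY.Basic
import Vale.Agent.P165.QT.Glue
import Vale.Agent.P165.QT.Threshold
import Vale.Agent.P165.FQ.Chains
import Vale.Agent.P165.FQ.Tail
import Vale.Agent.P165.FQ.Data

/-!
# The bound on separated targets, its exponent, and the short volume

A connection into a target is continued at its gate by a frame, and a family of targets is so carried
into it up to the multiplicity. The sums of the chances grow at most linearly in the window below the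
last subcritical parameter, while joining would make them grow geometrically.
-/

namespace Vale.Agent.P165.HY.Core

open Finset FF Filter Topology
open Vale.Agent.P165.FP (OnBlock hit hit_nonneg hit_le_one hit_mono hit_continuous hit_self
  hit_move)
open Vale.Agent.P165.FQ (hitN HitN exists_walk_le hitN_nonneg hitN_map hitN_mono)
open Vale.Agent.P165.QT (Sub Witness glue_weights susceptibility)

variable {Γ O ι V : Type} [Group Γ] [Fintype ι] (E : Core Γ V O ι) {p : ℝ}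

theorem c₁_pos (hp : 0 < p) : 0 < E.c₁ p := div_pos (pow_pos hp _) two_pos

theorem c₁_nonneg (hp : 0 ≤ p) : 0 ≤ E.c₁ p := div_nonneg (pow_nonneg hp _) two_pos.le

theorem c₁_le_half (h0 : 0 ≤ p) (h1 : p ≤ 1) : E.c₁ p ≤ 1 / 2 :=
  div_le_div_of_nonneg_right (pow_le_one₀ h0 h1) two_pos.le

theorem c₁_le_one (h0 : 0 ≤ p) (h1 : p ≤ 1) : E.c₁ p ≤ 1 :=
  (E.c₁_le_half h0 h1).trans (by norm_num)

theorem c₁_le_pow (h0 : 0 ≤ p) : E.c₁ p ≤ p ^ E.blk :=
  div_le_self (pow_nonneg h0 _) one_le_two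

theorem continuous_c₁ : Continuous fun p : ℝ => E.c₁ p := (continuous_pow _).div_const _

theorem cast_N_pos : (0 : ℝ) < E.N := Nat.cast_pos.2 E.one_le_N

variable [DecidableEq V]

theorem psi_nonneg (ρ : ℕ) (h0 : 0 ≤ p) (h1 : p ≤ 1) (e : E.Tgt) : 0 ≤ E.Psi ρ p e :=
  hit_nonneg _ h0 h1 _ _

theorem psi_le_one (ρ : ℕ) (h0 : 0 ≤ p) (h1 : p ≤ 1) (e : E.Tgt) : E.Psi ρ p e ≤ 1 :=
  hit_le_one _ h0 h1 _ _

theorem psi_mono {ρ ρ' : ℕ} (h : ρ ≤ ρ') (h0 : 0 ≤ p) (h1 : p ≤ 1) (e : E.Tgt) :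
    E.Psi ρ p e ≤ E.Psi ρ' p e :=
  hit_mono E.hl (E.om_mono h) Set.Subset.rfl h0 h1 _

theorem psiN_nonneg (ρ n : ℕ) (h0 : 0 ≤ p) (h1 : p ≤ 1) (e : E.Tgt) : 0 ≤ E.PsiN ρ n p e :=
  hitN_nonneg _ h0 h1 _ _ _

theorem psiN_mono {ρ ρ' n n' : ℕ} (h : ρ ≤ ρ') (hn : n ≤ n') (h0 : 0 ≤ p) (h1 : p ≤ 1)
    (e : E.Tgt) : E.PsiN ρ n p e ≤ E.PsiN ρ' n' p e :=
  hitN_mono E.hl (E.om_mono h) Set.Subset.rfl hn h0 h1 _

theorem psiN_le_psi (ρ n : ℕ) (h0 : 0 ≤ p) (h1 : p ≤ 1) (e : E.Tgt) :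
    E.PsiN ρ n p e ≤ E.Psi ρ p e :=
  FQ.hitN_le_hit _ _ h0 h1 _ _ _

theorem psi_le_psiN (ρ : ℕ) (h0 : 0 ≤ p) (h1 : p ≤ 1) (e : E.Tgt) :
    E.Psi ρ p e ≤ E.PsiN ρ (inE E.nb (E.om ρ)).card p e :=
  avg_mono _ h0 h1 fun η hη => ind_mono fun ⟨t, ht, hc⟩ => by
    obtain ⟨w, hw⟩ := exists_walk_le hc
    exact ⟨t, ht, w, hw.trans (card_le_card hη)⟩

theorem continuous_psi (ρ : ℕ) (e : E.Tgt) : Continuous fun p : ℝ => E.Psi ρ p e :=
  hit_continuous _ _ _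

/-- A target with a positive chance meets the window. -/
theorem exists_mem_of_psiN_pos {ρ n : ℕ} (h0 : 0 ≤ p) (h1 : p ≤ 1) {e : E.Tgt}
    (h : 0 < E.PsiN ρ n p e) : ∃ u ∈ E.cap e, u ∈ E.om ρ := by
  by_contra hne
  refine absurd h (not_lt.2 ((avg_mono (g := fun _ => (0 : ℝ)) _ h0 h1 fun η hη => ?_).trans
    (le_of_eq (by simp [avg]))))
  refine le_of_eq (if_neg ?_)
  rintro ⟨t, ht, w, -⟩
  exact hne ⟨t, ht, FP.support_in (P := fun v => v ∈ E.om ρ) (fun c c' hcd => inE_mem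
    (hη (mem_coe.1 ((SimpleGraph.fromEdgeSet_adj _).1 hcd).1)) (Sym2.mem_mk_right c c'))
    w (E.a₁_mem_om ρ) t w.end_mem_support⟩

theorem nonempty_of_psi_pos {ρ : ℕ} (h0 : 0 ≤ p) (h1 : p ≤ 1) {e : E.Tgt}
    (h : 0 < E.Psi ρ p e) : (E.cap e).Nonempty := by
  obtain ⟨u, hu, -⟩ := E.exists_mem_of_psiN_pos h0 h1 (h.trans_le (E.psi_le_psiN ρ h0 h1 e))
  exact ⟨u, hu⟩

open Classical in
/-- Steps 1 and 2: a family of targets is carried into a target. -/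
theorem exists_step (h0 : 0 ≤ p) (h1 : p ≤ 1) (ρ ρ' ℓ : ℕ) {v : E.Tgt} (hv : E.Strict v)
    (F : Finset E.Tgt) (hF : ∀ w ∈ F, E.Strict w) :
    ∃ S : Finset E.Tgt, (∀ f ∈ S, E.Strict f ∧ E.hull f ⊆ E.hull v ∧ (E.hull f).Nonempty) ∧
      ∀ t : ℝ, 0 ≤ t → ∑ w ∈ F, min (p ^ E.blk * E.Psi ρ p v * E.PsiN ρ' ℓ p w) t ≤
        E.N * ∑ f ∈ S,
          min (E.PsiN (ρ + E.blk + ρ') ((inE E.nb (E.om ρ)).card + E.blk + ℓ) p f) t := by
  have : Nonempty E.Tgt := ⟨v⟩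
  choose! γ img hlink hok himg hmult using fun z (hz : Gate E.G (E.cap v) z) => E.step v hv z hz
  set S0 := E.om (ρ + E.blk + ρ') with hS0
  set Z := (E.om ρ).filter (Gate E.G (E.cap v))
  have hZg : ∀ z ∈ Z, Gate E.G (E.cap v) z := fun z hz => (mem_filter.1 hz).2
  choose P hPlen hPs using hlink
  have hball : ∀ z (hz : z ∈ Z), ∀ x ∈ (P z (hZg z hz)).support,
      x ∈ E.ball E.a₁ (ρ + E.blk) := fun z hz x hx =>
    E.ball_subset (E.mem_om.1 (mem_filter.1 hz).1).1 le_rfl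
      (E.covers_ball E.blk z _ (P z (hZg z hz)) (hPlen z _) x hx)
  have hsupp : ∀ z (hz : z ∈ Z), ∀ x ∈ (P z (hZg z hz)).support, x ∈ S0 := fun z hz x hx =>
    E.mem_om.2 ⟨E.ball_mono _ (by omega) (hball z hz x hx), hPs z _ x hx⟩
  let S2 : V → Finset V := fun z => (E.om ρ').image (E.Φ (γ z))
  have hS2 : ∀ z ∈ Z, S2 z ⊆ S0 ∧ ∀ x ∈ S2 z, x ∈ E.cap v := by
    intro z hz
    have hmem : ∀ x ∈ S2 z, x ∈ E.cap v := by
      intro x hx
      obtain ⟨u, hu, rfl⟩ := mem_image.1 hx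
      exact hok z (hZg z hz) (E.mem_shift.2 (E.mem_om.1 hu).2)
    refine ⟨fun x hx => E.mem_om.2 ⟨?_, (E.cap_ok v hv).1 (hmem x hx)⟩, hmem⟩
    obtain ⟨u, hu, rfl⟩ := mem_image.1 hx
    refine E.ball_subset (hball z hz _ (P z (hZg z hz)).end_mem_support) le_rfl ?_
    rw [← E.image_ball]
    exact mem_image_of_mem _ (E.mem_om.1 hu).1
  let B : V → Finset (Sym2 V) := fun z =>
    if h : Gate E.G (E.cap v) z then (P z h).edges.toFinset else ∅
  have hB : ∀ z ∈ Z, B z ⊆ inE E.nb S0 ∧ (B z).card ≤ E.blk ∧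
      ∀ x, OnBlock B z x → cl (B z) x (E.Φ (γ z) E.a₁) := by
    intro z hz
    have e : B z = (P z (hZg z hz)).edges.toFinset := dif_pos _
    have htoB : ∀ x ∈ (P z (hZg z hz)).support, cl (B z) x (E.Φ (γ z) E.a₁) := fun x hx => by
      have hmem : ∀ d ∈ ((P z (hZg z hz)).dropUntil x hx).edges,
          d ∈ (SimpleGraph.fromEdgeSet ((B z : Finset _) : Set (Sym2 V))).edgeSet := by
        intro d hd
        have hd' := (P z (hZg z hz)).edges_dropUntil_subset_edges hx hd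
        rw [SimpleGraph.edgeSet_fromEdgeSet, e]
        exact ⟨List.mem_toFinset.2 hd',
          E.G.not_isDiag_of_mem_edgeSet ((P z (hZg z hz)).edges_subset_edgeSet hd')⟩
      exact ⟨((P z (hZg z hz)).dropUntil x hx).transfer _ hmem⟩
    rw [e]
    refine ⟨fun d hd => (inE_iff E.hl).2 ⟨(P z _).edges_subset_edgeSet (List.mem_toFinset.1 hd),
      fun x hx => hsupp z hz x
        (SimpleGraph.Walk.mem_support_of_mem_edges (List.mem_toFinset.1 hd) hx)⟩,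
      ((P z _).edges.toFinset_card_le).trans ((P z _).length_edges.le.trans (hPlen z _)), ?_⟩
    rw [← e]
    rintro x (rfl | ⟨d, hd, hx⟩)
    · exact htoB _ (P x (hZg x hz)).start_mem_support
    · rw [e] at hd
      exact htoB x (SimpleGraph.Walk.mem_support_of_mem_edges (List.mem_toFinset.1 hd) hx)
  set n := (inE E.nb (E.om ρ)).card
  obtain ⟨q, hq0, hq, hqT⟩ := glue_weights E.hl (S := S0) (E.om_mono (by omega : ρ ≤ _)) h0 h1 Z
    (E.cap_ok v hv).2 (fun x y hxy hx hy hys => mem_filter.2 ⟨hys, hy, x, hxy, hx⟩)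
    B (fun z => E.Φ (γ z) E.a₁) E.blk hB S2 hS2 n
  set F' := F.filter fun w => (E.cap w).Nonempty
  set S := Z.biUnion fun z => F'.image (img z)
  refine ⟨S, fun f hf => ?_, fun t ht => ?_⟩
  · simp only [S, mem_biUnion, mem_image] at hf
    obtain ⟨z, hz, w, hw, rfl⟩ := hf
    obtain ⟨hw, u, hu⟩ := mem_filter.1 hw
    obtain ⟨a, b, c⟩ := himg z (hZg z hz) w (hF w hw)
    exact ⟨a, b, _, E.cap_hull _ (c (E.mem_shift.2 hu))⟩
  set Q := ∑ z ∈ Z, q z
  have hQ : 0 ≤ Q := sum_nonneg fun z _ => hq0 z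
  set Ψv := E.Psi ρ p v
  have hΨ0 : 0 ≤ Ψv := hit_nonneg _ h0 h1 _ _
  have hΨQ : Ψv ≤ Q := (E.psi_le_psiN ρ h0 h1 v).trans hq
  set g : V → E.Tgt → ℝ := fun z f =>
    hitN E.nb (E.om ρ') p E.a₁ (E.Φ (γ z) ⁻¹' E.cap f) ℓ
  have hg0 : ∀ z f, 0 ≤ g z f := fun z f => hitN_nonneg _ h0 h1 _ _ _
  have hrhs : ∀ f, 0 ≤ min (E.PsiN (ρ + E.blk + ρ') (n + E.blk + ℓ) p f) t :=
    fun f => le_min (E.psiN_nonneg _ _ h0 h1 f) ht
  have hN := Nat.cast_nonneg (α := ℝ) E.N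
  rcases hQ.eq_or_lt with hQ0 | hQpos
  · have : Ψv = 0 := le_antisymm (hΨQ.trans hQ0.ge) hΨ0
    refine le_of_eq_of_le (sum_eq_zero fun w _ => ?_) (mul_nonneg hN (sum_nonneg fun f _ => hrhs f))
    rw [this, mul_zero, zero_mul, min_eq_left ht]
  set P2 := p ^ E.blk * Ψv
  have hP2 : 0 ≤ P2 := mul_nonneg (pow_nonneg h0 _) hΨ0
  have hpt : ∀ f, ∑ z ∈ Z, q z / Q * min (P2 * g z f) t ≤
      min (E.PsiN (ρ + E.blk + ρ') (n + E.blk + ℓ) p f) t := by
    intro f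
    refine le_min ((sum_le_sum (g := fun z => p ^ E.blk * (q z * g z f)) fun z _ => ?_).trans
      (le_of_eq_of_le (mul_sum _ _ _).symm (le_trans ?_ (hqT (E.cap f) ℓ)))) ?_
    · refine (mul_le_mul_of_nonneg_left (min_le_left _ _) (div_nonneg (hq0 z) hQ)).trans ?_
      calc q z / Q * (P2 * g z f) ≤ q z / Q * (p ^ E.blk * Q * g z f) :=
            mul_le_mul_of_nonneg_left (mul_le_mul_of_nonneg_right
              (mul_le_mul_of_nonneg_left hΨQ (pow_nonneg h0 _)) (hg0 z f)) (div_nonneg (hq0 z) hQ)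
        _ = p ^ E.blk * (q z * g z f) := by field_simp
    · refine mul_le_mul_of_nonneg_left (le_of_eq (sum_congr rfl fun z _ => ?_)) (pow_nonneg h0 _)
      rw [hitN_map E.hl (E.Φ (γ z))]
    · calc ∑ z ∈ Z, q z / Q * min (P2 * g z f) t ≤ ∑ z ∈ Z, q z / Q * t :=
            sum_le_sum fun z _ =>
              mul_le_mul_of_nonneg_left (min_le_right _ _) (div_nonneg (hq0 z) hQ)
        _ = t := by rw [← sum_mul, ← sum_div, div_self hQpos.ne', one_mul]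
  refine le_trans ?_ (mul_le_mul_of_nonneg_left (sum_le_sum fun f _ => hpt f) hN)
  rw [sum_comm, mul_sum]
  calc ∑ w ∈ F, min (P2 * E.PsiN ρ' ℓ p w) t
      = ∑ z ∈ Z, q z / Q * ∑ w ∈ F, min (P2 * E.PsiN ρ' ℓ p w) t := by
        rw [← sum_mul, ← sum_div, div_self hQpos.ne', one_mul]
    _ ≤ _ := sum_le_sum fun z hz => ?_
  rw [← mul_sum, mul_left_comm]
  refine mul_le_mul_of_nonneg_left ?_ (div_nonneg (hq0 z) hQ)
  have hz' := hZg z hz
  have hPsi : ∀ w ∈ F', E.PsiN ρ' ℓ p w ≤ g z (img z w) := fun w hw =>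
    hitN_mono E.hl Subset.rfl (T := E.cap w) (T' := E.Φ (γ z) ⁻¹' E.cap (img z w))
      (fun u hu => (himg z hz' w (hF w (mem_filter.1 hw).1)).2.2 (E.mem_shift.2 hu)) le_rfl h0 h1 _
  calc ∑ w ∈ F, min (P2 * E.PsiN ρ' ℓ p w) t
      = ∑ w ∈ F', min (P2 * E.PsiN ρ' ℓ p w) t := by
        refine (sum_filter_of_ne fun w _ hne => ?_).symm
        by_contra hw
        have h2 : E.PsiN ρ' ℓ p w = 0 := le_antisymm (not_lt.1 fun h => hw (by
          obtain ⟨u, hu, -⟩ := E.exists_mem_of_psiN_pos h0 h1 h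
          exact ⟨u, hu⟩)) (E.psiN_nonneg _ _ h0 h1 w)
        exact hne (by rw [h2, mul_zero, min_eq_left ht])
    _ ≤ ∑ w ∈ F', min (P2 * g z (img z w)) t := sum_le_sum fun w hw =>
        min_le_min_right t (mul_le_mul_of_nonneg_left (hPsi w hw) hP2)
    _ = ∑ f ∈ F'.image (img z), ∑ w ∈ F'.filter (fun w => img z w = f),
          min (P2 * g z f) t := by
        rw [← sum_fiberwise_of_maps_to (g := img z) (t := F'.image (img z)) fun w hw =>
          mem_image_of_mem _ hw]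
        exact sum_congr rfl fun f _ => sum_congr rfl fun w hw => by rw [(mem_filter.1 hw).2]
    _ ≤ ∑ f ∈ F'.image (img z), (E.N : ℝ) * min (P2 * g z f) t := by
        refine sum_le_sum fun f _ => ?_
        rw [sum_const, nsmul_eq_mul]
        refine mul_le_mul_of_nonneg_right (Nat.cast_le.2 ?_) (le_min (mul_nonneg hP2 (hg0 z f)) ht)
        refine hmult z hz' f _ fun w hw => ?_
        obtain ⟨hw1, hw2⟩ := mem_filter.1 hw
        exact ⟨hF w (mem_filter.1 hw1).1, hw2⟩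
    _ ≤ (E.N : ℝ) * ∑ f ∈ S, min (P2 * g z f) t := by
        rw [← mul_sum]
        exact mul_le_mul_of_nonneg_left (sum_le_sum_of_subset_of_nonneg
          (subset_biUnion_of_mem (fun z => F'.image (img z)) hz)
          fun f _ _ => le_min (mul_nonneg hP2 (hg0 z f)) ht) hN

omit [DecidableEq V] in
/-- Targets below those of a separated family. -/
theorem disjoint_of_below {W : Finset E.Tgt} (hW : E.Apart W) {S : E.Tgt → Finset E.Tgt}
    (hS : ∀ v ∈ W, ∀ e ∈ S v, E.Strict e ∧ E.hull e ⊆ E.hull v ∧ (E.hull e).Nonempty) :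
    (W : Set E.Tgt).PairwiseDisjoint S := fun v hv v' hv' hne =>
  disjoint_left.2 fun e he he' => by
    obtain ⟨-, h1, q, hq⟩ := hS v hv e he
    exact Set.disjoint_left.1 (hW hv hv' hne) (h1 hq) ((hS v' hv' e he').2.1 hq)

theorem joinSum (h0 : 0 ≤ p) (h1 : p ≤ 1) : E.JoinSum p := by
  classical
  intro ρ ρ' W W' hW hs hs'
  have hS : ∀ v : E.Tgt, ∃ S : Finset E.Tgt, v ∈ W →
      (∀ e ∈ S, E.Strict e ∧ E.hull e ⊆ E.hull v ∧ (E.hull e).Nonempty) ∧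
      E.c₁ p * E.Psi ρ p v * ∑ e ∈ W', E.Psi ρ' p e ≤
        E.N * ∑ e ∈ S, E.Psi (ρ + E.blk + ρ') p e := fun v => by
    by_cases hv : v ∈ W
    swap
    · exact ⟨∅, fun h => absurd h hv⟩
    obtain ⟨S, hS, hSmin⟩ :=
      E.exists_step h0 h1 ρ ρ' (inE E.nb (E.om ρ')).card (hs v hv) W' hs'
    refine ⟨S, fun _ => ⟨hS, ?_⟩⟩
    refine le_trans ?_ ((hSmin 1 zero_le_one).trans (mul_le_mul_of_nonneg_left
      (sum_le_sum fun e _ => (min_le_left _ _).trans (E.psiN_le_psi _ _ h0 h1 e))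
      (Nat.cast_nonneg _)))
    rw [mul_sum]
    refine sum_le_sum fun w _ => ?_
    have hw : E.PsiN ρ' (inE E.nb (E.om ρ')).card p w ≤ 1 :=
      (E.psiN_le_psi _ _ h0 h1 w).trans (E.psi_le_one _ h0 h1 w)
    rw [min_eq_left (mul_le_one₀ (mul_le_one₀ (pow_le_one₀ h0 h1) (E.psi_nonneg _ h0 h1 v)
      (E.psi_le_one _ h0 h1 v)) (E.psiN_nonneg _ _ h0 h1 w) hw)]
    exact mul_le_mul (mul_le_mul_of_nonneg_right (E.c₁_le_pow h0) (E.psi_nonneg _ h0 h1 v))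
      (E.psi_le_psiN _ h0 h1 w) (E.psi_nonneg _ h0 h1 w)
      (mul_nonneg (pow_nonneg h0 _) (E.psi_nonneg _ h0 h1 v))
  choose S hS using hS
  refine ⟨W.biUnion S, fun e he => ?_, ?_⟩
  · obtain ⟨v, hv, he⟩ := mem_biUnion.1 he
    exact ((hS v hv).1 e he).1
  rw [sum_biUnion (E.disjoint_of_below hW fun v hv => (hS v hv).1)]
  calc E.c₁ p * (∑ e ∈ W, E.Psi ρ p e) * ∑ e ∈ W', E.Psi ρ' p e
      = ∑ v ∈ W, E.c₁ p * E.Psi ρ p v * ∑ e ∈ W', E.Psi ρ' p e := by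
        rw [← sum_mul, ← mul_sum]
    _ ≤ ∑ v ∈ W, (E.N : ℝ) * ∑ e ∈ S v, E.Psi (ρ + E.blk + ρ') p e :=
        sum_le_sum fun v hv => (hS v hv).2
    _ = _ := by rw [mul_sum]

theorem isClosed_bound : IsClosed {p : ℝ | E.Bound p 1} := by
  simp only [Bound, Real.rpow_one, Set.ofPred_forall]
  exact isClosed_iInter fun ρ => isClosed_iInter fun W => isClosed_iInter fun _ =>
    isClosed_iInter fun _ => isClosed_le
      (E.continuous_c₁.mul (continuous_finsetSum _ fun e _ => E.continuous_psi ρ e)) continuous_const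

/-- The bound passes to larger exponents. -/
theorem bound_mono (hp : 0 ≤ p) (hp1 : p ≤ 1) {θ θ' : ℝ} (hθ : 0 ≤ θ) (h : θ ≤ θ')
    (hB : E.Bound p θ) : E.Bound p θ' := by
  intro ρ W hW hs
  have hc := E.c₁_nonneg hp
  refine le_trans (mul_le_mul (Real.rpow_le_rpow_of_exponent_ge' hc (E.c₁_le_one hp hp1) hθ h)
    (sum_le_sum fun v _ => Real.rpow_le_rpow_of_exponent_ge' (E.psi_nonneg ρ hp hp1 v)
      (E.psi_le_one ρ hp hp1 v) hθ h)
    (sum_nonneg fun v _ => Real.rpow_nonneg (E.psi_nonneg ρ hp hp1 v) _) (Real.rpow_nonneg hc _))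
    (hB ρ W hW hs)

/-- The bound fails for small exponents. -/
theorem exists_not_bound (hp : 0 < p) (hp1 : p ≤ 1) : ∃ θ : ℝ, 0 < θ ∧ ¬ E.Bound p θ := by
  classical
  obtain ⟨W, hcard, hap, hW⟩ := E.many (E.N + 1)
  have hWk : ∀ e ∈ W, ∃ k, E.Strict e ∧ ∀ ρ, k ≤ ρ → 0 < E.Psi ρ p e := fun e he => by
    obtain ⟨hs, u, k, hu, w, hw, hsup⟩ := hW e he
    refine ⟨k, hs, fun ρ hρ => ?_⟩
    have hS : ∀ v ∈ w.support, v ∈ E.om ρ := fun v hv =>
      E.mem_om.2 ⟨E.covers_ball _ _ _ w (hw.trans hρ) v hv, hsup v hv⟩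
    have h := hit_move E.hl (nb := E.nb) hp.le hp1 w hS (E.cap e)
    rw [hit_self _ _ hu, mul_one] at h
    exact lt_of_lt_of_le (pow_pos hp _) h
  choose! k hst hpos using hWk
  set ρ := W.sup k
  set f : ℝ → ℝ := fun θ => E.c₁ p ^ θ * ∑ e ∈ W, E.Psi ρ p e ^ θ
  have hf : Continuous f := (Real.continuous_const_rpow (E.c₁_pos hp).ne').mul
    (continuous_finsetSum _ fun e he =>
      Real.continuous_const_rpow (hpos e he ρ (le_sup he)).ne')
  have h0 : (E.N : ℝ) < f 0 := by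
    simp only [f, Real.rpow_zero, sum_const, nsmul_eq_mul, mul_one, one_mul, hcard]
    push_cast
    linarith
  obtain ⟨ε, hε, hb⟩ := Metric.eventually_nhds_iff.1 ((hf.tendsto 0).eventually_const_lt h0)
  refine ⟨ε / 2, half_pos hε, fun hB => not_le.2 (hb (y := ε / 2) ?_) (hB ρ W hap hst)⟩
  rw [Real.dist_eq, sub_zero, abs_of_pos (half_pos hε)]
  linarith

/-- Two exponents as close as wanted on either side of the critical one, bounded below. -/
theorem exists_exponents (hp : 0 < p) (hp1 : p ≤ 1) (hB : E.Bound p 1) :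
    ∃ θ₀ : ℝ, 0 < θ₀ ∧ ∀ δ : ℝ, 0 < δ → δ < 1 / 2 → ∃ θ θ' : ℝ, θ₀ ≤ θ ∧ θ ≤ θ' ∧ θ' ≤ 1 ∧
      θ' * (1 - δ) ≤ θ ∧ E.Bound p θ' ∧ ¬ E.Bound p θ := by
  obtain ⟨θ₁, hθ₁, hn₁⟩ := E.exists_not_bound hp hp1
  set A := {θ : ℝ | 0 < θ ∧ E.Bound p θ}
  have hA : (1 : ℝ) ∈ A := ⟨one_pos, hB⟩
  have hlow : θ₁ ≤ sInf A := le_csInf ⟨1, hA⟩ fun θ hθ => by
    by_contra hc
    exact hn₁ (E.bound_mono hp.le hp1 hθ.1.le (not_le.1 hc).le hθ.2)
  set s := sInf A
  have hs : 0 < s := hθ₁.trans_le hlow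
  have hs1 : s ≤ 1 := csInf_le ⟨0, fun θ hθ => hθ.1.le⟩ hA
  refine ⟨s / 2, half_pos hs, fun δ hδ hδ1 => ⟨s * (1 - δ / 2), min 1 (s * (1 + δ / 2)),
    by nlinarith, le_min (by nlinarith) (by nlinarith), min_le_left _ _, ?_, ?_, fun h => ?_⟩⟩
  · refine le_trans (mul_le_mul_of_nonneg_right (min_le_right _ _) (by linarith)) ?_
    nlinarith [mul_pos hs (mul_pos hδ hδ)]
  · rcases le_total 1 (s * (1 + δ / 2)) with h | h
    · rw [min_eq_left h]; exact hB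
    · rw [min_eq_right h]
      obtain ⟨θ, hθA, hlt⟩ := exists_lt_of_csInf_lt ⟨1, hA⟩ (show s < s * (1 + δ / 2) by nlinarith)
      exact E.bound_mono hp.le hp1 hθA.1.le hlt.le hθA.2
  · have hθ : 0 < s * (1 - δ / 2) := mul_pos hs (by linarith)
    have := csInf_le ⟨0, fun θ (hθ : θ ∈ A) => hθ.1.le⟩
      (show s * (1 - δ / 2) ∈ A from ⟨hθ, h⟩)
    change s ≤ _ at this
    nlinarith

variable [Fintype O]

open Classical in
/-- With finite susceptibility the sums of `Psi` grow at most linearly in the window. -/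
theorem exists_sum_psi_le (h0 : 0 ≤ p) (h1 : p ≤ 1) (hw : Witness E.nb p) :
    ∃ B : ℝ, 0 ≤ B ∧ ∀ (ρ : ℕ) (W : Finset E.Tgt), (∀ e ∈ W, E.Strict e) →
      ∑ e ∈ W, E.Psi ρ p e ≤ B * ((ρ : ℝ) + 1) := by
  obtain ⟨S, hS⟩ := susceptibility E.hl E.Φ _ E.cover_rep h0 h1 hw
  refine ⟨(E.N : ℝ) * max S 0, mul_nonneg (Nat.cast_nonneg _) (le_max_right _ _), fun ρ W hs => ?_⟩
  set τ : V → ℝ := fun y => tauIn E.nb (E.om ρ) p E.a₁ y
  have hτ : ∀ y, 0 ≤ τ y := fun y => FF.tauIn_nonneg (nb := E.nb) (E.om ρ) h0 h1 _ y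
  have hgate : ∀ e ∈ W, E.Psi ρ p e ≤ ∑ y ∈ (E.om ρ).filter (Gate E.G (E.cap e)), τ y := by
    intro e he
    simp only [τ, FF.tauIn_eq, ← avg_sum, Psi, hit]
    refine avg_mono _ h0 h1 fun η hη => ?_
    by_cases hh : FXZ.Hit (E.cap e) E.a₁ η
    swap
    · exact le_trans (le_of_eq (if_neg hh)) (sum_nonneg fun _ _ => ind_nonneg _)
    obtain ⟨t, ht, ⟨π⟩⟩ := hh
    rcases exit_split (E.cap e)ᶜ π (E.cap_ok e (hs e he)).2 with
      hin | ⟨a, b, w1, hab, w2, ha, hb, -, hed, -⟩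
    · exact absurd ht (hin t π.end_mem_support)
    have hbη : s(a, b) ∈ η := by
      have := π.edges_subset_edgeSet (show s(a, b) ∈ π.edges by simp [hed])
      rw [SimpleGraph.edgeSet_fromEdgeSet] at this
      exact this.1
    obtain ⟨hG, hb'⟩ := (inE_iff E.hl).1 (hη hbη)
    have hz : b ∈ (E.om ρ).filter (Gate E.G (E.cap e)) :=
      mem_filter.2 ⟨hb' b (Sym2.mem_mk_right a b), by simpa using hb, a, hG, by simpa using ha⟩
    refine le_trans (ind_le_one _) (le_trans ?_ (single_le_sum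
      (f := fun y => ind (cl η E.a₁ y)) (fun _ _ => ind_nonneg _) hz))
    exact le_of_eq (if_pos (w1.reachable.trans hab.reachable : cl η _ b)).symm
  refine (sum_le_sum hgate).trans ?_
  rw [sum_comm' (t' := E.om ρ) (s' := fun y => W.filter fun e => Gate E.G (E.cap e) y)
    (fun e y => ⟨fun h => ⟨mem_filter.2 ⟨h.1, (mem_filter.1 h.2).2⟩, (mem_filter.1 h.2).1⟩,
      fun h => ⟨(mem_filter.1 h.1).1, mem_filter.2 ⟨h.2, (mem_filter.1 h.1).2⟩⟩⟩)]
  refine (sum_le_sum (g := fun y => (E.N : ℝ) * ((ρ : ℝ) + 1) * τ y) fun y hy => ?_).trans ?_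
  · obtain ⟨w, hw⟩ := E.mem_ball.1 (E.mem_om.1 hy).1
    rw [sum_const, nsmul_eq_mul]
    refine mul_le_mul_of_nonneg_right ?_ (hτ y)
    exact_mod_cast E.count.1 y ρ ⟨w, hw, fun _ _ => Set.mem_univ _⟩ _ fun e he =>
      ⟨hs e (mem_filter.1 he).1, (mem_filter.1 he).2⟩
  · rw [← mul_sum]
    refine (mul_le_mul_of_nonneg_left ((hS _ _ _).trans (le_max_left S 0)) (by positivity)).trans
      (le_of_eq ?_)
    ring

omit [Fintype O] in
/-- Below the last parameter the bound holds, since joining would make the sums grow geometrically. -/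
theorem bound_of_sum_le (hp : 0 < p) (hjoin : E.JoinSum p) {B : ℝ} (hB0 : 0 ≤ B)
    (hB : ∀ (ρ : ℕ) (W : Finset E.Tgt), (∀ e ∈ W, E.Strict e) →
      ∑ e ∈ W, E.Psi ρ p e ≤ B * ((ρ : ℝ) + 1)) (hp1 : p ≤ 1) :
    E.Bound p 1 := by
  intro ρ W hW hs
  simp only [Real.rpow_one]
  by_contra hlt
  push Not at hlt
  have hN := E.cast_N_pos
  set d : ℝ := E.c₁ p / E.N
  have hd : 0 < d := div_pos (E.c₁_pos hp) hN
  set g : ℝ := d * ∑ e ∈ W, E.Psi ρ p e with hgdef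
  have hg : 1 < g := by
    rw [hgdef, div_mul_eq_mul_div, one_lt_div hN]
    exact hlt
  set r := ρ + E.blk
  have hpow : ∀ n : ℕ, ∃ W' : Finset E.Tgt, (∀ e ∈ W', E.Strict e) ∧
      g ^ (n + 1) ≤ d * ∑ e ∈ W', E.Psi ((n + 1) * r) p e := by
    intro n
    induction n with
    | zero =>
      refine ⟨W, hs, ?_⟩
      rw [pow_one]
      exact mul_le_mul_of_nonneg_left
        (sum_le_sum fun e _ => E.psi_mono (by omega) hp.le hp1 e) hd.le
    | succ n ih =>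
      obtain ⟨W', hs', hle⟩ := ih
      obtain ⟨W'', hs'', hj⟩ := hjoin ρ ((n + 1) * r) W W' hW hs hs'
      refine ⟨W'', hs'', ?_⟩
      rw [pow_succ']
      refine (mul_le_mul_of_nonneg_left hle (by linarith)).trans ?_
      rw [show (n + 1 + 1) * r = ρ + E.blk + (n + 1) * r by ring]
      refine le_of_eq_of_le ?_ (mul_le_mul_of_nonneg_left ((div_le_iff₀' hN).2 hj) hd.le)
      simp only [g, d]
      ring
  set K : ℝ := d * B * ((r : ℝ) + 1)
  have hlim : Tendsto (fun n : ℕ => K * ((n : ℝ) * (1 / g) ^ n)) atTop (𝓝 0) := by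
    have h := (tendsto_self_mul_const_pow_of_lt_one (r := 1 / g) (by positivity)
      ((div_lt_one (by linarith)).2 hg)).const_mul K
    rwa [mul_zero] at h
  obtain ⟨n, hn⟩ := eventually_atTop.1 (hlim.eventually (gt_mem_nhds one_pos))
  obtain ⟨W', hs', hle⟩ := hpow n
  have h3 : g ^ (n + 1) ≤ K * ((n : ℝ) + 1) := by
    refine hle.trans ((mul_le_mul_of_nonneg_left (hB _ W' hs') hd.le).trans ?_)
    simp only [K]
    push_cast
    nlinarith [mul_nonneg (mul_nonneg hd.le hB0) (Nat.cast_nonneg n : (0 : ℝ) ≤ n)]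
  have h4 := hn (n + 1) (Nat.le_succ n)
  push_cast at h4
  rw [one_div_pow, mul_one_div, ← mul_div_assoc, div_lt_one (by positivity)] at h4
  linarith

/-- The bound at the last subcritical parameter. -/
theorem bound_of_sub {ps : ℝ} (hs : Sub E.nb ps) : E.Bound ps 1 := by
  obtain ⟨h0, h1, hw⟩ := hs
  have hmem : ps ∈ closure (Set.Ioo 0 ps) := by
    rw [closure_Ioo h0.ne]; exact Set.right_mem_Icc.2 h0.le
  refine closure_minimal (fun p hp => ?_) E.isClosed_bound hmem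
  obtain ⟨B, hB0, hB⟩ := E.exists_sum_psi_le hp.1.le (hp.2.le.trans h1) (hw p hp.1.le hp.2)
  exact E.bound_of_sum_le hp.1 (E.joinSum hp.1.le (hp.2.le.trans h1)) hB0 hB (hp.2.le.trans h1)

/-- The volume of short connections is subexponential at the last subcritical parameter. -/
theorem vol_subexp {ps : ℝ} (hs : Sub E.nb ps) {η : ℝ} (hη : 0 < η) :
    ∃ K : ℝ, ∀ n : ℕ, E.vol ps n ≤ K * Real.exp (η * n) := by
  obtain ⟨h0, h1, hw⟩ := hs
  set q := Real.exp (-η)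
  have hq : 0 < q := Real.exp_pos _
  have hq1 : q < 1 := Real.exp_lt_one_iff.2 (by linarith)
  have hpq : ps * q < ps := by nlinarith
  have hpq0 : 0 ≤ ps * q := by positivity
  obtain ⟨S, hS⟩ := susceptibility E.hl E.Φ _ E.cover_rep hpq0 (hpq.le.trans h1) (hw _ hpq0 hpq)
  refine ⟨(Fintype.card O : ℝ) * S, fun n => ?_⟩
  have h2 : q ^ n * E.vol ps n ≤ (Fintype.card O : ℝ) * S := by
    calc q ^ n * E.vol ps n
        = ∑ o : O, ∑ y ∈ E.ball (E.rep o) n, q ^ n * E.tau ps n (E.rep o) y := by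
          simp only [vol, mul_sum]
      _ ≤ ∑ _o : O, S := sum_le_sum fun o _ => le_trans (sum_le_sum fun y _ =>
            (FQ.thin_tauW _ h0.le h1 hq.le hq1.le _ y n).trans
              (FQ.tauW_le_tauIn _ hpq0 (hpq.le.trans h1) _ y n)) (hS _ _ _)
      _ = (Fintype.card O : ℝ) * S := by simp
  have e : Real.exp (η * n) = (q ^ n)⁻¹ := by
    rw [← Real.exp_nat_mul, ← Real.exp_neg]
    congr 1
    ring
  rw [e, ← div_eq_mul_inv, le_div_iff₀ (pow_pos hq n), mul_comm]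
  exact h2

/-- The short balls cost a small power of the level. -/
theorem exists_short {ps : ℝ} (hs : Sub E.nb ps) (C : ℕ) {δ : ℝ} (hδ : 0 < δ) :
    ∃ M : ℝ, 0 ≤ M ∧ ∀ L : ℕ, 1 ≤ L →
      ((C * (Nat.log 2 L + 1) : ℕ) + 1 : ℝ) * E.vol ps (C * (Nat.log 2 L + 1)) ≤
        M * (L : ℝ) ^ δ :=
  FQ.log_range_le (fun n => E.vol_nonneg hs.1.le hs.2.1 n) (fun _ hη => E.vol_subexp hs hη) C hδ

end Vale.Agent.P165.HY.Core
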