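import Vale.Agent.P165.QT.Base
import Vale.Agent.P165.QT.Threshold

/-!
# An abstract setting for targets

The combinatorial steps use only the properties collected here. A hyperbolic space with packing
supplies them: targets are sublevel sets of `ρ(·, c) + A q`, a frame at a gate maps every target into
one deeper target, boundedly many to one, and cuts at random levels have gates of small frequency.
Sets are sets of vertices and `shift Φ γ K` is the translate of `K` by `γ`.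
-/

namespace Vale.Agent.P165.HY

open Finset FF
open Vale.Agent.P165.FP (hit)
open Vale.Agent.P165.FQ (hitN tauW)

variable {Γ V O ι Tgt : Type} [Group Γ] {G : SimpleGraph V}

/-- A vertex at which an edge enters a set. -/
def Gate (G : SimpleGraph V) (K : Set V) (z : V) : Prop :=
  z ∈ K ∧ ∃ x, G.Adj x z ∧ x ∉ K

/-- A walk of at most `k` steps inside `S`. -/
def Link (G : SimpleGraph V) (S : Set V) (k : ℕ) (a b : V) : Prop :=
  ∃ w : G.Walk a b, w.length ≤ k ∧ ∀ v ∈ w.support, v ∈ S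

/-- The translate of a set. -/
def shift (Φ : Γ →* (G ≃g G)) (γ : Γ) (K : Set V) : Set V := {v | Φ γ⁻¹ v ∈ K}

/-- A point is the gate of linearly few targets, and a reached target has a linear level. -/
def CountAx (G : SimpleGraph V) (a₁ : V) (N : ℕ) (cap : Tgt → Set V) (Strict : Tgt → Prop)
    (lev : Tgt → ℕ) : Prop :=
  (∀ (v : V) (ρ : ℕ), Link G Set.univ ρ a₁ v → ∀ W : Finset Tgt,
    (∀ e ∈ W, Strict e ∧ Gate G (cap e) v) → W.card ≤ N * (ρ + 1)) ∧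
  ∀ (e : Tgt) (v : V) (n : ℕ), Strict e → v ∈ cap e → Link G Set.univ n a₁ v → lev e ≤ N * (n + 1)

/-- Arbitrarily many separated targets are reached from the anchor. -/
def ManyAx (G : SimpleGraph V) (a₁ : V) (ok : Set V) (cap hull : Tgt → Set V)
    (Strict : Tgt → Prop) : Prop :=
  ∀ n : ℕ, ∃ W : Finset Tgt, W.card = n ∧
    (W : Set Tgt).Pairwise (fun e e' => Disjoint (hull e) (hull e')) ∧
    ∀ e ∈ W, Strict e ∧ ∃ u k, u ∈ cap e ∧ Link G ok k a₁ u

/-- Step 2: at a gate of `v` a frame maps everything into `v`, and every target into one target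
inside `v`, boundedly many to one. -/
def StepAx (Φ : Γ →* (G ≃g G)) (a₁ : V) (ok : Set V) (N blk : ℕ) (cap hull : Tgt → Set V)
    (Strict : Tgt → Prop) : Prop :=
  ∀ v, Strict v → ∀ z, Gate G (cap v) z → ∃ (γ : Γ) (img : Tgt → Tgt),
    Link G ok blk z (Φ γ a₁) ∧ shift Φ γ ok ⊆ cap v ∧
    (∀ w, Strict w →
      Strict (img w) ∧ hull (img w) ⊆ hull v ∧ shift Φ γ (cap w) ⊆ cap (img w)) ∧
    ∀ (f : Tgt) (W : Finset Tgt), (∀ w ∈ W, Strict w ∧ img w = f) → W.card ≤ N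

/-- Step 3: each point of a thin family has a frame; the images of the targets of one level, tagged by
the class of the point, fall into boundedly many separated families. -/
def SpreadAx (Φ : Γ →* (G ≃g G)) (a₁ : V) (ok : Set V) (N blk : ℕ) (cap hull : Tgt → Set V)
    (Strict : Tgt → Prop) (lev : Tgt → ℕ) (Thin : Γ → Set V → Prop) : Prop :=
  ∀ (ψ : Γ) (Y : Finset V), Thin ψ (Y : Set V) → ∃ cls : V → V, ∀ l : ℕ,
    ∃ (γ : V → Γ) (img : V → Tgt → Tgt),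
      (∀ y ∈ Y, Link G (shift Φ ψ ok) blk y (Φ (γ y) a₁) ∧ shift Φ (γ y) ok ⊆ shift Φ ψ ok ∧
        (∀ w, Strict w → lev w = l →
          Strict (img y w) ∧ shift Φ (ψ⁻¹ * γ y) (cap w) ⊆ cap (img y w)) ∧
        ∀ (f : Tgt) (W : Finset Tgt), (∀ w ∈ W, Strict w ∧ lev w = l ∧ img y w = f) → W.card ≤ N) ∧
      ∀ P : Finset (V × Tgt), (∀ q ∈ P, ∃ y ∈ Y, cls y = q.1 ∧
          ∃ w, Strict w ∧ lev w = l ∧ (cap w).Nonempty ∧ q.2 = img y w) →
        ∃ col : V × Tgt → Fin N, ∀ q ∈ P, ∀ q' ∈ P, q ≠ q' → col q = col q' →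
          Disjoint (hull q.2) (hull q'.2)

/-- Step 4: `2 ^ m` separated cuts with random positions, and their anchors. A gate of a cut is
charged `2 ^ -((d - N (m + 1)) / N)` at distance class `d`. -/
def CutsAx (Φ : Γ →* (G ≃g G)) (rep : O → V) (a₁ : V) (ok ok₁ : Set V) (N blk : ℕ)
    (Thin : Γ → Set V → Prop) (sph : V → V → ℕ) : Prop :=
  ∀ (o : O) (m K : ℕ), ∃ (P : Finset Γ) (M : ℕ) (cut : Γ → ℕ → Set V) (big : Γ → Set V),
    P.card = 2 ^ m ∧ 1 ≤ M ∧ (P : Set Γ).Pairwise (fun ψ ψ' => Disjoint (big ψ) (big ψ')) ∧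
    (∀ ψ ∈ P, Link G (shift Φ ψ ok) (blk * (m + 1)) (rep o) (Φ ψ a₁) ∧ rep o ∉ big ψ ∧
      ∀ i, cut ψ i ⊆ big ψ ∧ ∀ v, v ∉ cut ψ i → v ∈ shift Φ ψ ok₁) ∧
    (∀ z, Link G Set.univ K (rep o) z → ∀ ψ ∈ P,
      ∀ I : Finset ℕ, I ⊆ range M → (∀ i ∈ I, Gate G (cut ψ i) z) →
        I.card * 2 ^ ((sph (rep o) z - N * (m + 1)) / N) ≤ N * M) ∧
    (∀ ψ ∈ P, ∀ i z, Gate G (cut ψ i) z → ∃ χ : Γ, Link G (shift Φ χ ok) blk z (Φ χ a₁) ∧
      (∀ v, v ∉ cut ψ i → v ∈ shift Φ χ ok₁) ∧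
      ∀ (j : ℕ) (Y : Set V), (∀ y ∈ Y, sph (rep o) y = j ∧ y ∉ cut ψ i) →
        ∃ f : V → Fin (N * (sph (rep o) z + m + 1)), ∀ k, Thin χ {y ∈ Y | f y = k}) ∧
    ∀ ψ ∈ P, ∀ (j : ℕ) (Y : Set V), (∀ y ∈ Y, sph (rep o) y = j ∧ y ∈ shift Φ ψ ok₁) →
      ∃ f : V → Fin (N * (m + 1)), ∀ k, Thin ψ {y ∈ Y | f y = k}

/-- Step 6: nested cuts between `x` and a class, `M` levels in each unit. A gate of the first unit is
charged `2 ^ -(d / N)` at distance class `d`, a gate seen from an anchor at its class `d w`. -/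
def RowsAx (Φ : Γ →* (G ≃g G)) (a₁ : V) (ok ok₁ : Set V) (N blk : ℕ)
    (Thin : Γ → Set V → Prop) (sph : V → V → ℕ) (kap : V → V → ℕ × ℕ) : Prop :=
  ∀ (x : V) (u v K : ℕ), N < u → ∃ (M : ℕ) (cut : ℕ → Set V),
    1 ≤ M ∧ Monotone cut ∧ x ∈ cut 0 ∧
    (∀ y i, kap x y = (u, v) → i ≤ (u - N) * M → y ∉ cut i) ∧
    (∀ z, Link G Set.univ K x z → ∀ I : Finset ℕ,
      (∀ i ∈ I, i < M ∧ Gate G (cut i) z) → I.card * 2 ^ (sph x z / N) ≤ N * M) ∧
    ∀ i z, i ≤ (u - N) * M → Link G Set.univ K x z → Gate G (cut i) z →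
      ∃ (χ : Γ) (d : V → ℕ), Link G (shift Φ χ ok) blk z (Φ χ a₁) ∧
        (∀ w, w ∉ cut i → w ∈ shift Φ χ ok₁) ∧
        (∀ k, Thin χ {w | w ∉ cut i ∧ d w = k ∧
          ∃ l, i ≤ l ∧ l ≤ (u - N) * M ∧ Gate G (cut l) w}) ∧
        (∀ w, Link G Set.univ K x w → ∀ I : Finset ℕ,
          (∀ l ∈ I, i ≤ l ∧ l ≤ (u - N) * M ∧ Gate G (cut l) w) →
            I.card * 2 ^ (d w / N) ≤ N * M) ∧
        ∀ Y : Set V, (∀ y ∈ Y, kap x y = (u, v) ∧ y ∉ cut i) →
          ∃ f : V → Fin N, ∀ k, Thin χ {y ∈ Y | f y = k}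

/-- The setting. -/
structure Core (Γ V O ι : Type) [Group Γ] [Fintype ι] where
  make ::
  /-- The graph. -/
  G : SimpleGraph V
  /-- The neighbours of a vertex. -/
  nb : V → ι → V
  hl : Labelling G nb
  conn : G.Connected
  /-- The action on the graph. -/
  Φ : Γ →* (G ≃g G)
  /-- The representatives of the orbits. -/
  rep : O → V
  /-- A translation to a vertex from the representative of its orbit. -/
  sec : V → Γ
  /-- The orbit of a vertex. -/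
  typ : V → O
  sec_spec : ∀ v, Φ (sec v) (rep (typ v)) = v
  /-- The anchor. -/
  a₁ : V
  /-- The complement of the excluded set. -/
  ok : Set V
  /-- The complement of the larger excluded set. -/
  ok₁ : Set V
  ok₁_sub : ok₁ ⊆ ok
  a₁_ok₁ : a₁ ∈ ok₁
  /-- All multiplicities and linear rates. -/
  N : ℕ
  one_le_N : 1 ≤ N
  /-- The bound on all paths of frames. -/
  blk : ℕ
  one_le_blk : 1 ≤ blk
  /-- The index type of the targets. -/
  Tgt : Type
  /-- A target. -/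
  cap : Tgt → Set V
  /-- The set that separates targets. -/
  hull : Tgt → Set V
  /-- An admissible target. -/
  Strict : Tgt → Prop
  /-- The level of a target. -/
  lev : Tgt → ℕ
  cap_hull : ∀ e, cap e ⊆ hull e
  cap_ok : ∀ e, Strict e → cap e ⊆ ok ∧ a₁ ∉ cap e
  count : CountAx G a₁ N cap Strict lev
  many : ManyAx G a₁ ok cap hull Strict
  step : StepAx Φ a₁ ok N blk cap hull Strict
  /-- One class of points as the tail sees them. -/
  Thin : Γ → Set V → Prop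
  thin_mono : ∀ {ψ Y Y'}, Y' ⊆ Y → Thin ψ Y → Thin ψ Y'
  thin_ok : ∀ {ψ Y}, Thin ψ Y → Y ⊆ shift Φ ψ ok₁
  spread : SpreadAx Φ a₁ ok N blk cap hull Strict lev Thin
  /-- The distance class of a pair. -/
  sph : V → V → ℕ
  sph_self : ∀ x, sph x x = 0
  sph_map : ∀ γ x y, sph (Φ γ x) (Φ γ y) = sph x y
  sph_le : ∀ x y k, Link G Set.univ k x y → sph x y ≤ N * (k + 1)
  cuts : CutsAx Φ rep a₁ ok ok₁ N blk Thin sph
  /-- The class of a pair: the two parts of its distance, seen from a fixed root. -/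
  kap : V → V → ℕ × ℕ
  kap_swap : ∀ x y, kap y x = (kap x y).swap
  kap_sph : ∀ x y, sph x y ≤ (kap x y).1 + (kap x y).2 + N ∧
    (kap x y).1 + (kap x y).2 ≤ sph x y + N
  rows : RowsAx Φ a₁ ok ok₁ N blk Thin sph kap

variable [Fintype ι]

namespace Core

variable (E : Core Γ V O ι) [DecidableEq V]

/-- The vertices within `n` steps. -/
def ball (a : V) (n : ℕ) : Finset V := QT.wball E.nb a n

open Classical in
/-- The window of the codes. -/
noncomputable def om (ρ : ℕ) : Finset V := (E.ball E.a₁ ρ).filter (· ∈ E.ok)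

/-- The cost of one gluing. -/
noncomputable def c₁ (p : ℝ) : ℝ := p ^ E.blk / 2

/-- The chance of joining the anchor to a target inside `om ρ`. -/
noncomputable def Psi (ρ : ℕ) (p : ℝ) (e : E.Tgt) : ℝ := hit E.nb (E.om ρ) p E.a₁ (E.cap e)

/-- The same with at most `n` steps. -/
noncomputable def PsiN (ρ n : ℕ) (p : ℝ) (e : E.Tgt) : ℝ :=
  hitN E.nb (E.om ρ) p E.a₁ (E.cap e) n

/-- Targets with disjoint hulls. -/
def Apart (W : Finset E.Tgt) : Prop :=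
  (W : Set E.Tgt).Pairwise fun e e' => Disjoint (E.hull e) (E.hull e')

/-- The code bound. -/
def Bound (p θ : ℝ) : Prop :=
  ∀ (ρ : ℕ) (W : Finset E.Tgt), E.Apart W → (∀ e ∈ W, E.Strict e) →
    E.c₁ p ^ θ * ∑ e ∈ W, E.Psi ρ p e ^ θ ≤ E.N

/-- Joining multiplies the sums up to the multiplicity, and the windows grow linearly. -/
def JoinSum (p : ℝ) : Prop :=
  ∀ (ρ ρ' : ℕ) (W W' : Finset E.Tgt), E.Apart W → (∀ e ∈ W, E.Strict e) →
    (∀ e ∈ W', E.Strict e) → ∃ W'' : Finset E.Tgt, (∀ e ∈ W'', E.Strict e) ∧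
      E.c₁ p * (∑ e ∈ W, E.Psi ρ p e) * (∑ e ∈ W', E.Psi ρ' p e) ≤
        E.N * ∑ e ∈ W'', E.Psi (ρ + E.blk + ρ') p e

/-- The chance of at most `K` open steps from `a` to `y`. -/
noncomputable def tau (p : ℝ) (K : ℕ) (a y : V) : ℝ := tauW E.nb (E.ball a K) p a y K

open Classical in
/-- The expected number of points within `K` open steps in one distance class of a representative. -/
noncomputable def shell (p : ℝ) (K : ℕ) (o : O) (j : ℕ) : ℝ :=
  ∑ y ∈ (E.ball (E.rep o) K).filter (fun y => E.sph (E.rep o) y = j), E.tau p K (E.rep o) y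

variable [Fintype O]

/-- The expected number of points within `K` open steps, summed over the representatives. -/
noncomputable def vol (p : ℝ) (K : ℕ) : ℝ :=
  ∑ o : O, ∑ y ∈ E.ball (E.rep o) K, E.tau p K (E.rep o) y

/-- The largest shell. -/
noncomputable def own (p : ℝ) (K : ℕ) : ℝ :=
  ((univ : Finset O) ×ˢ range (E.N * (K + 1) + 1)).sup' ⟨(E.typ E.a₁, 0), by simp⟩
    fun q => E.shell p K q.1 q.2

/-- The bound on the points of one thin family, seen from outside an excluded set. -/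
def TailLe (p : ℝ) (K : ℕ) (T : ℝ) : Prop :=
  ∀ (ψ : Γ) (ℓ : ℕ) (z : V), Link E.G (shift E.Φ ψ E.ok) ℓ z (E.Φ ψ E.a₁) →
    ∀ S Y : Finset V, (∀ v ∈ S, v ∈ shift E.Φ ψ E.ok) → E.Thin ψ (Y : Set V) →
      p ^ ℓ * ∑ y ∈ Y, tauW E.nb S p z y K ≤ T

/-- The exponents, the chains and the bound on short balls at one parameter. -/
structure Data (ps δ : ℝ) where
  /-- The exponent at which the code bound fails. -/
  θ : ℝ
  /-- The exponent at which the code bound holds. -/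
  θ' : ℝ
  /-- The constant of the chains. -/
  κ : ℝ
  /-- The constant in the length of a chain. -/
  C : ℕ
  /-- The constant for short balls. -/
  S : ℝ
  /-- The targets of a level. -/
  W : ℕ → Finset E.Tgt
  /-- Their level. -/
  l : ℕ → ℕ
  θ_pos : 0 < θ
  θ_le : θ ≤ θ'
  θ'_le_one : θ' ≤ 1
  ratio : θ' * (1 - δ) ≤ θ
  bound : E.Bound ps θ'
  κ_pos : 0 < κ
  mem : ∀ L, ∀ e ∈ W L, E.Strict e ∧ E.lev e = l L ∧ (E.cap e).Nonempty
  chain : ∀ L : ℕ, 1 ≤ L → κ * (L : ℝ) ^ (θ - δ) ≤ ∑ e ∈ W L,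
    min ((L : ℝ) * E.PsiN (C * (Nat.log 2 L + 1)) (C * (Nat.log 2 L + 1)) ps e) 1
  S_nonneg : 0 ≤ S
  short : ∀ L : ℕ, 1 ≤ L →
    ((C * (Nat.log 2 L + 1) : ℕ) + 1 : ℝ) * E.vol ps (C * (Nat.log 2 L + 1)) ≤ S * (L : ℝ) ^ δ

/-- Steps 1, 2. -/
def DataExists (ps : ℝ) : Prop :=
  ∃ θ₀ : ℝ, 0 < θ₀ ∧ ∀ δ : ℝ, 0 < δ → δ < 1 / 2 → ∃ D : E.Data ps δ, θ₀ ≤ D.θ

/-- Step 3: the tail. -/
def Tails (ps : ℝ) : Prop :=
  ∀ ε : ℝ, 0 < ε → ∃ C : ℝ, 0 ≤ C ∧ ∀ K, E.TailLe ps K (C * (E.vol ps K + 1) ^ ε)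

/-- Step 4: the shells. -/
def OwnBound (p : ℝ) : Prop :=
  ∃ (C : ℝ) (A : ℕ), 0 ≤ C ∧ ∀ (K : ℕ) (T : ℝ), 1 ≤ T → E.TailLe p K T → E.own p K ≤ C * T ^ A

/-- Step 5: closing at the last parameter. -/
def Closed (ps : ℝ) : Prop :=
  ∀ ε : ℝ, 0 < ε → ∃ C : ℝ, 0 ≤ C ∧ ∀ K, E.own ps K ≤ C * ((K : ℝ) + 1) ^ ε ∧
    E.TailLe ps K (C * ((K : ℝ) + 1) ^ ε)

/-- Step 6: the small form. -/
def Small (ps : ℝ) : Prop :=
  ∃ n, 1 ≤ n ∧ FQ.FormSmall E.nb (fun x => E.ball x n) n ps (1 / 4)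

end Core

end Vale.Agent.P165.HY
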