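import Vale.Agent.P165.HY.Space
import Vale.Agent.P165.HY.Core

/-!
# The setting on a hyperbolic space and the sets that replace half spaces

`B k ψ` is the shadow of `ψ b` seen from `ψ t₀`. A target is a level `j` and a centre `c` of the net
of that level: its cap is `{S_c < 2 / 2 ^ j}` and its hull `{S_c < 4 / 2 ^ j}`. The wide sets `Ax i`
hold the paths of the frames and are avoided as well as their deep parts `U i`.
-/

namespace Vale.Agent.P165.HY

open Finset

variable {Γ O ι V X : Type} [Group Γ] [PseudoMetricSpace X]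

/-- The points whose product with `ψ b` seen from `ψ t` is more than `k`. -/
def shadow (act : Γ →* Equiv.Perm X) (t b : X) (k : ℝ) (ψ : Γ) : Set X :=
  {q | k < gp (act ψ t) q (act ψ b)}

/-- A regular graph with a cofinite action, an equivariant map to a hyperbolic space, frames. -/
structure Env (Γ O ι V X : Type) [Group Γ] [Fintype ι] [PseudoMetricSpace X] where
  make ::
  /-- The graph. -/
  G : SimpleGraph V
  /-- The neighbours of a vertex. -/
  nb : V → ι → V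
  hl : Labelling G nb
  conn : G.Connected
  /-- The action on the graph. -/
  Φ : Γ →* (G ≃g G)
  /-- The representatives of the orbits. -/
  rep : O → V
  /-- A translation to a vertex from the representative of its orbit. -/
  sec : V → Γ
  /-- The orbit of a vertex. -/
  typ : V → O
  sec_spec : ∀ v, Φ (sec v) (rep (typ v)) = v
  /-- The type of the anchor. -/
  o₁ : O
  /-- The constant of hyperbolicity. -/
  δ : ℝ
  δ_nonneg : 0 ≤ δ
  hyp : Hyp X δ
  packing : Packing X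
  /-- The action on the space. -/
  act : Γ →* Equiv.Perm X
  isom : ∀ γ x y, dist (act γ x) (act γ y) = dist x y
  /-- The equivariant map. -/
  pos : V → X
  pos_eq : ∀ γ v, pos (Φ γ v) = act γ (pos v)
  /-- The Lipschitz constant of the map. -/
  D : ℝ
  D_nonneg : 0 ≤ D
  lip : ∀ x y, G.Adj x y → dist (pos x) (pos y) ≤ D
  /-- The centre of the excluded shadows. -/
  b : X
  /-- The threshold of the shadow avoided by the points of a tail. -/
  k₁ : ℝ
  /-- The threshold of the shadow avoided by targets. -/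
  k₂ : ℝ
  /-- The threshold of the shadow avoided by all windows. -/
  k₀ : ℝ
  /-- The constant of avoidance. -/
  Cf : ℝ
  /-- The depth of the frames. -/
  kU : ℝ
  /-- The bound on the paths of the frames. -/
  blk : ℕ
  one_le_blk : 1 ≤ blk
  one_le_Cf : 1 ≤ Cf
  hk₁ : 4 * (Cf + δ + 1) ≤ k₁
  hk₂ : k₁ + 8 * (Cf + δ + 1) ≤ k₂
  hk₀ : k₂ + 8 * (Cf + δ + 1) ≤ k₀
  hkU : 100 * (k₀ + Cf + δ + 1) ≤ kU
  hrep : ∀ o, dist (pos (rep o₁)) (pos (rep o)) ≤ Cf
  /-- The three deep directions at the anchor. -/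
  U : Fin 3 → Set X
  /-- The wide sets around them. -/
  Ax : Fin 3 → Set X
  /-- The forward frames. -/
  σ : Fin 3 → Γ
  /-- The backward frames. -/
  τ : Fin 3 → Γ
  U_sub : ∀ i, U i ⊆ Ax i
  U_deep : ∀ i, ∀ q ∈ U i, kU ≤ dist (pos (rep o₁)) q
  avoid : ∀ u w, ∃ i, ∀ q ∈ Ax i,
    gp (pos (rep o₁)) q u ≤ Cf ∧ gp (pos (rep o₁)) q w ≤ Cf
  σ_maps : ∀ i q, q ∉ shadow act (pos (rep o₁)) b k₀ 1 → act (σ i) q ∈ U i
  τ_maps : ∀ i q, q ∈ shadow act (pos (rep o₁)) b k₁ 1 → act (τ i) q ∈ U i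
  σ_path : ∀ i o, ∃ w : G.Walk (rep o) (Φ (σ i) (rep o₁)), w.length ≤ blk ∧
    ∀ v ∈ w.support, pos v ∈ Ax i
  τ_path : ∀ i o, ∃ w : G.Walk (rep o) (Φ (τ i) (rep o₁)), w.length ≤ blk ∧
    ∀ v ∈ w.support, pos v ∉ shadow act (pos (rep o₁)) b k₀ (τ i)
  deep : ∀ (m : ℕ) (o : O), ∃ P : Finset Γ, P.card = 2 ^ m ∧
    (∀ ψ ∈ P, kU ≤ dist (pos (rep o₁)) (act ψ (pos (rep o₁))) ∧
      gp (act ψ (pos (rep o₁))) (pos (rep o₁)) (act ψ b) ≤ Cf ∧
      gp (pos (rep o₁)) (act ψ (pos (rep o₁))) b ≤ Cf ∧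
      ∃ w : G.Walk (rep o) (Φ ψ (rep o₁)), w.length ≤ blk * (m + 1) ∧
        ∀ v ∈ w.support, pos v ∉ shadow act (pos (rep o₁)) b k₀ ψ ∧
          pos v ∉ shadow act (pos (rep o₁)) b k₀ 1) ∧
    ∀ ψ ∈ P, ∀ ψ' ∈ P, ψ ≠ ψ' →
      gp (pos (rep o₁)) (act ψ (pos (rep o₁))) (act ψ' (pos (rep o₁))) + kU ≤
        dist (pos (rep o₁)) (act ψ (pos (rep o₁)))

variable [Fintype ι]

namespace Env

variable (E : Env Γ O ι V X)

/-- The anchor. -/
def a₁ : V := E.rep E.o₁

/-- The image of the anchor. -/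
def t₀ : X := E.pos E.a₁

/-- The translate of `t₀` at which the frames of a vertex are based. -/
def base (v : V) : X := E.act (E.sec v) E.t₀

/-- The excluded shadow of threshold `k` of a translate. -/
def B (k : ℝ) (ψ : Γ) : Set X := shadow E.act E.t₀ E.b k ψ

/-- The complement of the excluded set, as vertices. -/
def ok : Set V := {v | E.pos v ∉ E.B E.k₀ 1}

/-- The complement of the larger excluded set, as vertices. -/
def ok₁ : Set V := {v | E.pos v ∉ E.B E.k₁ 1}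

/-- The visual exponent. -/
noncomputable def a : ℝ := expo E.δ

/-- The weight of the visual size. -/
noncomputable def A : ℝ := 4 * Real.exp (E.a * (2 * E.Cf))

/-- The radius of a level. -/
noncomputable def rad (j : ℕ) : ℝ := (1 / 2) ^ j

/-- The points that may be centres of a level. -/
def centres (j : ℕ) : Set X :=
  {c | qp E.a E.t₀ c ≤ rad j / (2 * E.A)}

/-- The net of a level. -/
noncomputable def net (j : ℕ) : Set X :=
  (exists_net (E.centres j) (fun x y => rad j ≤ rho E.a E.t₀ x y)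
    fun x y h => by rwa [rho_comm]).choose

theorem net_spec (j : ℕ) : E.net j ⊆ E.centres j ∧
    (E.net j).Pairwise (fun x y => rad j ≤ rho E.a E.t₀ x y) ∧
    ∀ x ∈ E.centres j, ∃ c ∈ E.net j, x = c ∨ ¬ rad j ≤ rho E.a E.t₀ x c :=
  (exists_net (E.centres j) (fun x y => rad j ≤ rho E.a E.t₀ x y)
    fun x y h => by rwa [rho_comm]).choose_spec

/-- The cap of a target in the space. -/
def capX (e : ℕ × X) : Set X := {x | Sfun E.a E.A E.t₀ e.2 x < 2 * rad e.1}

/-- The hull of a target in the space. -/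
def hullX (e : ℕ × X) : Set X := {x | Sfun E.a E.A E.t₀ e.2 x < 4 * rad e.1}

/-- The cap of a target. -/
def cap (e : ℕ × X) : Set V := E.pos ⁻¹' E.capX e

/-- The hull of a target. -/
def hull (e : ℕ × X) : Set V := E.pos ⁻¹' E.hullX e

/-- An admissible target. -/
def Strict (e : ℕ × X) : Prop := e.2 ∈ E.net e.1 ∧ Disjoint (E.hullX e) (E.B E.k₂ 1)

/-- One class of points as the tail sees them. -/
def Thin (ψ : Γ) (Y : Set V) : Prop :=
  Y ⊆ shift E.Φ ψ E.ok₁ ∧ ∃ (w : X) (d : ℝ), ∀ y ∈ Y, |gp (E.pos y) (E.act ψ E.t₀) w - d| ≤ 1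

/-- The distance class of a pair. -/
noncomputable def sph (x y : V) : ℕ := ⌊dist (E.pos x) (E.pos y)⌋₊

/-- The class of a pair seen from `t₀`. -/
noncomputable def kap (x y : V) : ℕ × ℕ :=
  (⌊gp (E.pos x) (E.pos y) E.t₀⌋₊, ⌊gp (E.pos y) (E.pos x) E.t₀⌋₊)

/-- The goals of the geometric pieces: every large enough constant serves. -/
def CountOK : Prop :=
  ∃ N₀ : ℕ, ∀ N, N₀ ≤ N → CountAx E.G E.a₁ N E.cap E.Strict Prod.fst

/-- See `CountOK`. -/
def ManyOK : Prop := ManyAx E.G E.a₁ E.ok E.cap E.hull E.Strict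

/-- See `CountOK`. -/
def StepOK : Prop :=
  ∃ N₀ : ℕ, ∀ N, N₀ ≤ N → StepAx E.Φ E.a₁ E.ok N E.blk E.cap E.hull E.Strict

/-- See `CountOK`. -/
def SpreadOK : Prop :=
  ∃ N₀ : ℕ, ∀ N, N₀ ≤ N →
    SpreadAx E.Φ E.a₁ E.ok N E.blk E.cap E.hull E.Strict Prod.fst E.Thin

/-- See `CountOK`. -/
def CutsOK : Prop :=
  ∃ N₀ : ℕ, ∀ N, N₀ ≤ N → CutsAx E.Φ E.rep E.a₁ E.ok E.ok₁ N E.blk E.Thin E.sph

/-- See `CountOK`. -/
def RowsOK : Prop :=
  ∃ N₀ : ℕ, ∀ N, N₀ ≤ N → RowsAx E.Φ E.a₁ E.ok E.ok₁ N E.blk E.Thin E.sph E.kap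

end Env

end Vale.Agent.P165.HY
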