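import Vale.Agent.P165.HY.Upper
import Vale.Agent.P165.HY.Ends

/-!
# Four ends in the hyperbolic plane from traces

For `g` in `SL(2, ℝ)` one has `cosh (dist (g • I) I) = fro g / 2`, `fro` the sum of the squares of the
entries. If `|tr g|, |tr h| > 2` and the trace of the commutator is not `2`, the four pairs of
sequences of powers diverge.
-/

namespace Vale.Agent.P165.HY.Mat

open UpperHalfPlane
open scoped MatrixGroups

/-- The squared Frobenius norm. -/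
def fro (A : Matrix (Fin 2) (Fin 2) ℝ) : ℝ := A 0 0 ^ 2 + A 0 1 ^ 2 + A 1 0 ^ 2 + A 1 1 ^ 2

theorem fro_nonneg (A : Matrix (Fin 2) (Fin 2) ℝ) : 0 ≤ fro A := by
  unfold fro; positivity

theorem fro_pos {A : Matrix (Fin 2) (Fin 2) ℝ} (h : A ≠ 0) : 0 < fro A := by
  refine (fro_nonneg A).lt_of_ne fun e => h ?_
  unfold fro at e
  have h1 : A 0 0 ^ 2 = 0 := by
    nlinarith [sq_nonneg (A 0 0), sq_nonneg (A 0 1), sq_nonneg (A 1 0), sq_nonneg (A 1 1)]
  have h2 : A 0 1 ^ 2 = 0 := by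
    nlinarith [sq_nonneg (A 0 0), sq_nonneg (A 0 1), sq_nonneg (A 1 0), sq_nonneg (A 1 1)]
  have h3 : A 1 0 ^ 2 = 0 := by
    nlinarith [sq_nonneg (A 0 0), sq_nonneg (A 0 1), sq_nonneg (A 1 0), sq_nonneg (A 1 1)]
  have h4 : A 1 1 ^ 2 = 0 := by
    nlinarith [sq_nonneg (A 0 0), sq_nonneg (A 0 1), sq_nonneg (A 1 0), sq_nonneg (A 1 1)]
  rw [sq_eq_zero_iff] at h1 h2 h3 h4
  ext i j
  fin_cases i <;> fin_cases j <;> assumption

theorem fro_smul (c : ℝ) (A : Matrix (Fin 2) (Fin 2) ℝ) : fro (c • A) = c ^ 2 * fro A := by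
  simp only [fro, Matrix.smul_apply, smul_eq_mul]; ring

theorem fro_mul (A B : Matrix (Fin 2) (Fin 2) ℝ) : fro (A * B) ≤ fro A * fro B := by
  simp only [fro, Matrix.mul_apply, Fin.sum_univ_two]
  nlinarith [sq_nonneg (A 0 0 * B 1 0 - A 0 1 * B 0 0), sq_nonneg (A 0 0 * B 1 1 - A 0 1 * B 0 1),
    sq_nonneg (A 1 0 * B 1 0 - A 1 1 * B 0 0), sq_nonneg (A 1 0 * B 1 1 - A 1 1 * B 0 1)]

theorem fro_sub_le (A B : Matrix (Fin 2) (Fin 2) ℝ) : fro (A - B) ≤ 2 * fro A + 2 * fro B := by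
  simp only [fro, Matrix.sub_apply]
  nlinarith [sq_nonneg (A 0 0 + B 0 0), sq_nonneg (A 0 1 + B 0 1), sq_nonneg (A 1 0 + B 1 0),
    sq_nonneg (A 1 1 + B 1 1)]

theorem det_eq (g : SL(2, ℝ)) :
    g.1 0 0 * g.1 1 1 - g.1 0 1 * g.1 1 0 = 1 := by
  have h := g.2
  rwa [Matrix.det_fin_two] at h

/-- The displacement of `I`. -/
theorem cosh_dist_smul (g : SL(2, ℝ)) : Real.cosh (dist (g • I) I) = fro g.1 / 2 := by
  have hdet := det_eq g
  have hc : ((g • I : ℍ) : ℂ) = ((g.1 0 0 : ℂ) * Complex.I + g.1 0 1) /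
      ((g.1 1 0 : ℂ) * Complex.I + g.1 1 1) := by
    rw [coe_specialLinearGroup_apply]; simp
  have hn : (0 : ℝ) < g.1 1 0 ^ 2 + g.1 1 1 ^ 2 := by
    rcases eq_or_ne (g.1 1 0) 0 with h | h
    · have : g.1 1 1 ≠ 0 := fun h' => by rw [h, h'] at hdet; simp at hdet
      positivity
    · positivity
  have hre : (g • I : ℍ).re =
      (g.1 0 0 * g.1 1 0 + g.1 0 1 * g.1 1 1) / (g.1 1 0 ^ 2 + g.1 1 1 ^ 2) := by
    rw [← coe_re, hc, Complex.div_re, Complex.normSq_apply]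
    simp
    rw [← add_div]
    congr 1 <;> ring
  have him : (g • I : ℍ).im = 1 / (g.1 1 0 ^ 2 + g.1 1 1 ^ 2) := by
    rw [← coe_im, hc, Complex.div_im, Complex.normSq_apply]
    simp
    rw [div_sub_div_same, ← one_div, show g.1 1 1 * g.1 1 1 + g.1 1 0 * g.1 1 0 =
      g.1 1 0 ^ 2 + g.1 1 1 ^ 2 by ring]
    congr 1
  rw [cosh_dist, dist_eq_norm, Complex.sq_norm, Complex.normSq_apply]
  simp only [Complex.sub_re, Complex.sub_im, coe_re, coe_im, coe_I, Complex.I_re, Complex.I_im,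
    sub_zero, show (I : ℍ).im = 1 from rfl]
  rw [hre, him, fro]
  field_simp
  linear_combination (-(g.1 0 0 * g.1 1 1 - g.1 0 1 * g.1 1 0) - 1) * hdet

theorem exp_dist_le_fro (g : SL(2, ℝ)) :
    Real.exp (dist I (g • I)) ≤ fro g.1 ∧ fro g.1 ≤ 2 * Real.exp (dist I (g • I)) := by
  have h := cosh_dist_smul g
  rw [dist_comm, Real.cosh_eq] at h
  have h1 : Real.exp (-dist I (g • I)) ≤ Real.exp (dist I (g • I)) :=
    Real.exp_le_exp.2 (by linarith [dist_nonneg (x := (I : ℍ)) (y := g • I)])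
  have := Real.exp_pos (-dist I (g • I))
  constructor <;> linarith

theorem cayley (g : SL(2, ℝ)) {l : ℝ} (hl : l ≠ 0) (htr : l + l⁻¹ = g.1 0 0 + g.1 1 1) :
    g.1 * (g.1 - l⁻¹ • 1) = l • (g.1 - l⁻¹ • 1) := by
  have hdet := det_eq g
  have h1 : g.1 0 0 + g.1 1 1 = l + l⁻¹ := htr.symm
  have h2 : l * l⁻¹ = 1 := mul_inv_cancel₀ hl
  ext i j
  fin_cases i <;> fin_cases j <;>
    simp [Matrix.mul_apply, Fin.sum_univ_two, Matrix.sub_apply, Matrix.smul_apply, Matrix.one_apply]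
  · linear_combination g.1 0 0 * h1 - hdet + h2
  · linear_combination g.1 0 1 * h1
  · linear_combination g.1 1 0 * h1
  · linear_combination g.1 1 1 * h1 - hdet + h2

theorem pow_mul_eig {A P : Matrix (Fin 2) (Fin 2) ℝ} {l : ℝ} (h : A * P = l • P) (n : ℕ) :
    A ^ n * P = l ^ n • P := by
  induction n with
  | zero => simp
  | succ n ih => rw [pow_succ, mul_assoc, h, mul_smul_comm, ih, smul_smul, pow_succ, mul_comm l]

theorem mul_pow_eig {A P : Matrix (Fin 2) (Fin 2) ℝ} {l : ℝ} (h : P * A = l • P) (n : ℕ) :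
    P * A ^ n = l ^ n • P := by
  induction n with
  | zero => simp
  | succ n ih => rw [pow_succ, ← mul_assoc, ih, smul_mul_assoc, h, smul_smul, pow_succ]

/-- Trace, in coordinates. -/
def tr (g : SL(2, ℝ)) : ℝ := g.1 0 0 + g.1 1 1

/-- The Fricke polynomial: the trace of the commutator less two. -/
def kappa (g h : SL(2, ℝ)) : ℝ := tr g ^ 2 + tr h ^ 2 + tr (g * h) ^ 2 - tr g * tr h * tr (g * h) - 4

theorem tr_inv (g : SL(2, ℝ)) : tr g⁻¹ = tr g := by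
  simp [tr, Matrix.SpecialLinearGroup.coe_inv, Matrix.adjugate_fin_two, add_comm]

theorem kappa_eq (g h : SL(2, ℝ)) : kappa g h = tr (g * h * g⁻¹ * h⁻¹) - 2 := by
  have e1 := det_eq g
  have e2 := det_eq h
  simp only [kappa, tr, Matrix.SpecialLinearGroup.coe_mul, Matrix.SpecialLinearGroup.coe_inv,
    Matrix.adjugate_fin_two, Matrix.mul_apply, Fin.sum_univ_two]
  simp
  grind

theorem tr_inv_mul (g h : SL(2, ℝ)) : tr (g⁻¹ * h) = tr g * tr h - tr (g * h) := by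
  simp only [tr, Matrix.SpecialLinearGroup.coe_mul, Matrix.SpecialLinearGroup.coe_inv,
    Matrix.adjugate_fin_two, Matrix.mul_apply, Fin.sum_univ_two]
  simp
  ring

theorem kappa_inv_left (g h : SL(2, ℝ)) : kappa g⁻¹ h = kappa g h := by
  rw [kappa, kappa, tr_inv, tr_inv_mul]; ring

theorem kappa_inv_right (g h : SL(2, ℝ)) : kappa g h⁻¹ = kappa g h := by
  have e : tr (g * h⁻¹) = tr g * tr h - tr (g * h) := by
    simp only [tr, Matrix.SpecialLinearGroup.coe_mul, Matrix.SpecialLinearGroup.coe_inv,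
      Matrix.adjugate_fin_two, Matrix.mul_apply, Fin.sum_univ_two]
    simp
    ring
  rw [kappa, kappa, tr_inv, e]; ring

/-- The eigenvalue of modulus greater than one. -/
theorem exists_eig {t : ℝ} (ht : 2 < |t|) : ∃ l : ℝ, 1 < |l| ∧ l + l⁻¹ = t := by
  have hsq : 0 < t ^ 2 - 4 := by nlinarith [sq_abs t]
  set s := √(t ^ 2 - 4)
  have hs : s * s = t ^ 2 - 4 := Real.mul_self_sqrt hsq.le
  have hs0 : 0 < s := Real.sqrt_pos.2 hsq
  rcases le_or_gt 0 t with h | h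
  · rw [abs_of_nonneg h] at ht
    refine ⟨(t + s) / 2, ?_, ?_⟩
    · rw [abs_of_pos (by linarith)]; linarith
    · have : (t + s) / 2 ≠ 0 := by linarith
      field_simp
      linear_combination hs
  · rw [abs_of_neg h] at ht
    refine ⟨(t - s) / 2, ?_, ?_⟩
    · rw [abs_of_neg (by linarith)]; linarith
    · rw [show ((t - s) / 2)⁻¹ = (t + s) / 2 from
        inv_eq_of_mul_eq_one_right (by linear_combination -hs / 4)]
      ring

theorem fro_pow_le (g : SL(2, ℝ)) {l : ℝ} (h1 : 1 < |l|) (htr : l + l⁻¹ = tr g) :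
    ∃ C : ℝ, 0 < C ∧ ∀ n : ℕ, fro (g ^ n).1 ≤ C * l ^ (2 * n) := by
  have hl : l ≠ 0 := fun e => by rw [e] at h1; simp at h1; linarith
  have hl2 : 1 < l ^ 2 := by nlinarith [sq_abs l]
  set P := g.1 - l⁻¹ • (1 : Matrix (Fin 2) (Fin 2) ℝ)
  set Q := g.1 - l • (1 : Matrix (Fin 2) (Fin 2) ℝ)
  have hP : g.1 * P = l • P := cayley g hl htr
  have hQ : g.1 * Q = l⁻¹ • Q := by
    have := cayley g (inv_ne_zero hl) (by rw [inv_inv, add_comm]; exact htr)
    rwa [inv_inv] at this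
  have hd : l - l⁻¹ ≠ 0 := by
    intro e
    have : l * l = 1 := by rw [sub_eq_zero.1 e] at *; field_simp at e ⊢; nlinarith
    nlinarith
  refine ⟨(2 * fro P + 2 * fro Q) / (l - l⁻¹) ^ 2 + 1,
    by linarith [div_nonneg (add_nonneg (mul_nonneg zero_le_two (fro_nonneg P))
      (mul_nonneg zero_le_two (fro_nonneg Q))) (sq_nonneg (l - l⁻¹))], fun n => ?_⟩
  have hPQ : P - Q = (l - l⁻¹) • (1 : Matrix (Fin 2) (Fin 2) ℝ) := by
    simp only [P, Q, sub_smul]; abel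
  have key : (l - l⁻¹) • (g ^ n).1 = l ^ n • P - l⁻¹ ^ n • Q := by
    rw [Matrix.SpecialLinearGroup.coe_pow, ← pow_mul_eig hP n, ← pow_mul_eig hQ n, ← mul_sub, hPQ,
      mul_smul_comm, mul_one]
  have h2 := fro_sub_le (l ^ n • P) (l⁻¹ ^ n • Q)
  rw [← key, fro_smul, fro_smul, fro_smul, ← pow_mul, ← pow_mul, mul_comm n 2] at h2
  have h3 : (1 : ℝ) ≤ l ^ (2 * n) := by rw [pow_mul]; exact one_le_pow₀ hl2.le
  have h4 : l⁻¹ ^ (2 * n) ≤ l ^ (2 * n) := by
    rw [inv_pow]; exact (inv_le_one_of_one_le₀ h3).trans h3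
  have hd2 : 0 < (l - l⁻¹) ^ 2 := by positivity
  have h5 : fro (g ^ n).1 ≤ (2 * fro P + 2 * fro Q) / (l - l⁻¹) ^ 2 * l ^ (2 * n) := by
    rw [div_mul_eq_mul_div, le_div_iff₀ hd2]
    nlinarith [mul_le_mul_of_nonneg_right h4 (fro_nonneg Q)]
  linarith

/-- Lower bound for `g ^ (-n) * h ^ k`. -/
theorem fro_inv_pow_mul_pow (g h : SL(2, ℝ)) {l m : ℝ} (hl : 1 < |l|) (hm : 1 < |m|)
    (htg : l + l⁻¹ = tr g) (hth : m + m⁻¹ = tr h) (hk : kappa g h ≠ 0) :
    ∃ c : ℝ, 0 < c ∧ ∀ n k : ℕ, c * (l ^ (2 * n) * m ^ (2 * k)) ≤ fro ((g ^ n)⁻¹ * h ^ k).1 := by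
  have hl0 : l ≠ 0 := fun e => by rw [e] at hl; simp at hl; linarith
  have hm0 : m ≠ 0 := fun e => by rw [e] at hm; simp at hm; linarith
  set R := (g⁻¹).1 - l⁻¹ • (1 : Matrix (Fin 2) (Fin 2) ℝ) with hR
  set P := h.1 - m⁻¹ • (1 : Matrix (Fin 2) (Fin 2) ℝ) with hP
  have hRg : R * (g⁻¹).1 = l • R := by
    have h1 := cayley g⁻¹ hl0 (htg.trans (tr_inv g).symm)
    rw [← h1, hR, mul_sub, sub_mul, smul_mul_assoc, mul_smul_comm, one_mul, mul_one]
  have hhP : h.1 * P = m • P := cayley h hm0 hth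
  have hne : R * P ≠ 0 := by
    intro e
    apply hk
    have e' : tr (g⁻¹ * h) - l⁻¹ * tr h - m⁻¹ * tr g⁻¹ + 2 * (l⁻¹ * m⁻¹) = 0 := by
      have h00 := congrFun (congrFun e 0) 0
      have h11 := congrFun (congrFun e 1) 1
      simp [R, P, Matrix.mul_apply, Fin.sum_univ_two, Matrix.one_apply] at h00 h11
      simp [tr, Matrix.SpecialLinearGroup.coe_mul, Matrix.mul_apply, Fin.sum_univ_two]
      linear_combination h00 + h11
    rw [tr_inv, ← htg, ← hth] at e'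
    rw [← kappa_inv_left]
    simp only [kappa, tr_inv, ← htg, ← hth]
    field_simp at e' ⊢
    grind
  have hR0 : R ≠ 0 := fun e => hne (by rw [e, zero_mul])
  have hP0 : P ≠ 0 := fun e => hne (by rw [e, mul_zero])
  have hRp := fro_pos hR0
  have hPp := fro_pos hP0
  have hRPp := fro_pos hne
  refine ⟨fro (R * P) / (fro R * fro P), by positivity, fun n k => ?_⟩
  have e : R * ((g ^ n)⁻¹ * h ^ k).1 * P = (l ^ n * m ^ k) • (R * P) := by
    rw [← inv_pow, Matrix.SpecialLinearGroup.coe_mul, Matrix.SpecialLinearGroup.coe_pow,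
      Matrix.SpecialLinearGroup.coe_pow, ← mul_assoc, mul_pow_eig hRg n, mul_assoc,
      pow_mul_eig hhP k, smul_mul_assoc, mul_smul_comm, smul_smul]
  have h1 := (fro_mul (R * ((g ^ n)⁻¹ * h ^ k).1) P).trans
    (mul_le_mul_of_nonneg_right (fro_mul _ _) hPp.le)
  rw [e, fro_smul, mul_pow, ← pow_mul, ← pow_mul, mul_comm n, mul_comm k] at h1
  rw [div_mul_eq_mul_div, div_le_iff₀ (by positivity)]
  linarith

/-- Diverging sequences of powers. -/
theorem diverge (g h : SL(2, ℝ)) (hg : 2 < |tr g|) (hh : 2 < |tr h|) (hk : kappa g h ≠ 0) :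
    ∃ K : ℝ, ∀ n k : ℕ,
      dist I (g ^ n • I) + dist I (h ^ k • I) ≤ dist (g ^ n • I) (h ^ k • I) + K := by
  obtain ⟨l, hl, htg⟩ := exists_eig hg
  obtain ⟨m, hm, hth⟩ := exists_eig hh
  obtain ⟨Cg, hCg, hgb⟩ := fro_pow_le g hl htg
  obtain ⟨Ch, hCh, hhb⟩ := fro_pow_le h hm hth
  obtain ⟨c, hc, hlow⟩ := fro_inv_pow_mul_pow g h hl hm htg hth hk
  refine ⟨Real.log (2 * (Cg * Ch) / c), fun n k => ?_⟩
  have e : dist (g ^ n • I) (h ^ k • I) = dist I (((g ^ n)⁻¹ * h ^ k) • I) := by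
    rw [mul_smul, ← dist_smul (g ^ n) I, smul_inv_smul]
  rw [e]
  refine Real.exp_le_exp.1 ?_
  rw [Real.exp_add, Real.exp_add, Real.exp_log (by positivity), mul_div_assoc', le_div_iff₀ hc]
  have h1 := mul_le_mul (((exp_dist_le_fro (g ^ n)).1).trans (hgb n))
    (((exp_dist_le_fro (h ^ k)).1).trans (hhb k)) (Real.exp_pos _).le
    (mul_nonneg hCg.le (even_two_mul n |>.pow_nonneg l))
  have h2 := (hlow n k).trans (exp_dist_le_fro ((g ^ n)⁻¹ * h ^ k)).2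
  nlinarith [mul_le_mul_of_nonneg_left h2 (mul_nonneg hCg.le hCh.le)]

/-- The powers escape linearly. -/
theorem escape (g : SL(2, ℝ)) (hg : 2 < |tr g|) :
    ∃ m : ℕ, 0 < m ∧ ∀ m', m ≤ m' → ∀ n : ℕ, (n : ℝ) ≤ dist I ((g ^ m') ^ n • I) := by
  obtain ⟨l, hl, htg⟩ := exists_eig hg
  have hl0 : l ≠ 0 := fun e => by rw [e] at hl; simp at hl; linarith
  have hL : 0 < Real.log (l ^ 2) := Real.log_pos (by nlinarith [sq_abs l])
  obtain ⟨m, hm⟩ := exists_nat_gt ((1 + Real.log 2) / Real.log (l ^ 2))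
  have hlog2 : 0 < Real.log 2 := Real.log_pos one_lt_two
  have hm0 : 0 < m := by
    have : (0 : ℝ) < m := lt_trans (by positivity) hm
    exact_mod_cast this
  refine ⟨m, hm0, fun m' hm' n => ?_⟩
  rcases Nat.eq_zero_or_pos n with rfl | hn
  · simp
  set P := g.1 - l⁻¹ • (1 : Matrix (Fin 2) (Fin 2) ℝ)
  have hP : g.1 * P = l • P := cayley g hl0 htg
  have hP0 : P ≠ 0 := by
    intro e
    have h00 := congrFun (congrFun e 0) 0
    have h11 := congrFun (congrFun e 1) 1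
    simp [P] at h00 h11
    unfold tr at htg
    have : l = l⁻¹ := by linarith
    field_simp at this
    nlinarith [sq_abs l]
  have h1 := fro_mul (g.1 ^ (m' * n)) P
  rw [pow_mul_eig hP, fro_smul, ← Matrix.SpecialLinearGroup.coe_pow] at h1
  have h2 : (l ^ (m' * n)) ^ 2 ≤ fro (g ^ (m' * n)).1 := le_of_mul_le_mul_right h1 (fro_pos hP0)
  rw [← pow_mul g]
  have h3 := Real.log_le_log (by positivity) (h2.trans (exp_dist_le_fro _).2)
  rw [Real.log_mul (by norm_num) (Real.exp_pos _).ne', Real.log_exp, ← pow_mul,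
    mul_comm (m' * n) 2, pow_mul, Real.log_pow] at h3
  rw [div_lt_iff₀ hL] at hm
  push_cast at h3
  have hm'' : (m : ℝ) ≤ m' := by exact_mod_cast hm'
  have hn' : (1 : ℝ) ≤ n := by exact_mod_cast hn
  have h4 := mul_le_mul_of_nonneg_right hm'' hL.le
  nlinarith

/-- A group mapped to `SL(2, ℝ)` with two hyperbolic elements whose commutator does not have
trace `2` has four ends in the hyperbolic plane. -/
theorem fourEnds {Γ : Type} [Group Γ] (φ : Γ →* SL(2, ℝ)) (g h : Γ)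
    (hg : 2 < |tr (φ g)|) (hh : 2 < |tr (φ h)|) (hk : tr (φ (g * h * g⁻¹ * h⁻¹)) ≠ 2) :
    ∃ g' h' : Γ, ∃ K : ℝ,
      (∀ n : ℕ, (n : ℝ) ≤ dist I (φ (g' ^ n) • I) ∧ (n : ℝ) ≤ dist I (φ (h' ^ n) • I)) ∧
      ∀ a ∈ [(g', h'), (g', h'⁻¹), (g'⁻¹, h'), (g'⁻¹, h'⁻¹)], ∀ n k : ℕ,
        dist I (φ (a.1 ^ n) • I) + dist I (φ (a.2 ^ k) • I) ≤
          dist (φ (a.1 ^ n) • I) (φ (a.2 ^ k) • I) + K := by
  have hk' : kappa (φ g) (φ h) ≠ 0 := by
    rw [kappa_eq]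
    simp only [map_mul, map_inv] at hk
    exact sub_ne_zero.2 hk
  obtain ⟨mg, _, hmg⟩ := escape (φ g) hg
  obtain ⟨mh, _, hmh⟩ := escape (φ h) hh
  obtain ⟨K1, hK1⟩ := diverge (φ g) (φ h) hg hh hk'
  obtain ⟨K2, hK2⟩ := diverge (φ g) (φ h)⁻¹ hg (by rw [tr_inv]; exact hh)
    (by rw [kappa_inv_right]; exact hk')
  obtain ⟨K3, hK3⟩ := diverge (φ g)⁻¹ (φ h) (by rw [tr_inv]; exact hg) hh
    (by rw [kappa_inv_left]; exact hk')
  obtain ⟨K4, hK4⟩ := diverge (φ g)⁻¹ (φ h)⁻¹ (by rw [tr_inv]; exact hg)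
    (by rw [tr_inv]; exact hh) (by rw [kappa_inv_left, kappa_inv_right]; exact hk')
  refine ⟨g ^ mg, h ^ mh, max (max K1 K2) (max K3 K4), fun n => ?_, ?_⟩
  · simp only [map_pow]
    exact ⟨hmg mg le_rfl n, hmh mh le_rfl n⟩
  · intro a ha n k
    simp only [List.mem_cons, List.not_mem_nil, or_false] at ha
    rcases ha with rfl | rfl | rfl | rfl <;> dsimp only <;>
      simp only [← inv_pow, ← pow_mul, map_pow, map_inv]
    · exact (hK1 _ _).trans (by linarith [le_max_left (max K1 K2) (max K3 K4), le_max_left K1 K2])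
    · exact (hK2 _ _).trans (by linarith [le_max_left (max K1 K2) (max K3 K4), le_max_right K1 K2])
    · exact (hK3 _ _).trans (by linarith [le_max_right (max K1 K2) (max K3 K4), le_max_left K3 K4])
    · exact (hK4 _ _).trans (by linarith [le_max_right (max K1 K2) (max K3 K4), le_max_right K3 K4])

/-- The action on the hyperbolic plane through a homomorphism. -/
noncomputable def planeAct {Γ : Type} [Group Γ] (φ : Γ →* SL(2, ℝ)) : Γ →* Equiv.Perm ℍ :=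
  (MulAction.toPermHom SL(2, ℝ) ℍ).comp φ

theorem planeAct_isom {Γ : Type} [Group Γ] (φ : Γ →* SL(2, ℝ)) (γ : Γ) (x y : ℍ) :
    dist (planeAct φ γ x) (planeAct φ γ y) = dist x y :=
  dist_smul (φ γ) x y

/-- The criterion in the form used by the frames. -/
theorem fourEnds_planeAct {Γ : Type} [Group Γ] (φ : Γ →* SL(2, ℝ)) (g h : Γ)
    (hg : 2 < |tr (φ g)|) (hh : 2 < |tr (φ h)|) (hk : tr (φ (g * h * g⁻¹ * h⁻¹)) ≠ 2) :
    FourEnds (planeAct φ) I := by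
  obtain ⟨g', h', K, hsp, hdiv⟩ := fourEnds φ g h hg hh hk
  refine ⟨g', h', K / 2, hsp, fun a ha n k => ?_⟩
  have := hdiv a ha n k
  change gp I (φ (a.1 ^ n) • I) (φ (a.2 ^ k) • I) ≤ K / 2
  rw [gp]
  linarith

/-! ### A Hilbert modular example -/

/-- `√2` as a root. -/
noncomputable def root2 : {r : ℝ // r * r = ((2 : ℤ) : ℝ)} :=
  ⟨√2, by rw [Real.mul_self_sqrt] <;> norm_num⟩

/-- The embedding of `SL(2, ℤ[√2])` given by one real place. -/
noncomputable def place : SL(2, ℤ√2) →* SL(2, ℝ) :=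
  Matrix.SpecialLinearGroup.map (Zsqrtd.lift root2)

/-- A hyperbolic element. -/
def gEx : SL(2, ℤ√2) := ⟨!![1, 1; 1, 2], by decide⟩

/-- A second one. -/
def hEx : SL(2, ℤ√2) := ⟨!![2, 1; 1, 1], by decide⟩

theorem example_traces : 2 < |tr (place gEx)| ∧ 2 < |tr (place hEx)| ∧
    tr (place (gEx * hEx * gEx⁻¹ * hEx⁻¹)) ≠ 2 := by
  have e : ∀ M : SL(2, ℤ√2), tr (place M) = Zsqrtd.lift root2 (M.1 0 0 + M.1 1 1) := fun M => by
    rw [map_add]; rfl
  have e1 : gEx.1 0 0 + gEx.1 1 1 = 3 := by decide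
  have e2 : hEx.1 0 0 + hEx.1 1 1 = 3 := by decide
  have e3 : (gEx * hEx * gEx⁻¹ * hEx⁻¹).1 0 0 + (gEx * hEx * gEx⁻¹ * hEx⁻¹).1 1 1 = -2 := by
    decide
  rw [e, e, e, e1, e2, e3, map_neg]
  norm_num

end Vale.Agent.P165.HY.Mat
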