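import Vale.Agent.P165.HY.Basic
import Vale.Agent.P165.QT.Rows
import Vale.Agent.P165.TR.LastExit
import Vale.Agent.P165.TA.CutArith

/-!
# Rows by nested cuts at many levels

A short connection to a far class leaves every cut for the last time at a gate. The gates of one
unit of levels have total weight bounded by the tail, so a fixed number of cuts makes the mass of
the class any power of the tail over the distance.
-/

namespace Vale.Agent.P165.HY

open Finset
open Vale.Agent.P165.FQ (tauW tauW_nonneg tauW_self)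

/-- A geometric series in steps of length `N`. -/
theorem sum_half_pow_div {N : ℕ} (hN : 1 ≤ N) (A : Finset ℕ) :
    ∑ k ∈ A, (1 / 2 : ℝ) ^ (k / N) ≤ 2 * N := by
  set B := A.sup id
  calc ∑ k ∈ A, (1 / 2 : ℝ) ^ (k / N)
      ≤ ∑ k ∈ (range (B + 1) ×ˢ range N).image (fun q => q.1 * N + q.2),
          (1 / 2 : ℝ) ^ (k / N) := by
        refine sum_le_sum_of_subset_of_nonneg (fun k hk => ?_) fun k _ _ => by positivity
        have hkB : k ≤ B := le_sup (f := id) hk
        have hdiv := Nat.div_add_mod k N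
        have hmod := Nat.mod_lt k (show 0 < N by omega)
        have hle := (Nat.div_le_self k N).trans hkB
        refine mem_image.2 ⟨(k / N, k % N), mem_product.2 ⟨mem_range.2 (by omega), mem_range.2 hmod⟩,
          ?_⟩
        show k / N * N + k % N = k
        rw [mul_comm]
        exact hdiv
    _ ≤ ∑ q ∈ range (B + 1) ×ˢ range N, (1 / 2 : ℝ) ^ q.1 := by
        refine (sum_image_le_of_nonneg fun q _ => by positivity).trans (le_of_eq ?_)
        refine sum_congr rfl fun q hq => ?_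
        rw [show (q.1 * N + q.2) / N = q.1 by
          rw [mul_comm, Nat.mul_add_div (show N > 0 by omega),
            Nat.div_eq_of_lt (mem_range.1 (mem_product.1 hq).2), add_zero]]
    _ ≤ 2 * N := by
        rw [sum_product]
        simp only [sum_const, card_range, nsmul_eq_mul]
        rw [← mul_sum, mul_comm (2 : ℝ)]
        exact mul_le_mul_of_nonneg_left (sum_geometric_two_le _) (Nat.cast_nonneg _)

/-- Weights with counts decaying in the class. -/
theorem charged_sum {V : Type} {N M : ℕ} (hN : 1 ≤ N) (W : Finset V) (g c : V → ℕ) (f : V → ℝ)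
    (hf : ∀ w ∈ W, 0 ≤ f w) (hc : ∀ w ∈ W, c w * 2 ^ (g w / N) ≤ N * M) {B : ℝ} (hB0 : 0 ≤ B)
    (hB : ∀ k, ∑ w ∈ W.filter (fun w => g w = k), f w ≤ B) :
    ∑ w ∈ W, (c w : ℝ) * f w ≤ (N : ℝ) * M * (2 * N) * B := by
  classical
  rw [← sum_fiberwise_of_maps_to (t := W.image g) fun w hw => mem_image_of_mem g hw]
  calc ∑ k ∈ W.image g, ∑ w ∈ W.filter (fun w => g w = k), (c w : ℝ) * f w
      ≤ ∑ k ∈ W.image g, (N : ℝ) * M * (1 / 2 : ℝ) ^ (k / N) * B := by
        refine sum_le_sum fun k _ => ?_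
        refine le_trans ?_ (mul_le_mul_of_nonneg_left (hB k) (by positivity))
        rw [mul_sum]
        refine sum_le_sum fun w hw => ?_
        obtain ⟨hw, hk⟩ := mem_filter.1 hw
        refine mul_le_mul_of_nonneg_right ?_ (hf w hw)
        rw [one_div_pow, mul_one_div, le_div_iff₀ (by positivity)]
        exact_mod_cast hk ▸ hc w hw
    _ = (N : ℝ) * M * (∑ k ∈ W.image g, (1 / 2 : ℝ) ^ (k / N)) * B := by
        rw [mul_sum, sum_mul]
    _ ≤ _ := mul_le_mul_of_nonneg_right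
        (mul_le_mul_of_nonneg_left (sum_half_pow_div hN _) (by positivity)) hB0

namespace Core

variable {Γ V O ι : Type} [Group Γ] [Fintype ι] {E : Core Γ V O ι} [DecidableEq V] {p : ℝ} {K : ℕ}
  {T : ℝ}

open Classical in
/-- The points of one thin family seen from an anchored gate. -/
theorem anchored_tail (h0 : 0 < p) (hT : E.TailLe p K T) {χ : Γ} {z : V}
    (hlink : Link E.G (shift E.Φ χ E.ok) E.blk z (E.Φ χ E.a₁)) {C : Set V}
    (hC : ∀ v, v ∉ C → v ∈ shift E.Φ χ E.ok₁) (S Y : Finset V) (hS : ∀ v ∈ S, v = z ∨ v ∉ C)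
    (hY : E.Thin χ (Y : Set V)) : ∑ y ∈ Y, tauW E.nb S p z y K ≤ T / p ^ E.blk := by
  rw [le_div_iff₀' (pow_pos h0 _)]
  refine hT χ E.blk z hlink S Y (fun v hv => ?_) hY
  rcases hS v hv with rfl | h
  · obtain ⟨w, -, hw⟩ := hlink
    exact hw v w.start_mem_support
  · exact E.ok₁_sub (hC v h)

open Classical in
/-- The points of one class far from `x` are light. -/
theorem row_far [Fintype O] (h0 : 0 < p) (h1 : p ≤ 1) (hT1 : 1 ≤ T) (hT : E.TailLe p K T) (k : ℕ)
    {x : V} {u v : ℕ} (hu : 2 ^ k * 2 + E.N + 1 ≤ u) (F : Finset V)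
    (hF : ∀ y ∈ F, E.kap x y = (u, v)) :
    ∑ y ∈ F, E.tau p K x y ≤ 2 * (E.N : ℝ) ^ 2 * E.own p K *
      ((4 * (2 * (E.N : ℝ) + 1) * 2 ^ k) ^ k *
        ((E.N : ℝ) * (T / p ^ E.blk) / (u - E.N - 1 : ℕ)) ^ k *
        ((E.N : ℝ) * (T / p ^ E.blk))) := by
  have hown := E.own_nonneg h0.le h1 K
  have hp := pow_pos h0 E.blk
  have h2k := Nat.two_pow_pos k
  set T' := T / p ^ E.blk
  have hT'1 : 1 ≤ T' := (one_le_div hp).2 ((pow_le_one₀ h0.le h1).trans hT1)
  have hT' : 0 ≤ T' := zero_le_one.trans hT'1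
  obtain ⟨M, cut, hM, hmono, hx, hyout, hfirst, hgate⟩ := E.rows x u v K (by omega)
  set L := (u - E.N) * M with hL
  have hyC : ∀ i, i ≤ L → ∀ y ∈ F, y ∉ cut i := fun i hi y hy => hyout y i (hF y hy) hi
  set Wd := E.ball x K
  have hWd : ∀ z ∈ Wd, Link E.G Set.univ K x z := fun z hz =>
    let ⟨w, hw⟩ := E.mem_ball.1 hz
    ⟨w, hw, fun _ _ => Set.mem_univ _⟩
  set S : ℕ → V → Finset V := fun i z => insert z (Wd.filter fun w => w ∉ cut i)
  set M₀ : V × ℕ → ℝ := fun q => ∑ y ∈ F, tauW E.nb (S q.2 q.1) p q.1 y K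
  have hstep : ∀ (j : ℕ) (z : V) (S₁ : Finset V), j ≤ L → z ∈ cut j →
      (∀ w ∈ S₁, w = z ∨ w ∈ Wd) →
      ∑ y ∈ F, tauW E.nb S₁ p z y K ≤
        ∑ w ∈ S₁.filter (fun w => Gate E.G (cut j) w), tauW E.nb S₁ p z w K * M₀ (w, j) := by
    intro j z S₁ hj hz hS₁
    simp only [M₀, mul_sum]
    rw [sum_comm]
    refine sum_le_sum fun y hy => ?_
    refine le_trans (TR.tauW_last_exit E.hl S₁ (cut j) (S₁.filter (fun w => Gate E.G (cut j) w))
      (fun w => S j w) h0.le h1 (hyC j hj y hy)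
      (fun x' w hadj hx' hw hwS => mem_filter.2 ⟨hwS, hw, x', hadj, hx'⟩)
      (fun w _ => ⟨mem_insert_self _ _, fun b hb hb' => ?_⟩) K) (le_of_eq ?_)
    · rcases hS₁ b hb with rfl | h
      · exact absurd hz hb'
      · exact mem_insert_of_mem (mem_filter.2 ⟨h, hb'⟩)
    · rw [QT.tauW_outside (S₁.filter fun b => b ∉ cut j) p (a := z) (y := y) K
        (fun e => hyC j hj y hy (e ▸ hz)) (fun h => (mem_filter.1 h).2 hz), zero_add]
  let P : V × ℕ → Prop := fun q => q.2 ≤ L ∧ q.1 ∈ Wd ∧ Gate E.G (cut q.2) q.1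
  have hcuts := TA.cuts_decay (S := {q // P q}) (fun s => (L - s.1.2) / M)
    (fun s => M₀ s.1) (T := (E.N : ℝ) * T') (CT := 4 * (2 * (E.N : ℝ) + 1))
    (N₀ := 2) (by omega) (by positivity) (by positivity) ?_ ?_ k
  rotate_left
  · rintro ⟨⟨z, i⟩, hi, hzW, hz⟩
    simp only at hi hz hzW ⊢
    obtain ⟨χ, d, hlink, hout, -, -, hsplit⟩ := hgate i z hi (hWd z hzW) hz
    obtain ⟨f, hf⟩ := hsplit (F : Set V) fun y hy => ⟨hF y hy, hyC i hi y hy⟩
    show ∑ y ∈ F, tauW E.nb (S i z) p z y K ≤ _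
    rw [← sum_fiberwise F f]
    refine (sum_le_card_nsmul _ _ T' fun q _ => ?_).trans (le_of_eq (by
      rw [card_univ, Fintype.card_fin, nsmul_eq_mul]))
    refine anchored_tail h0 hT hlink hout (S i z) _ (fun w hw => ?_)
      (E.thin_mono (fun y hy => ?_) (hf q))
    · rcases mem_insert.1 hw with h | h
      exacts [Or.inl h, Or.inr (mem_filter.1 h).2]
    · obtain ⟨h2, h3⟩ := mem_filter.1 (mem_coe.1 hy)
      exact ⟨mem_coe.2 h2, h3⟩
  · rintro ⟨⟨z, i⟩, hi, hzW, hz⟩ hN
    simp only at hi hz hzW hN ⊢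
    set n := (L - i) / M with hn
    have hnM : n * M ≤ L - i := Nat.div_mul_le_self _ _
    have hhalf : n / 2 * M ≤ n * M := Nat.mul_le_mul_right _ (Nat.div_le_self _ _)
    set I := Ico i (i + n / 2 * M) with hI
    have hIb : ∀ j ∈ I, i ≤ j ∧ j ≤ L ∧ n ≤ 2 * ((L - j) / M) := by
      intro j hj
      rw [hI, mem_Ico] at hj
      refine ⟨hj.1, by omega, ?_⟩
      have h2 : n - n / 2 ≤ (L - j) / M := by
        rw [Nat.le_div_iff_mul_le (by omega), Nat.sub_mul]
        omega
      omega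
    obtain ⟨χ, d, hlink, hout, hthin, hcharge, -⟩ := hgate i z hi (hWd z hzW) hz
    have hzC : ∀ j ∈ I, z ∈ cut j := fun j hj => hmono (hIb j hj).1 hz.1
    have hSW : ∀ w ∈ S i z, w ∈ Wd := fun w hw => by
      rcases mem_insert.1 hw with rfl | h
      exacts [hzW, (mem_filter.1 h).1]
    have hSout : ∀ w ∈ S i z, w = z ∨ w ∉ cut i := fun w hw => by
      rcases mem_insert.1 hw with h | h
      exacts [Or.inl h, Or.inr (mem_filter.1 h).2]
    set Q := ((S i z) ×ˢ I).filter fun q => Gate E.G (cut q.2) q.1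
    have hPQ : ∀ q ∈ Q, P q := fun q hq => by
      obtain ⟨hq1, hq2⟩ := mem_filter.1 hq
      obtain ⟨hq3, hq4⟩ := mem_product.1 hq1
      exact ⟨(hIb _ hq4).2.1, hSW _ hq3, hq2⟩
    have hM0 : (0 : ℝ) < M := Nat.cast_pos.2 hM
    have hw0 : ∀ w, 0 ≤ tauW E.nb (S i z) p z w K := fun w => tauW_nonneg _ h0.le h1 _ _ _
    refine ⟨Q.subtype P, fun s => 4 / (M : ℝ) * tauW E.nb (S i z) p z s.1.1 K,
      fun s _ => mul_nonneg (by positivity) (hw0 _), ?_, fun s hs => ?_, ?_⟩
    · rw [sum_subtype_of_mem (fun q => 4 / (M : ℝ) * tauW E.nb (S i z) p z q.1 K) hPQ, ← mul_sum,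
        sum_filter, sum_product]
      set c : V → ℕ := fun w => (I.filter fun j => Gate E.G (cut j) w).card
      have hc : ∀ w ∈ S i z, c w * 2 ^ (d w / E.N) ≤ E.N * M := fun w hw =>
        hcharge w (hWd w (hSW w hw)) _ fun l hl => by
          obtain ⟨h2, h3⟩ := mem_filter.1 hl
          exact ⟨(hIb l h2).1, (hIb l h2).2.1, h3⟩
      have hrest : ∑ w ∈ (S i z).erase z, (c w : ℝ) * tauW E.nb (S i z) p z w K ≤
          (E.N : ℝ) * M * (2 * E.N) * T' := by
        rw [← sum_filter_of_ne (p := fun w => c w ≠ 0) fun w _ hne h => hne (by simp [h])]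
        refine charged_sum E.one_le_N _ d c _ (fun w _ => hw0 w)
          (fun w hw => hc w (mem_erase.1 (mem_filter.1 hw).1).2) hT' fun q => ?_
        refine anchored_tail h0 hT hlink hout (S i z) _ hSout
          (E.thin_mono (fun w hw => ?_) (hthin q))
        obtain ⟨hw1, hwq⟩ := mem_filter.1 (mem_coe.1 hw)
        obtain ⟨hw2, hw3⟩ := mem_filter.1 hw1
        obtain ⟨hne, hwS⟩ := mem_erase.1 hw2
        obtain ⟨l, hl⟩ := card_pos.1 (Nat.pos_of_ne_zero hw3)
        obtain ⟨hl, hg⟩ := mem_filter.1 hl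
        exact ⟨(hSout w hwS).resolve_left hne, hwq, l, (hIb l hl).1, (hIb l hl).2.1, hg⟩
      have hzc : (c z : ℝ) ≤ (E.N : ℝ) * M := by
        exact_mod_cast (Nat.le_mul_of_pos_right _ (Nat.two_pow_pos _)).trans
          (hc z (mem_insert_self _ _))
      calc 4 / (M : ℝ) * ∑ w ∈ S i z, ∑ j ∈ I,
            (if Gate E.G (cut j) w then tauW E.nb (S i z) p z w K else 0)
          = 4 / (M : ℝ) * ∑ w ∈ S i z, (c w : ℝ) * tauW E.nb (S i z) p z w K := by
            congr 1
            refine sum_congr rfl fun w _ => ?_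
            rw [← sum_filter, sum_const, nsmul_eq_mul]
        _ ≤ 4 / (M : ℝ) * ((E.N : ℝ) * M * (2 * E.N) * T' + (E.N : ℝ) * M) := by
            refine mul_le_mul_of_nonneg_left ?_ (by positivity)
            rw [← sum_erase_add _ _ (show z ∈ S i z from mem_insert_self _ _), tauW_self, mul_one]
            exact add_le_add hrest hzc
        _ = 4 * (E.N : ℝ) * (2 * E.N * T' + 1) := by field_simp
        _ ≤ 4 * (E.N : ℝ) * (2 * E.N * T' + T') :=
            mul_le_mul_of_nonneg_left (by linarith) (by positivity)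
        _ = _ := by ring
    · exact (hIb _ (mem_product.1 (mem_filter.1 (mem_subtype.1 hs)).1).2).2.2
    · rw [sum_subtype_of_mem (fun q => 4 / (M : ℝ) * tauW E.nb (S i z) p z q.1 K * M₀ q) hPQ,
        sum_filter, sum_product_right]
      have hone : ∀ j ∈ I, M₀ (z, i) ≤ ∑ w ∈ S i z,
          if Gate E.G (cut j) w then tauW E.nb (S i z) p z w K * M₀ (w, j) else 0 := by
        intro j hj
        rw [← sum_filter]
        exact hstep j z (S i z) (hIb j hj).2.1 (hzC j hj)
          fun w hw => (mem_insert.1 hw).imp id fun h => (mem_filter.1 h).1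
      refine le_trans (b := 4 / (M : ℝ) * ∑ j ∈ I, ∑ w ∈ S i z,
        if Gate E.G (cut j) w then tauW E.nb (S i z) p z w K * M₀ (w, j) else 0) ?_ ?_
      · refine le_trans ?_ (mul_le_mul_of_nonneg_left (sum_le_sum hone) (by positivity))
        rw [sum_const, nsmul_eq_mul, ← mul_assoc, hI, Nat.card_Ico, Nat.add_sub_cancel_left]
        refine mul_le_mul_of_nonneg_right ?_
          (sum_nonneg fun y _ => tauW_nonneg _ h0.le h1 _ _ _)
        rw [div_mul_eq_mul_div, le_div_iff₀ hM0, Nat.cast_mul, ← mul_assoc]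
        refine mul_le_mul_of_nonneg_right ?_ hM0.le
        exact_mod_cast (show n ≤ 4 * (n / 2) by omega)
      · simp only [mul_sum, mul_ite, mul_zero, mul_assoc]
        exact le_rfl
  -- the first unit of cuts
  set B : ℝ := (4 * (2 * (E.N : ℝ) + 1) * 2 ^ k) ^ k *
    ((E.N : ℝ) * T' / (u - E.N - 1 : ℕ)) ^ k * ((E.N : ℝ) * T')
  have hB0 : 0 ≤ B := by positivity
  have hn1 : 2 ^ k * 2 ≤ u - E.N - 1 := by omega
  have hM0 : (0 : ℝ) < M := Nat.cast_pos.2 hM
  have hML : ∀ j ∈ range M, j ≤ L ∧ u - E.N - 1 ≤ (L - j) / M := by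
    intro j hj
    rw [mem_range] at hj
    have h2 : (u - E.N - 1) * M + M = L := by
      rw [hL, ← Nat.succ_mul]
      congr 1
      omega
    refine ⟨by omega, ?_⟩
    rw [Nat.le_div_iff_mul_le (by omega)]
    omega
  have hone : ∀ j ∈ range M, ∑ y ∈ F, E.tau p K x y ≤
      ∑ w ∈ Wd, (if Gate E.G (cut j) w then tauW E.nb Wd p x w K else 0) * B := by
    intro j hj
    obtain ⟨hjL, hjn⟩ := hML j hj
    refine (hstep j x Wd hjL (hmono (Nat.zero_le j) hx) fun w hw => Or.inr hw).trans ?_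
    rw [sum_filter]
    refine sum_le_sum fun w hw => ?_
    split_ifs with hg
    swap
    · rw [zero_mul]
    refine mul_le_mul_of_nonneg_left ((hcuts ⟨(w, j), hjL, hw, hg⟩ (hn1.trans hjn)).trans ?_)
      (tauW_nonneg _ h0.le h1 _ _ _)
    refine mul_le_mul_of_nonneg_right (mul_le_mul_of_nonneg_left (pow_le_pow_left₀ (by positivity)
      (div_le_div_of_nonneg_left (by positivity) (Nat.cast_pos.2 (by omega))
        (Nat.cast_le.2 hjn)) k) (by positivity)) (by positivity)
  set c : V → ℕ := fun w => ((range M).filter fun j => Gate E.G (cut j) w).card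
  have hsum : (M : ℝ) * ∑ y ∈ F, E.tau p K x y ≤
      (E.N : ℝ) * M * (2 * E.N) * E.own p K * B := by
    calc (M : ℝ) * ∑ y ∈ F, E.tau p K x y = ∑ _j ∈ range M, ∑ y ∈ F, E.tau p K x y := by
          rw [sum_const, card_range, nsmul_eq_mul]
      _ ≤ ∑ j ∈ range M, ∑ w ∈ Wd,
            (if Gate E.G (cut j) w then tauW E.nb Wd p x w K else 0) * B := sum_le_sum hone
      _ = (∑ w ∈ Wd, (c w : ℝ) * tauW E.nb Wd p x w K) * B := by
          rw [sum_comm, sum_mul]
          refine sum_congr rfl fun w _ => ?_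
          rw [← sum_mul, ← sum_filter, sum_const, nsmul_eq_mul]
      _ ≤ _ := by
          refine mul_le_mul_of_nonneg_right (charged_sum E.one_le_N Wd (E.sph x) c _
            (fun w _ => tauW_nonneg _ h0.le h1 _ _ _) (fun w hw => ?_) hown fun q => ?_) hB0
          · exact hfirst w (hWd w hw) _ fun j hj =>
              ⟨mem_range.1 (mem_filter.1 hj).1, (mem_filter.1 hj).2⟩
          · exact E.sum_shell_le h0.le h1 K x _ q fun w hw => (mem_filter.1 hw).2
  refine le_of_mul_le_mul_left (hsum.trans_eq ?_) hM0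
  ring

end Core

end Vale.Agent.P165.HY
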