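import Vale.Agent.P165.HY.Matrix

/-!
# Linear images that are not virtually solvable

A homomorphism into `SL(2, ℝ)` either maps a finite index subgroup onto a solvable group, or its
image contains two hyperbolic elements whose commutator does not have trace `2`.
-/

namespace Vale.Agent.P165.HY.Sl2

open scoped MatrixGroups
open Mat (tr kappa kappa_eq det_eq)

variable {Γ : Type} [Group Γ]

theorem coe_mul' (x y : SL(2, ℝ)) (i j : Fin 2) :
    (x * y).1 i j = x.1 i 0 * y.1 0 j + x.1 i 1 * y.1 1 j := by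
  simp [Matrix.SpecialLinearGroup.coe_mul, Matrix.mul_apply, Fin.sum_univ_two]

theorem inv_apply' (x : SL(2, ℝ)) : (x⁻¹).1 0 0 = x.1 1 1 ∧ (x⁻¹).1 0 1 = -x.1 0 1 ∧
    (x⁻¹).1 1 0 = -x.1 1 0 ∧ (x⁻¹).1 1 1 = x.1 0 0 := by
  simp [Matrix.SpecialLinearGroup.coe_inv, Matrix.adjugate_fin_two]

theorem ext2 {x y : SL(2, ℝ)} (h00 : x.1 0 0 = y.1 0 0) (h01 : x.1 0 1 = y.1 0 1)
    (h10 : x.1 1 0 = y.1 1 0) (h11 : x.1 1 1 = y.1 1 1) : x = y := by
  apply Subtype.ext
  ext i j
  fin_cases i <;> fin_cases j <;> assumption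

/-- A group of triangular matrices is solvable. -/
theorem solvable_tri (S : Subgroup SL(2, ℝ))
    (h : (∀ x ∈ S, x.1 1 0 = 0) ∨ ∀ x ∈ S, x.1 0 1 = 0) : Group.IsSolvable S := by
  have hz : ∀ x ∈ S, x.1 0 1 * x.1 1 0 = 0 := fun x hx => by
    rcases h with h | h <;> simp [h x hx]
  have hmul : ∀ x ∈ S, ∀ y ∈ S, (x * y).1 0 0 = x.1 0 0 * y.1 0 0 := fun x hx y hy => by
    rw [coe_mul']
    rcases h with h | h
    · simp [h y hy]
    · simp [h x hx]
  have hne : ∀ x ∈ S, x.1 0 0 ≠ 0 := fun x hx h0 => by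
    have hd := det_eq x
    rw [h0, hz x hx] at hd
    simp at hd
  let χ : S →* ℝ := { toFun := fun x => x.1.1 0 0, map_one' := by simp,
                      map_mul' := fun x y => hmul x.1 x.2 y.1 y.2 }
  let g : S →* ℝˣ := χ.toHomUnits
  have hker : ∀ a b : g.ker, a * b = b * a := by
    rintro ⟨⟨x, hx⟩, hgx⟩ ⟨⟨y, hy⟩, hgy⟩
    have kx : x.1 0 0 = 1 := by
      have := congrArg Units.val (MonoidHom.mem_ker.1 hgx)
      simpa [g, χ] using this
    have ky : y.1 0 0 = 1 := by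
      have := congrArg Units.val (MonoidHom.mem_ker.1 hgy)
      simpa [g, χ] using this
    have dx : x.1 1 1 = 1 := by
      have hd := det_eq x
      rw [kx, hz x hx] at hd
      linarith
    have dy : y.1 1 1 = 1 := by
      have hd := det_eq y
      rw [ky, hz y hy] at hd
      linarith
    apply Subtype.ext
    apply Subtype.ext
    apply ext2 <;> simp only [Subgroup.coe_mul, coe_mul', kx, ky, dx, dy]
    · rcases h with h | h
      · rw [h x hx, h y hy]; ring
      · rw [h x hx, h y hy]; ring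
    · ring
    · ring
    · rcases h with h | h
      · rw [h x hx, h y hy]; ring
      · rw [h x hx, h y hy]; ring
  have : Group.IsSolvable g.ker := Group.isSolvable_of_comm hker
  exact Group.isSolvable_of_ker_le_range g.ker.subtype g (by rw [Subgroup.range_subtype])

theorem solvable_comm (S : Subgroup SL(2, ℝ)) (h : ∀ x ∈ S, ∀ y ∈ S, x * y = y * x) :
    Group.IsSolvable S :=
  Group.isSolvable_of_comm fun a b => Subtype.ext (h a.1 a.2 b.1 b.2)

/-- An element with trace at most two in absolute value, conjugated. -/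
theorem tr_conj (T x : SL(2, ℝ)) : tr (T * x * T⁻¹) = tr x := by
  obtain ⟨h00, h01, h10, h11⟩ := inv_apply' T
  have hd := det_eq T
  simp only [tr, coe_mul', h00, h01, h10, h11]
  linear_combination (x.1 0 0 + x.1 1 1) * hd

/-- Conjugating the homomorphism. -/
def conj (T : SL(2, ℝ)) (φ : Γ →* SL(2, ℝ)) : Γ →* SL(2, ℝ) :=
  (MulAut.conj T).toMonoidHom.comp φ

theorem conj_apply (T : SL(2, ℝ)) (φ : Γ →* SL(2, ℝ)) (g : Γ) : conj T φ g = T * φ g * T⁻¹ := rfl

theorem solvable_conj (T : SL(2, ℝ)) (φ : Γ →* SL(2, ℝ)) (H : Subgroup Γ)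
    (h : Group.IsSolvable (H.map (conj T φ))) : Group.IsSolvable (H.map φ) := by
  have e : H.map φ = (H.map (conj T φ)).map (MulAut.conj T⁻¹).toMonoidHom := by
    rw [Subgroup.map_map]
    congr 1
    apply MonoidHom.ext
    intro g
    simp [conj, mul_assoc]
  rw [e]
  exact Group.isSolvable_of_surjective (MonoidHom.subgroupMap_surjective _ _)

/-- Every element with real eigenvalues is conjugate to an upper triangular one. -/
theorem exists_tri (a : SL(2, ℝ)) (h : 2 ≤ |tr a|) : ∃ T : SL(2, ℝ), (T * a * T⁻¹).1 1 0 = 0 := by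
  by_cases hc : a.1 1 0 = 0
  · exact ⟨1, by simpa using hc⟩
  have hsq : 0 ≤ tr a ^ 2 - 4 := by nlinarith [sq_abs (tr a)]
  set s := √(tr a ^ 2 - 4)
  have hs : s * s = tr a ^ 2 - 4 := Real.mul_self_sqrt hsq
  -- the eigenvector `(x, c)`
  set x := (a.1 0 0 - a.1 1 1 + s) / 2 / a.1 1 0 with hx
  refine ⟨⟨!![0, 1; -1, x], by simp [Matrix.det_fin_two]⟩, ?_⟩
  set T : SL(2, ℝ) := ⟨!![0, 1; -1, x], by simp [Matrix.det_fin_two]⟩ with hT
  obtain ⟨h00, h01, h10, h11⟩ := inv_apply' T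
  have hd := det_eq a
  have t00 : T.1 0 0 = 0 := by simp [hT]
  have t01 : T.1 0 1 = 1 := by simp [hT]
  have t10 : T.1 1 0 = -1 := by simp [hT]
  have t11 : T.1 1 1 = x := by simp [hT]
  simp only [coe_mul', h00, h01, h10, h11, t00, t01, t10, t11]
  have hx' : 2 * a.1 1 0 * x = a.1 0 0 - a.1 1 1 + s := by rw [hx]; field_simp
  simp only [tr] at hs
  refine (mul_eq_zero_iff_left (mul_ne_zero (by norm_num : (4 : ℝ) ≠ 0) hc)).1 ?_
  linear_combination (2 * a.1 1 0 * x + a.1 0 0 - a.1 1 1 + s - 2 * (a.1 0 0 - a.1 1 1)) * hx' + hs +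
    4 * hd

/-- A hyperbolic element is conjugate to a diagonal one. -/
theorem exists_diag (a : SL(2, ℝ)) (h : 2 < |tr a|) :
    ∃ T : SL(2, ℝ), (T * a * T⁻¹).1 1 0 = 0 ∧ (T * a * T⁻¹).1 0 1 = 0 := by
  obtain ⟨T, hT⟩ := exists_tri a h.le
  set b := T * a * T⁻¹ with hb
  have htr : tr b = tr a := tr_conj T a
  have hd := det_eq b
  rw [hT, mul_zero, sub_zero] at hd
  have hne : b.1 1 1 - b.1 0 0 ≠ 0 := fun e => by
    rw [sub_eq_zero.1 e] at hd
    rw [← htr, tr, sub_eq_zero.1 e] at h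
    nlinarith [sq_abs (b.1 0 0 + b.1 0 0)]
  set t := b.1 0 1 / (b.1 0 0 - b.1 1 1) with ht
  let U : SL(2, ℝ) := ⟨!![1, t; 0, 1], by simp [Matrix.det_fin_two]⟩
  refine ⟨U * T, ?_⟩
  have e : U * T * a * (U * T)⁻¹ = U * b * U⁻¹ := by rw [hb]; group
  obtain ⟨h00, h01, h10, h11⟩ := inv_apply' U
  rw [e]
  simp only [coe_mul', h00, h01, h10, h11]
  have hne' : b.1 0 0 - b.1 1 1 ≠ 0 := fun e => hne (by linarith)
  simp [U, hT, ht]
  field_simp
  ring

/-- The hypothesis on a pair. -/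
def Good (φ : Γ →* SL(2, ℝ)) : Prop :=
  ∃ g h : Γ, 2 < |tr (φ g)| ∧ 2 < |tr (φ h)| ∧ tr (φ (g * h * g⁻¹ * h⁻¹)) ≠ 2

theorem good_of_conj (T : SL(2, ℝ)) (φ : Γ →* SL(2, ℝ)) (h : Good (conj T φ)) : Good φ := by
  obtain ⟨g, k, h1, h2, h3⟩ := h
  simp only [conj_apply, tr_conj] at h1 h2 h3
  exact ⟨g, k, h1, h2, h3⟩

/-- The diagonal case. -/
theorem of_diag (φ : Γ →* SL(2, ℝ)) (g : Γ) (hg : 2 < |tr (φ g)|) (h10 : (φ g).1 1 0 = 0)
    (h01 : (φ g).1 0 1 = 0) (hns : ∀ H : Subgroup Γ, H.FiniteIndex → ¬ Group.IsSolvable (H.map φ)) :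
    Good φ := by
  by_contra hbad
  set A := φ g with hA
  set p := A.1 0 0
  set q := A.1 1 1
  have hpq : p * q = 1 := by have := det_eq A; rw [h01, h10] at this; linarith
  have hne : p - q ≠ 0 := fun e => by
    have e' : p = q := sub_eq_zero.1 e
    simp only [tr, ← hA] at hg
    change 2 < |p + q| at hg
    rw [← e'] at hg hpq
    nlinarith [sq_abs (p + p)]
  -- every element has an entry equal to zero
  have hzero : ∀ γ : Γ, (φ γ).1 0 0 * (φ γ).1 0 1 * ((φ γ).1 1 0 * (φ γ).1 1 1) = 0 := by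
    intro γ
    by_contra h
    refine hbad ⟨g, γ * g * γ⁻¹, hg, by rw [map_mul, map_mul, map_inv, tr_conj]; exact hg, ?_⟩
    simp only [map_mul, map_inv, ← hA]
    intro e
    have hk : kappa A (φ γ * A * (φ γ)⁻¹) = 0 := by rw [kappa_eq, e, sub_self]
    obtain ⟨i00, i01, i10, i11⟩ := inv_apply' (φ γ)
    have hd := det_eq (φ γ)
    simp only [kappa, tr, coe_mul', i00, i01, i10, i11, h10, h01] at hk
    have : (p - q) ^ 4 * ((φ γ).1 0 0 * (φ γ).1 0 1 * ((φ γ).1 1 0 * (φ γ).1 1 1)) = 0 := by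
      grind
    rcases mul_eq_zero.1 this with h' | h'
    · exact pow_ne_zero 4 hne h'
    · exact h h'
  -- a zero on the diagonal forces two
  have hanti : ∀ γ, ((φ γ).1 0 0 = 0 ↔ (φ γ).1 1 1 = 0) := by
    intro γ
    set B := φ γ
    have hd := det_eq B
    constructor
    · intro h0
      by_contra h1
      rw [h0, zero_mul, zero_sub] at hd
      have hb : B.1 0 1 ≠ 0 := fun e => by rw [e] at hd; simp at hd
      have hc : B.1 1 0 ≠ 0 := fun e => by rw [e] at hd; simp at hd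
      have z1 := hzero (γ * γ)
      have z2 := hzero (g * γ * (g * γ))
      simp only [map_mul, coe_mul', ← hA, h10, h01, h0] at z1 z2
      change _ = _ at z1
      have e1 : B.1 1 1 ^ 2 = 1 := by grind
      have e2 : (q * B.1 1 1) ^ 2 = 1 := by grind
      grind
    · intro h0
      by_contra h1
      rw [h0, mul_zero, zero_sub] at hd
      have hb : B.1 0 1 ≠ 0 := fun e => by rw [e] at hd; simp at hd
      have hc : B.1 1 0 ≠ 0 := fun e => by rw [e] at hd; simp at hd
      have z1 := hzero (γ * γ)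
      have z2 := hzero (g * γ * (g * γ))
      simp only [map_mul, coe_mul', ← hA, h10, h01, h0] at z1 z2
      have e1 : B.1 0 0 ^ 2 = 1 := by grind
      have e2 : (p * B.1 0 0) ^ 2 = 1 := by grind
      grind
  by_cases hu : ∀ γ, (φ γ).1 1 0 = 0
  · exact hns ⊤ inferInstance (solvable_tri _ (Or.inl (by rintro x ⟨γ, -, rfl⟩; exact hu γ)))
  by_cases hl : ∀ γ, (φ γ).1 0 1 = 0
  · exact hns ⊤ inferInstance (solvable_tri _ (Or.inr (by rintro x ⟨γ, -, rfl⟩; exact hl γ)))
  push Not at hu hl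
  -- no element is triangular and not diagonal
  have hdiag : ∀ γ, (φ γ).1 0 0 ≠ 0 → (φ γ).1 0 1 = 0 ∧ (φ γ).1 1 0 = 0 := by
    intro u hu0
    obtain ⟨l, hl0⟩ := hu
    obtain ⟨w, hw0⟩ := hl
    have hu1 : (φ u).1 1 1 ≠ 0 := fun e => hu0 ((hanti u).2 e)
    have zu := hzero u
    simp only [mul_eq_zero, hu0, hu1, false_or, or_false] at zu
    by_contra hcon
    rcases zu with hb | hc
    · -- lower triangular: use an element with a nonzero upper entry
      have hc : (φ u).1 1 0 ≠ 0 := fun e => hcon ⟨hb, e⟩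
      by_cases hw1 : (φ w).1 0 0 = 0
      · have hw2 := (hanti w).1 hw1
        have h := (hanti (u * w)).1
        simp only [map_mul, coe_mul', hb, hw1, hw2, mul_zero, zero_mul, add_zero, zero_add] at h
        simp [hc, hw0] at h
      · have hw2 : (φ w).1 1 1 ≠ 0 := fun e => hw1 ((hanti w).2 e)
        have zw := hzero w
        simp only [mul_eq_zero, hw1, hw2, hw0, false_or, or_false] at zw
        have h := hzero (u * w)
        have h' := (hanti (u * w)).2
        simp only [map_mul, coe_mul', hb, zw, mul_zero, zero_mul, add_zero, zero_add] at h h'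
        simp [hu0, hw1, hw0, hc, mul_eq_zero] at h h'
        exact h' h
    · -- upper triangular: use an element with a nonzero lower entry
      have hb : (φ u).1 0 1 ≠ 0 := fun e => hcon ⟨e, hc⟩
      by_cases hl1 : (φ l).1 0 0 = 0
      · have hl2 := (hanti l).1 hl1
        have h := (hanti (u * l)).2
        simp only [map_mul, coe_mul', hc, hl1, hl2, mul_zero, zero_mul, add_zero, zero_add] at h
        simp [hb, hl0] at h
      · have hl2 : (φ l).1 1 1 ≠ 0 := fun e => hl1 ((hanti l).2 e)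
        have zl := hzero l
        simp only [mul_eq_zero, hl1, hl2, hl0, false_or, or_false] at zl
        have h := hzero (u * l)
        have h' := (hanti (u * l)).1
        simp only [map_mul, coe_mul', hc, zl, mul_zero, zero_mul, add_zero, zero_add] at h h'
        simp [hu1, hl2, hl0, hb, mul_eq_zero] at h h'
        exact h' h
  -- the diagonal elements form a subgroup of index two
  let D : Subgroup Γ :=
    { carrier := {γ | (φ γ).1 0 1 = 0 ∧ (φ γ).1 1 0 = 0}
      one_mem' := by simp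
      mul_mem' := fun {a b} ha hb => by
        simp only [Set.mem_ofPred_eq, map_mul, coe_mul'] at *
        obtain ⟨a1, a2⟩ := ha; obtain ⟨b1, b2⟩ := hb
        simp [a1, a2, b1, b2]
      inv_mem' := fun {a} ha => by
        obtain ⟨-, i01, i10, -⟩ := inv_apply' (φ a)
        simp only [Set.mem_ofPred_eq, map_inv] at *
        rw [i01, i10]; simp [ha] }
  have hsol : Group.IsSolvable (D.map φ) :=
    solvable_tri _ (Or.inl (by rintro x ⟨γ, hγ, rfl⟩; exact hγ.2))
  refine hns D ?_ hsol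
  obtain ⟨w, hw⟩ := hu
  have hw0 : (φ w).1 0 0 = 0 := by_contra fun e => hw (hdiag w e).2
  have hidx : D.index = 2 := by
    rw [Subgroup.index_eq_two_iff]
    refine ⟨w, fun b => ?_⟩
    have hb := hanti b
    have hw1 := (hanti w).1 hw0
    have hdb := det_eq (φ b)
    have hdw := det_eq (φ w)
    by_cases hb0 : (φ b).1 0 0 = 0
    · refine Or.inl ⟨?_, fun hmem => ?_⟩
      · show _ ∧ _
        simp [coe_mul', hb0, hw0, hw1, hb.1 hb0]
      · have := hmem.1
        rw [hb0, this] at hdb; simp at hdb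
    · refine Or.inr ⟨hdiag b hb0, fun hmem => ?_⟩
      have := hmem.1
      simp only [map_mul, coe_mul', hw1, (hdiag b hb0).1] at this
      have : (φ w).1 0 1 ≠ 0 := fun e => by rw [hw0, e] at hdw; simp at hdw
      simp_all
  exact ⟨by rw [hidx]; norm_num⟩

theorem elliptic (a b : SL(2, ℝ)) (ha : |tr a| < 2) :
    0 ≤ kappa a b ∧ (kappa a b = 0 → a * b = b * a) := by
  have hda := det_eq a
  have hdb := det_eq b
  have hD : (a.1 0 0 - a.1 1 1) ^ 2 + 4 * a.1 0 1 * a.1 1 0 < 0 := by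
    simp only [tr] at ha
    nlinarith [sq_abs (a.1 0 0 + a.1 1 1), abs_nonneg (a.1 0 0 + a.1 1 1)]
  set u := a.1 0 1 * b.1 1 0 - b.1 0 1 * a.1 1 0 with hu
  set v := b.1 0 1 * (a.1 0 0 - a.1 1 1) - a.1 0 1 * (b.1 0 0 - b.1 1 1) with hv
  set D := -((a.1 0 0 - a.1 1 1) ^ 2 + 4 * a.1 0 1 * a.1 1 0)
  have hy : a.1 0 1 ≠ 0 := fun e => by rw [e] at hD; nlinarith [sq_nonneg (a.1 0 0 - a.1 1 1)]
  have key : 4 * a.1 0 1 ^ 2 * kappa a b =
      (2 * a.1 0 1 * u - (a.1 0 0 - a.1 1 1) * v) ^ 2 + D * v ^ 2 := by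
    simp only [kappa, tr, coe_mul', u, v, D]
    grind
  have hpos : 0 < 4 * a.1 0 1 ^ 2 := by positivity
  have hD' : 0 < D := by simp only [D]; linarith
  have hs := sq_nonneg (2 * a.1 0 1 * u - (a.1 0 0 - a.1 1 1) * v)
  have hv2 := mul_nonneg hD'.le (sq_nonneg v)
  refine ⟨nonneg_of_mul_nonneg_right (key ▸ add_nonneg hs hv2) hpos, fun e => ?_⟩
  rw [e, mul_zero] at key
  have v0 : v = 0 := by
    have : D * v ^ 2 = 0 := by linarith
    simpa [hD'.ne'] using this
  have u0 : u = 0 := by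
    have : (2 * a.1 0 1 * u) ^ 2 = 0 := by rw [v0] at key; linarith
    simpa [hy] using this
  rw [hu] at u0
  rw [hv] at v0
  apply ext2 <;> simp only [coe_mul'] <;> grind

theorem comm_of_comm (a x y : SL(2, ℝ)) (hy : a.1 0 1 ≠ 0) (hx : a * x = x * a)
    (hy' : a * y = y * a) : x * y = y * x := by
  have ex : ∀ i j, (a * x).1 i j = (x * a).1 i j := fun i j => by rw [hx]
  have ey : ∀ i j, (a * y).1 i j = (y * a).1 i j := fun i j => by rw [hy']
  simp only [coe_mul'] at ex ey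
  have x0 := ex 0 0
  have x1 := ex 0 1
  have y0 := ey 0 0
  have y1 := ey 0 1
  apply ext2 <;> simp only [coe_mul'] <;> grind

/-- The dichotomy. -/
theorem good_of_not_solvable (φ : Γ →* SL(2, ℝ))
    (hns : ∀ H : Subgroup Γ, H.FiniteIndex → ¬ Group.IsSolvable (H.map φ)) : Good φ := by
  by_cases hh : ∃ g, 2 < |tr (φ g)|
  · obtain ⟨g, hg⟩ := hh
    obtain ⟨T, h10, h01⟩ := exists_diag (φ g) hg
    refine good_of_conj T φ (of_diag (conj T φ) g ?_ h10 h01
      fun H hH hs => hns H hH (solvable_conj T φ H hs))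
    rw [conj_apply, tr_conj]; exact hg
  push Not at hh
  exfalso
  apply hns ⊤ inferInstance
  have hcom : ∀ a b : Γ, kappa (φ a) (φ b) ≤ 0 := fun a b => by
    have := (le_abs_self _).trans (hh (a * b * a⁻¹ * b⁻¹))
    rw [kappa_eq]
    simp only [map_mul, map_inv] at this
    linarith
  by_cases he : ∃ a, |tr (φ a)| < 2
  · obtain ⟨a, ha⟩ := he
    have hca : ∀ b, φ a * φ b = φ b * φ a := fun b =>
      (elliptic _ _ ha).2 (le_antisymm (hcom a b) (elliptic _ _ ha).1)
    have hy : (φ a).1 0 1 ≠ 0 := fun e => by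
      have hd := det_eq (φ a)
      simp only [tr] at ha
      rw [e] at hd
      nlinarith [sq_abs ((φ a).1 0 0 + (φ a).1 1 1),
        abs_nonneg ((φ a).1 0 0 + (φ a).1 1 1), sq_nonneg ((φ a).1 0 0 - (φ a).1 1 1)]
    refine solvable_comm _ ?_
    rintro x ⟨γ, -, rfl⟩ y ⟨δ, -, rfl⟩
    exact comm_of_comm _ _ _ hy (hca γ) (hca δ)
  push Not at he
  by_cases hsc : ∀ a, (φ a).1 0 1 = 0 ∧ (φ a).1 1 0 = 0
  · exact solvable_tri _ (Or.inl (by rintro x ⟨γ, -, rfl⟩; exact (hsc γ).2))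
  obtain ⟨a, ha⟩ := not_forall.1 hsc
  obtain ⟨T, hT⟩ := exists_tri (φ a) (he a)
  refine solvable_conj T φ ⊤ (solvable_tri _ (Or.inl ?_))
  rintro x ⟨b, -, rfl⟩
  set A := T * φ a * T⁻¹ with hA
  set B := conj T φ b
  have htA : (A.1 0 0 + A.1 1 1) ^ 2 = 4 := by
    have h1 : |tr A| = 2 := by rw [hA, tr_conj]; exact le_antisymm (hh a) (he a)
    have := sq_abs (tr A)
    rw [h1] at this
    simp only [tr] at this
    linarith
  have hdA := det_eq A
  rw [hT, mul_zero, sub_zero] at hdA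
  have hpq : A.1 0 0 = A.1 1 1 := by nlinarith [sq_nonneg (A.1 0 0 - A.1 1 1)]
  have hk : kappa A B ≤ 0 := by
    have := hcom a b
    rw [kappa_eq] at this ⊢
    have e : A * B * A⁻¹ * B⁻¹ = T * (φ a * φ b * (φ a)⁻¹ * (φ b)⁻¹) * T⁻¹ := by
      rw [hA, show B = T * φ b * T⁻¹ from conj_apply T φ b]; group
    rw [e, tr_conj]
    exact this
  have hq : A.1 0 1 ≠ 0 := by
    intro e
    have hA1 : φ a = T⁻¹ * A * T := by rw [hA]; group
    apply ha
    obtain ⟨i00, i01, i10, i11⟩ := inv_apply' T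
    rw [hA1]
    simp only [coe_mul', i00, i01, i10, i11, e, hT, ← hpq]
    constructor <;> ring
  have hdB := det_eq B
  have key : kappa A B = (A.1 0 1 * B.1 1 0) ^ 2 := by
    simp only [kappa, tr, coe_mul', hT, ← hpq] at *
    grind
  rw [key] at hk
  have := le_antisymm hk (sq_nonneg _)
  simpa [hq] using this

/-- A homomorphism whose image is not virtually solvable gives four ends in the plane. -/
theorem fourEnds_of_not_solvable (φ : Γ →* SL(2, ℝ))
    (hns : ∀ H : Subgroup Γ, H.FiniteIndex → ¬ Group.IsSolvable (H.map φ)) :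
    FourEnds (Mat.planeAct φ) UpperHalfPlane.I := by
  obtain ⟨g, h, hg, hh, hk⟩ := good_of_not_solvable φ hns
  exact Mat.fourEnds_planeAct φ g h hg hh hk

end Vale.Agent.P165.HY.Sl2
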