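import Vale.Agent.P165.HY.Space

/-!
# The hyperbolic plane is hyperbolic with packing

Everything is read off from `exp (dist z w / 2) = Dd z w / (2 √(z.im w.im))`, where `Dd` is, up to a
factor `2`, the symmetric function `|z - w| + z.im + w.im` satisfying the triangle inequality.
-/

namespace Vale.Agent.P165.HY.Upper

open Real UpperHalfPlane
open scoped ComplexConjugate MatrixGroups

/-- The numerator of `exp (dist / 2)`. -/
noncomputable def Dd (z w : ℍ) : ℝ := dist (z : ℂ) w + dist (z : ℂ) (conj (w : ℂ))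

/-- A comparable function with a triangle inequality. -/
noncomputable def Mm (z w : ℍ) : ℝ := dist (z : ℂ) w + z.im + w.im

theorem Mm_comm (z w : ℍ) : Mm z w = Mm w z := by
  rw [Mm, Mm, dist_comm]; ring

theorem Mm_pos (z w : ℍ) : 0 < Mm z w := by
  have := z.im_pos
  have := w.im_pos
  have := dist_nonneg (x := (z : ℂ)) (y := (w : ℂ))
  rw [Mm]; linarith

theorem Mm_triangle (x y z : ℍ) : Mm x z ≤ Mm x y + Mm y z := by
  have h := dist_triangle (x : ℂ) y z
  have := y.im_pos
  simp only [Mm]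
  linarith

theorem im_add_le_dist_conj (z w : ℍ) : z.im + w.im ≤ dist (z : ℂ) (conj (w : ℂ)) := by
  have h := Complex.abs_im_le_norm ((z : ℂ) - conj (w : ℂ))
  rw [← dist_eq_norm, Complex.sub_im, Complex.conj_im, sub_neg_eq_add] at h
  exact (le_abs_self _).trans h

theorem dist_conj_le (z w : ℍ) : dist (z : ℂ) (conj (w : ℂ)) ≤ dist (z : ℂ) w + z.im + w.im := by
  have h1 := dist_triangle (z : ℂ) w (conj (w : ℂ))
  have h2 := dist_triangle (z : ℂ) (conj (z : ℂ)) (conj (w : ℂ))
  rw [Complex.dist_self_conj, UpperHalfPlane.coe_im] at h1 h2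
  rw [Complex.dist_conj_conj] at h2
  rw [abs_of_pos w.im_pos] at h1
  rw [abs_of_pos z.im_pos] at h2
  linarith

theorem Dd_bounds (z w : ℍ) : Mm z w ≤ Dd z w ∧ Dd z w ≤ 2 * Mm z w := by
  have h1 := im_add_le_dist_conj z w
  have h2 := dist_conj_le z w
  have := z.im_pos
  have := w.im_pos
  simp only [Mm, Dd]
  constructor <;> linarith

theorem Dd_pos (z w : ℍ) : 0 < Dd z w := (Mm_pos z w).trans_le (Dd_bounds z w).1

theorem exp_half (z w : ℍ) : exp (dist z w / 2) = Dd z w / (2 * √(z.im * w.im)) :=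
  UpperHalfPlane.exp_half_dist z w

/-- The visual kernel. -/
theorem exp_neg_gp (o x y : ℍ) :
    exp (-gp o x y) * (Dd o x * Dd o y) = 2 * o.im * Dd x y := by
  have h : exp (-gp o x y) * (exp (dist o x / 2) * exp (dist o y / 2)) = exp (dist x y / 2) := by
    rw [← exp_add, ← exp_add]
    congr 1
    rw [gp]; ring
  rw [exp_half, exp_half, exp_half] at h
  have ho := o.im_pos
  have hx := x.im_pos
  have hy := y.im_pos
  rw [sqrt_mul ho.le, sqrt_mul ho.le, sqrt_mul hx.le] at h
  have e : (√o.im) ^ 2 = o.im := sq_sqrt ho.le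
  have h' := sqrt_pos.2 ho
  have := sqrt_pos.2 hx
  have := sqrt_pos.2 hy
  field_simp at h
  rw [← e]
  nlinarith

theorem ptolemy (o x y z : ℍ) :
    Mm x z * Mm o y ≤ 4 * max (Mm x y * Mm o z) (Mm y z * Mm o x) := by
  have p1 := Mm_pos x z
  have p2 := Mm_pos o y
  have p3 := Mm_pos x y
  have p4 := Mm_pos o z
  have p5 := Mm_pos y z
  have p6 := Mm_pos o x
  have a1 := Mm_triangle x y z
  have a2 := Mm_triangle x o z
  have b1 := Mm_triangle o x y
  have b2 := Mm_triangle o z y
  rw [Mm_comm x o] at a2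
  rw [Mm_comm z y] at b2
  have hl := le_max_left (Mm x y * Mm o z) (Mm y z * Mm o x)
  have hr := le_max_right (Mm x y * Mm o z) (Mm y z * Mm o x)
  rcases le_total (Mm x y) (Mm y z) with h | h <;> rcases le_total (Mm o x) (Mm o z) with h' | h'
  · rcases le_total (Mm x y) (Mm o x) with h'' | h''
    · nlinarith
    · nlinarith
  · rcases le_total (Mm x y) (Mm o z) with h'' | h''
    · nlinarith
    · nlinarith
  · rcases le_total (Mm y z) (Mm o x) with h'' | h''
    · nlinarith
    · nlinarith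
  · rcases le_total (Mm y z) (Mm o z) with h'' | h''
    · nlinarith
    · nlinarith

/-- The four point condition. -/
theorem hyp : Hyp ℍ (Real.log 16) := by
  intro o x y z
  have exy := exp_neg_gp o x y
  have eyz := exp_neg_gp o y z
  have exz := exp_neg_gp o x z
  have bxy := Dd_bounds x y
  have byz := Dd_bounds y z
  have bxz := Dd_bounds x z
  have box := Dd_bounds o x
  have boy := Dd_bounds o y
  have boz := Dd_bounds o z
  have pox := Dd_pos o x
  have poy := Dd_pos o y
  have poz := Dd_pos o z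
  have h1 : Dd x z * Dd o y ≤ 16 * max (Dd x y * Dd o z) (Dd y z * Dd o x) := by
    calc Dd x z * Dd o y ≤ (2 * Mm x z) * (2 * Mm o y) :=
          mul_le_mul bxz.2 boy.2 poy.le (by linarith [Mm_pos x z])
      _ = 4 * (Mm x z * Mm o y) := by ring
      _ ≤ 4 * (4 * max (Mm x y * Mm o z) (Mm y z * Mm o x)) :=
          mul_le_mul_of_nonneg_left (ptolemy o x y z) (by norm_num)
      _ = 16 * max (Mm x y * Mm o z) (Mm y z * Mm o x) := by ring
      _ ≤ 16 * max (Dd x y * Dd o z) (Dd y z * Dd o x) := by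
          refine mul_le_mul_of_nonneg_left (max_le_max ?_ ?_) (by norm_num)
          · exact mul_le_mul bxy.1 boz.1 (Mm_pos o z).le (Dd_pos x y).le
          · exact mul_le_mul byz.1 box.1 (Mm_pos o x).le (Dd_pos y z).le
  have hpp : 0 < Dd o x * Dd o y * Dd o z := by positivity
  have key : exp (-gp o x z) ≤ 16 * max (exp (-gp o x y)) (exp (-gp o y z)) := by
    refine le_of_mul_le_mul_right ?_ hpp
    rw [show exp (-gp o x z) * (Dd o x * Dd o y * Dd o z) = 2 * o.im * (Dd x z * Dd o y) by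
      linear_combination (Dd o y) * exz]
    refine (mul_le_mul_of_nonneg_left h1 (by linarith [o.im_pos])).trans (le_of_eq ?_)
    rw [mul_assoc 16, max_mul_of_nonneg _ _ hpp.le,
      show exp (-gp o x y) * (Dd o x * Dd o y * Dd o z) = 2 * o.im * (Dd x y * Dd o z) by
        linear_combination (Dd o z) * exy,
      show exp (-gp o y z) * (Dd o x * Dd o y * Dd o z) = 2 * o.im * (Dd y z * Dd o x) by
        linear_combination (Dd o x) * eyz,
      ← mul_max_of_nonneg _ _ (by linarith [o.im_pos] : (0 : ℝ) ≤ 2 * o.im)]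
    ring
  have h2 := Real.log_le_log (exp_pos _) key
  rw [Real.log_exp, Real.log_mul (by norm_num) (lt_max_of_lt_left (exp_pos _)).ne'] at h2
  have h3 : Real.log (max (exp (-gp o x y)) (exp (-gp o y z))) = -min (gp o x y) (gp o y z) := by
    rw [← exp_strictMono.monotone.map_max, Real.log_exp, max_neg_neg]
  linarith

/-! ### Packing -/

theorem inversion_isometry :
    ∃ f : ℍ → ℍ, (∀ x y, dist (f x) (f y) = dist x y) ∧ f I = I ∧
      ∀ z, (f z : ℂ) = (-(z : ℂ))⁻¹ := by
  let S : SL(2, ℝ) := ⟨!![0, -1; 1, 0], by simp [Matrix.det_fin_two]⟩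
  have hS : ∀ z : ℍ, ((S • z : ℍ) : ℂ) = (-(z : ℂ))⁻¹ := fun z => by
    rw [coe_specialLinearGroup_apply]
    simp [S, div_eq_mul_inv, inv_neg]
  refine ⟨fun z => S • z, fun x y => dist_smul S x y, ?_, hS⟩
  apply UpperHalfPlane.ext
  rw [hS]
  simp

theorem exists_to_I (o : ℍ) : ∃ f : ℍ → ℍ, (∀ x y, dist (f x) (f y) = dist x y) ∧ f o = I := by
  have hpos : (0 : ℝ) < o.im⁻¹ := inv_pos.2 o.im_pos
  refine ⟨fun z => (⟨o.im⁻¹, hpos⟩ : {x : ℝ // 0 < x}) • ((-o.re) +ᵥ z), fun x y => ?_, ?_⟩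
  · rw [(isometry_pos_mul _).dist_eq, (isometry_real_vadd _).dist_eq]
  · apply UpperHalfPlane.ext
    have := o.im_pos.ne'
    apply Complex.ext <;> simp [this]

/-- Euclidean separation and confinement of the points of a packing set inside the unit disc. -/
theorem near_I {A r : ℝ} {x y : ℍ} (hx : ‖(x : ℂ)‖ ≤ 1) (hy : ‖(y : ℂ)‖ ≤ 1)
    (hd : 1 ≤ dist x y) (hgp : |gp I x y - r| ≤ A) :
    exp (-A) / 64 * exp (-r) ≤ dist (x : ℂ) y ∧ dist (x : ℂ) y ≤ 100 * exp A * exp (-r) := by
  have he := exp_neg_gp I x y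
  have hI : I.im = 1 := rfl
  rw [hI] at he
  have hb : ∀ z : ℍ, ‖(z : ℂ)‖ ≤ 1 → 1 ≤ Dd I z ∧ Dd I z ≤ 8 := fun z hz => by
    have h1 := Dd_bounds I z
    have h2 : Mm I z = dist (I : ℂ) z + 1 + z.im := rfl
    have h3 : dist (I : ℂ) z ≤ 2 := by
      rw [dist_eq_norm, coe_I]
      exact (norm_sub_le _ _).trans (by rw [Complex.norm_I]; linarith)
    have h4 : z.im ≤ 1 := (le_abs_self _).trans ((Complex.abs_im_le_norm (z : ℂ)).trans hz)
    have := z.im_pos
    have := dist_nonneg (x := (I : ℂ)) (y := (z : ℂ))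
    constructor <;> linarith
  obtain ⟨hx1, hx2⟩ := hb x hx
  obtain ⟨hy1, hy2⟩ := hb y hy
  obtain ⟨hlo, hhi⟩ := abs_le.1 hgp
  have e1 : exp (-A) * exp (-r) ≤ exp (-gp I x y) := by
    rw [← exp_add]; exact exp_le_exp.2 (by linarith)
  have e2 : exp (-gp I x y) ≤ exp A * exp (-r) := by
    rw [← exp_add]; exact exp_le_exp.2 (by linarith)
  have hp0 := exp_pos (-gp I x y)
  have hprod : 1 ≤ Dd I x * Dd I y ∧ Dd I x * Dd I y ≤ 64 :=
    ⟨by nlinarith, by nlinarith⟩
  have dlo : exp (-A) * exp (-r) ≤ 2 * Dd x y := by nlinarith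
  have dhi : Dd x y ≤ 32 * (exp A * exp (-r)) := by nlinarith
  have hb2 := Dd_bounds x y
  have hMd : Mm x y = dist (x : ℂ) y + x.im + y.im := rfl
  have hx0 := x.im_pos
  have hy0 := y.im_pos
  constructor
  · by_contra h
    push Not at h
    set c := exp (-A) * exp (-r)
    have hc : 0 < c := by positivity
    have hsum : c / 8 ≤ x.im + y.im := by
      have : exp (-A) / 64 * exp (-r) = c / 64 := by simp only [c]; ring
      linarith
    have hdiff : |x.im - y.im| ≤ dist (x : ℂ) y := by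
      rw [dist_eq_norm]
      refine le_trans (le_of_eq ?_) (Complex.abs_im_le_norm _)
      simp
    obtain ⟨hd1, hd2⟩ := abs_le.1 hdiff
    have hsmall : dist (x : ℂ) y < c / 64 := by
      have : exp (-A) / 64 * exp (-r) = c / 64 := by simp only [c]; ring
      linarith
    have hsq : c / 32 ≤ √(x.im * y.im) :=
      Real.le_sqrt_of_sq_le (by nlinarith)
    have hs : dist (x : ℂ) y / √(x.im * y.im) < 1 := by
      rw [div_lt_one (lt_of_lt_of_le (by linarith) hsq)]
      linarith
    have := UpperHalfPlane.dist_le_dist_coe_div_sqrt x y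
    linarith
  · have : (0 : ℝ) ≤ exp A * exp (-r) := by positivity
    linarith

theorem packing : Packing ℍ := by
  classical
  intro A
  set R : ℕ := ⌈100 * exp A * (2 * (64 * exp A))⌉₊ + 1
  set B : ℕ := (2 * R + 1) * (2 * R + 1)
  refine ⟨2 * (B + 1), fun o r _ s _ hpair => ?_⟩
  obtain ⟨f, hf, hfo⟩ := exists_to_I o
  obtain ⟨g, hg, hgI, hgz⟩ := inversion_isometry
  have key : ∀ (φ : ℍ → ℍ), (∀ x y, dist (φ x) (φ y) = dist x y) → φ o = I →
      ∀ t ⊆ s, (∀ x ∈ t, ‖(φ x : ℂ)‖ ≤ 1) → t.card ≤ B + 1 := by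
    intro φ hφ hφo t ht hle
    rcases t.eq_empty_or_nonempty with rfl | ⟨x₀, hx₀⟩
    · simp
    set η : ℝ := exp (-A) / 64 * exp (-r) / 2 with hη
    have hη0 : 0 < η := by positivity
    have hnear : ∀ x ∈ t, ∀ y ∈ t, x ≠ y → 2 * η ≤ dist (φ x : ℂ) (φ y) ∧
        dist (φ x : ℂ) (φ y) ≤ R * η := by
      intro x hx y hy hne
      obtain ⟨h1, h2⟩ := hpair (ht hx) (ht hy) hne
      have hgp : gp I (φ x) (φ y) = gp o x y := by rw [← hφo]; exact gp_map hφ o x y
      obtain ⟨h3, h4⟩ := near_I (r := r) (A := A) (hle x hx) (hle y hy) (by rw [hφ]; exact h1)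
        (by rw [hgp]; exact h2)
      refine ⟨by rw [hη]; linarith, h4.trans ?_⟩
      have hee : exp A * exp (-A) = 1 := by rw [← exp_add, add_neg_cancel, exp_zero]
      calc 100 * exp A * exp (-r) = 100 * exp A * (2 * (64 * exp A)) * η := by
            rw [hη]; linear_combination (-(100 * exp A * exp (-r))) * hee
        _ ≤ R * η := by
          refine mul_le_mul_of_nonneg_right ?_ hη0.le
          simp only [R, Nat.cast_add, Nat.cast_one]
          linarith [Nat.le_ceil (100 * exp A * (2 * (64 * exp A)))]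
    let cell : ℍ → ℤ × ℤ := fun x =>
      (⌊((φ x : ℂ) - (φ x₀ : ℂ)).re / η⌋, ⌊((φ x : ℂ) - (φ x₀ : ℂ)).im / η⌋)
    have hmap : ∀ x ∈ t.erase x₀, cell x ∈
        Finset.Icc (-(R : ℤ)) R ×ˢ Finset.Icc (-(R : ℤ)) R := by
      intro x hx
      obtain ⟨hne, hxt⟩ := Finset.mem_erase.1 hx
      have h := (hnear x hxt x₀ hx₀ hne).2
      rw [dist_eq_norm] at h
      have h1 := abs_le.1 ((Complex.abs_re_le_norm _).trans h)
      have h2 := abs_le.1 ((Complex.abs_im_le_norm _).trans h)
      have aux : ∀ v : ℝ, -(R * η) ≤ v ∧ v ≤ R * η → ⌊v / η⌋ ∈ Finset.Icc (-(R : ℤ)) R := by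
        intro v hv
        refine Finset.mem_Icc.2 ⟨Int.le_floor.2 ?_, Int.floor_le_iff.2 ?_⟩
        · push_cast
          rw [le_div_iff₀ hη0]; linarith
        · push_cast
          rw [div_lt_iff₀ hη0]; nlinarith
      exact Finset.mem_product.2 ⟨aux _ h1, aux _ h2⟩
    have hinj : Set.InjOn cell (t.erase x₀ : Finset ℍ) := by
      intro x hx y hy he
      by_contra hne
      have h := (hnear x (Finset.mem_of_mem_erase hx) y (Finset.mem_of_mem_erase hy) hne).1
      simp only [cell, Prod.mk.injEq] at he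
      have aux : ∀ v w : ℝ, ⌊v / η⌋ = ⌊w / η⌋ → |v - w| < η := fun v w hvw => by
        have := Int.abs_sub_lt_one_of_floor_eq_floor hvw
        rwa [← sub_div, abs_div, abs_of_pos hη0, div_lt_one hη0] at this
      have h1 := aux _ _ he.1
      have h2 := aux _ _ he.2
      rw [← Complex.sub_re, sub_sub_sub_cancel_right] at h1
      rw [← Complex.sub_im, sub_sub_sub_cancel_right] at h2
      have h3 := Complex.norm_le_abs_re_add_abs_im ((φ x : ℂ) - (φ y : ℂ))
      rw [dist_eq_norm] at h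
      linarith
    have hc := Finset.card_le_card_of_injOn cell hmap hinj
    rw [Finset.card_product, Int.card_Icc] at hc
    have e : ((R : ℤ) + 1 - -(R : ℤ)).toNat = 2 * R + 1 := by omega
    rw [e] at hc
    have := Finset.card_erase_add_one hx₀
    simp only [B]
    omega
  rw [← Finset.card_filter_add_card_filter_not (fun x => ‖(f x : ℂ)‖ ≤ 1)]
  have hA := key f hf hfo (s.filter fun x => ‖(f x : ℂ)‖ ≤ 1) (Finset.filter_subset _ _)
    fun x hx => (Finset.mem_filter.1 hx).2
  have hB := key (g ∘ f) (fun x y => by simp [Function.comp, hg, hf]) (by simp [hfo, hgI])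
    (s.filter fun x => ¬ ‖(f x : ℂ)‖ ≤ 1) (Finset.filter_subset _ _) fun x hx => by
      have h := (Finset.mem_filter.1 hx).2
      push Not at h
      rw [Function.comp_apply, hgz, norm_inv, norm_neg]
      exact inv_le_one_of_one_le₀ h.le
  omega

end Vale.Agent.P165.HY.Upper
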